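import Vale.Agent.P237.All.Mid.RangeSound

/-!
P237, cell `k` in `[4/5, 5/2]`: the soundness of a box.
-/

noncomputable section

open Real Set

namespace Vale.Agent.P237.All.Transport.Mid

/-- Mixing the two ends of `k`. -/
def mix (l : ℝ) (f : Bool → ℝ) : ℝ := (1 - l) * f false + l * f true

/-- The `0` or `1` of a corner. -/
def b01 (i : Bool) : ℝ := cond i 1 0

theorem nmax_ge_left (a b : ℕ) : (a : ℝ) ≤ (nmax a b : ℕ) := Nat.cast_le.2 (le_nmax_left a b)

theorem nmax_ge_right (a b : ℕ) : (b : ℝ) ≤ (nmax a b : ℕ) := Nat.cast_le.2 (le_nmax_right a b)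

theorem negMul_ge (x y : Sg) : -(x.v * y.v) ≤ (negMul x y : ℕ) := by
  rw [← Sg.mul_v]; exact Sg.neg_le_negPart _

/-- The loss of interpolating against an affine function. -/
theorem cov_sound {a b lam : ℝ} (ha : a ∈ Icc (0 : ℝ) 1) (hb : b ∈ Icc (0 : ℝ) 1)
    (hl : lam ∈ Icc (0 : ℝ) 1) (m : C4) (S0 S1 T0 T1 : Sg) (g0 gs gt : ℝ)
    (hgs : gs = (1 - lam) * S0.v + lam * S1.v) (hgt : gt = (1 - lam) * T0.v + lam * T1.v) :
    interp a b (fun i j => (m.get i j).v) * (g0 + a * gs + b * gt) ≤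
      interp a b (fun i j => (m.get i j).v * (g0 + b01 i * gs + b01 j * gt)) +
        ((nmax (covLoss m S0 T0) (covLoss m S1 T1) : ℕ) : ℝ) / 4 := by
  have l0 := hl.1
  have l1 := sub_nonneg.2 hl.2
  set A := fun S : Sg => (nmax (negMul (m.hl.sub m.ll) S) (negMul (m.hh.sub m.lh) S) : ℕ)
  set B := fun T : Sg => (nmax (negMul (m.lh.sub m.ll) T) (negMul (m.hh.sub m.hl) T) : ℕ)
  have nx : ∀ (u : Sg) (f : Sg → ℕ) (X Y : Sg) (g : ℝ), g = (1 - lam) * X.v + lam * Y.v →
      (∀ T : Sg, -(u.v * T.v) ≤ (f T : ℝ)) → -(u.v * g) ≤ (1 - lam) * (f X : ℝ) + lam * (f Y : ℝ) := by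
    intro u f X Y g hg hf
    have h0 := mul_le_mul_of_nonneg_left (hf X) l1
    have h1 := mul_le_mul_of_nonneg_left (hf Y) l0
    rw [hg]; linarith
  have s0 := nx (m.hl.sub m.ll) A S0 S1 gs hgs fun T => (negMul_ge _ _).trans (nmax_ge_left _ _)
  have s1 := nx (m.hh.sub m.lh) A S0 S1 gs hgs fun T => (negMul_ge _ _).trans (nmax_ge_right _ _)
  have t0 := nx (m.lh.sub m.ll) B T0 T1 gt hgt fun T => (negMul_ge _ _).trans (nmax_ge_left _ _)
  have t1 := nx (m.hh.sub m.hl) B T0 T1 gt hgt fun T => (negMul_ge _ _).trans (nmax_ge_right _ _)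
  rw [Sg.sub_v] at s0 s1 t0 t1
  refine (interp_cov ha hb (m := fun i j => (m.get i j).v) (g0 := g0)
    (add_nonneg (mul_nonneg l1 (Nat.cast_nonneg _)) (mul_nonneg l0 (Nat.cast_nonneg _)))
    (add_nonneg (mul_nonneg l1 (Nat.cast_nonneg _)) (mul_nonneg l0 (Nat.cast_nonneg _)))
    s0 s1 t0 t1).trans ?_
  refine add_le_add le_rfl (div_le_div_of_nonneg_right ?_ (by norm_num))
  have e : ∀ S T : Sg, ((covLoss m S T : ℕ) : ℝ) = (A S : ℝ) + (B T : ℝ) := fun S T => by
    simp only [covLoss, Nat.add_eq, Nat.cast_add, A, B]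
  have h0 := mul_le_mul_of_nonneg_left (nmax_ge_left (covLoss m S0 T0) (covLoss m S1 T1)) l1
  have h1 := mul_le_mul_of_nonneg_left (nmax_ge_right (covLoss m S0 T0) (covLoss m S1 T1)) l0
  rw [e] at h0 h1
  linarith

theorem nmax_self (a : ℕ) : nmax a a = a := by unfold nmax; cases Nat.ble a a <;> rfl

/-- The loss against an affine function with fixed slopes. -/
theorem cov_fix {a b : ℝ} (ha : a ∈ Icc (0 : ℝ) 1) (hb : b ∈ Icc (0 : ℝ) 1) (m : C4) (S T : Sg) (g0 : ℝ) :
    interp a b (fun i j => (m.get i j).v) * (g0 + a * S.v + b * T.v) ≤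
      interp a b (fun i j => (m.get i j).v * (g0 + b01 i * S.v + b01 j * T.v)) +
        ((covLoss m S T : ℕ) : ℝ) / 4 := by
  have h := cov_sound ha hb (lam := 0) ⟨le_rfl, zero_le_one⟩ m S S T T g0 S.v T.v (by ring) (by ring)
  rwa [nmax_self] at h

theorem field_nonneg (mu n : ℕ) (i j : Bool) : 0 ≤ ((field mu n).get i j).v := by
  cases i <;> cases j <;> simp [field, C4.get]

theorem isZero_get {f : C4} (h : f.isZero = true) (hn : ∀ i j, 0 ≤ (f.get i j).v) (i j : Bool) :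
    (f.get i j).v = 0 := by
  simp only [C4.isZero, Nat.beq_eq, Nat.add_eq] at h
  have h1 := hn i j
  have h2 : (f.get i j).pos = 0 := by
    cases i <;> cases j <;> simp only [C4.get, cond_true, cond_false] <;> omega
  simp only [Sg.v, h2, Nat.cast_zero, zero_sub] at h1 ⊢
  linarith [Nat.cast_nonneg (α := ℝ) (f.get i j).neg]

/-- The multipliers are nonnegative. -/
structure Mult.NN (M : Mult) : Prop where
  band : ∀ i j, 0 ≤ (M.band.get i j).v
  ridge : ∀ i j, 0 ≤ (M.ridge.get i j).v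
  lo : ∀ i j, 0 ≤ (M.lo.get i j).v
  hi : ∀ i j, 0 ≤ (M.hi.get i j).v
  vlo : ∀ i j, 0 ≤ (M.vlo.get i j).v
  vhi : ∀ i j, 0 ≤ (M.vhi.get i j).v
  qs : ∀ i j, 0 ≤ (M.qs.get i j).v
  qv : ∀ i j, 0 ≤ (M.qv.get i j).v
  b00 : ∀ i j, 0 ≤ (M.b00.get i j).v
  b01 : ∀ i j, 0 ≤ (M.b01.get i j).v
  b10 : ∀ i j, 0 ≤ (M.b10.get i j).v
  b11 : ∀ i j, 0 ≤ (M.b11.get i j).v

/-- The multipliers of a piece. -/
def multOf (mu : ℕ) : Mult := withMult mu id

theorem withMult_eq {α : Type} (mu : ℕ) (k : Mult → α) : withMult mu k = k (multOf mu) := by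
  simp only [multOf, withMult, C4.force_eq, id]

theorem multOf_nn (mu : ℕ) : (multOf mu).NN := by
  constructor <;> simp only [multOf, withMult, C4.force_eq, id] <;> exact field_nonneg _ _

/-- The band at the point. -/
def bandG (K : KEnv) (a b u : ℝ) : ℝ :=
  u + (K.band.ll.v + a * (K.band.hl.v - K.band.ll.v) + b * (K.band.lh.v - K.band.ll.v))

/-- The constant of the ridge. -/
def ridge0 (W : WEnv) (V : VEnv) (K : KEnv) (s u : ℝ) : ℝ :=
  (V.v1.v - V.v0.v) * (K.ridge.l.v - W.off.l.v - W.inv * s) + V.P0.ll.v * (V.v1.v - u) +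
    V.P1.ll.v * (u - V.v0.v)

/-- The slope of the ridge in `X`. -/
def ridgeS (V : VEnv) (u : ℝ) : ℝ :=
  (V.P0.hl.v - V.P0.ll.v) * (V.v1.v - u) + (V.P1.hl.v - V.P1.ll.v) * (u - V.v0.v)

/-- The slope of the ridge in `ε`. -/
def ridgeT (W : WEnv) (V : VEnv) (K : KEnv) (u : ℝ) : ℝ :=
  (V.v1.v - V.v0.v) * ((K.ridge.h.v - W.off.h.v) - (K.ridge.l.v - W.off.l.v)) +
    (V.P0.lh.v - V.P0.ll.v) * (V.v1.v - u) + (V.P1.lh.v - V.P1.ll.v) * (u - V.v0.v)

/-- The ridge at the point. -/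
def ridgeG (W : WEnv) (V : VEnv) (K : KEnv) (a b s u : ℝ) : ℝ :=
  ridge0 W V K s u + a * ridgeS V u + b * ridgeT W V K u

/-- A piece in `υ` at the point. -/
structure VR (W : WEnv) (V : VEnv) (k0 k1 : KEnv) (a b l σ υ : ℝ) : Prop where
  neg : V.neg = true → υ ≤ 0
  pos : V.neg = false → 0 ≤ υ
  lo : V.loF = true → V.v0.v ≤ υ * 16777216
  hi : V.hiF = true → υ * 16777216 ≤ V.v1.v
  rdom : V.ridge = true → V.v0.v < V.v1.v ∧ V.v0.v ≤ υ * 16777216 ∧ υ * 16777216 ≤ V.v1.v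
  rG : V.ridge = true → 0 ≤ mix l fun kk => ridgeG W V (cond kk k1 k0) a b σ (υ * 16777216)
  aff0 : V.P0.hh.v = V.P0.hl.v + V.P0.lh.v - V.P0.ll.v
  aff1 : V.P1.hh.v = V.P1.hl.v + V.P1.lh.v - V.P1.ll.v

/-- The band constants are affine. -/
def KEnv.Aff (K : KEnv) : Prop := K.band.hh.v = K.band.hl.v + K.band.lh.v - K.band.ll.v

/-- The quadratic at a corner, with the constant of an end of `k`. -/
def pval (E : BEnv) (W : WEnv) (V : VEnv) (M : Mult) (K : KEnv) (i j : Bool) (σ υ : ℝ) : ℝ :=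
  (constAt (polyAt E W V M i j).c V K M i j).v + (polyAt E W V M i j).a.v * σ +
    (polyAt E W V M i j).b.v * υ + (polyAt E W V M i j).A.v * σ ^ 2 +
    (polyAt E W V M i j).B.v * (σ * υ) + (polyAt E W V M i j).C.v * υ ^ 2

theorem corner_sound {E : BEnv} {W : WEnv} {V : VEnv} {k0 k1 : KEnv} {d0 d1 : ℕ} {M : Mult}
    {H : Bool → ℕ} {i j : Bool} (h : cornerOK E W V k0 k1 d0 d1 M H i j = true) (σ υ : ℝ) (kk : Bool) :
    pval E W V M (cond kk k1 k0) i j σ υ + (cond kk d1 d0 : ℕ) ≤ (H kk : ℝ) * 16777216 ^ 2 := by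
  simp only [cornerOK, Sg.force_eq, Bool.and_eq_true] at h
  obtain ⟨⟨⟨hA, hdet⟩, h0⟩, h1⟩ := h
  have hA' := Sg.lt_iff hA
  have hdet' := Sg.lt_iff hdet
  have h0' := Sg.le_iff h0
  have h1' := Sg.le_iff h1
  simp only [Sg.norm_v, Sg.sub_v, Sg.add_v, Sg.mul_v, Sg.smul_v, Sg.ofN_v, v_mk, Nat.cast_zero, sub_zero,
    Nat.mul_eq, Nat.cast_mul, Nat.cast_ofNat] at hA' hdet' h0' h1'
  rw [pval]
  cases kk
  · have := quad2_nonpos (c := (constAt (polyAt E W V M i j).c V k0 M i j).v + d0 -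
      (H false : ℝ) * 16777216 ^ 2) (u := (polyAt E W V M i j).a.v) (v := (polyAt E W V M i j).b.v)
      hA' hdet' (by simp only [constAt, Sg.add_v, Sg.mul_v, Sg.sub_v, Sg.norm_v] at h0' ⊢; linarith) σ υ
    simp only [cond_false]
    linarith
  · have := quad2_nonpos (c := (constAt (polyAt E W V M i j).c V k1 M i j).v + d1 -
      (H true : ℝ) * 16777216 ^ 2) (u := (polyAt E W V M i j).a.v) (v := (polyAt E W V M i j).b.v)
      hA' hdet' (by simp only [constAt, Sg.add_v, Sg.mul_v, Sg.sub_v, Sg.norm_v] at h1' ⊢; linarith) σ υ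
    simp only [cond_true]
    linarith

/-- The part of a corner that does not carry a multiplier. -/
def baseAt (E : BEnv) (W : WEnv) (V : VEnv) (i j : Bool) (σ υ : ℝ) : ℝ :=
  ((cond W.neg (E.RnL.get i j) (E.RnH.get i j)).v * σ + (cond V.neg (E.LL.get i j) (E.LH.get i j)).v * υ +
    (cond (Bool.xor W.neg V.neg) (E.CL.get i j) (E.CH.get i j)).v * (σ * υ)) * (16777216 * 16777216) -
    (W.kap.get i j).v * σ ^ 2 * (16777216 * 16777216) +
    ((E.QH.get i j).v * 16777216 - W.psi * (E.EA.get i j).v) * υ ^ 2 * 16777216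

/-- The products with fixed multipliers. -/
def fixAt (W : WEnv) (V : VEnv) (M : Mult) (i j : Bool) (σ υ : ℝ) : ℝ :=
  (M.vlo.get i j).v * ((υ * 16777216 - V.v0.v) * 16777216) +
  (M.vhi.get i j).v * ((V.v1.v - υ * 16777216) * 16777216) +
  (M.qs.get i j).v * ((σ * 16777216 - W.s0.v) * (W.s1.v - σ * 16777216)) +
  (M.qv.get i j).v * ((υ * 16777216 - V.v0.v) * (V.v1.v - υ * 16777216)) +
  (M.b00.get i j).v * ((σ * 16777216 - W.s0.v) * (υ * 16777216 - V.v0.v)) +
  (M.b11.get i j).v * ((W.s1.v - σ * 16777216) * (V.v1.v - υ * 16777216)) +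
  (M.b01.get i j).v * ((σ * 16777216 - W.s0.v) * (V.v1.v - υ * 16777216)) +
  (M.b10.get i j).v * ((W.s1.v - σ * 16777216) * (υ * 16777216 - V.v0.v))

/-- The products with affine constraints, at a corner. -/
def linAt (W : WEnv) (V : VEnv) (M : Mult) (K : KEnv) (i j : Bool) (σ υ : ℝ) : ℝ :=
  ((M.lo.get i j).v * ((σ * 16777216 - W.slo.l.v) + b01 i * (0 : ℝ) + b01 j * (W.slo.l.v - W.slo.h.v)) +
    (M.hi.get i j).v * ((W.shi.l.v - σ * 16777216) + b01 i * (0 : ℝ) + b01 j * (W.shi.h.v - W.shi.l.v)) +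
    (M.band.get i j).v * ((υ * 16777216 + K.band.ll.v) + b01 i * (K.band.hl.v - K.band.ll.v) +
      b01 j * (K.band.lh.v - K.band.ll.v))) * 16777216 +
  (M.ridge.get i j).v * (ridge0 W V K σ (υ * 16777216) + b01 i * ridgeS V (υ * 16777216) +
    b01 j * ridgeT W V K (υ * 16777216))

theorem corner_id {E : BEnv} {W : WEnv} {V : VEnv} {K : KEnv} {M : Mult} (hK : K.Aff)
    (a0 : V.P0.hh.v = V.P0.hl.v + V.P0.lh.v - V.P0.ll.v)
    (a1 : V.P1.hh.v = V.P1.hl.v + V.P1.lh.v - V.P1.ll.v) (i j : Bool) (σ υ : ℝ) :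
    pval E W V M K i j σ υ = baseAt E W V i j σ υ + fixAt W V M i j σ υ + linAt W V M K i j σ υ := by
  unfold KEnv.Aff at hK
  simp only [pval, constAt, polyAt, sU, sUU, Sg.add_v, Sg.sub_v, Sg.mul_v, Sg.neg_v, Sg.ofN_v,
    Nat.cast_mul, Nat.cast_ofNat, baseAt, fixAt, linAt, ridge0, ridgeS, ridgeT]
  cases i <;> cases j <;> simp only [b01, C4.get, C2.get, cond_true, cond_false, hK, a0, a1] <;> ring

theorem interp_scale {a b : ℝ} (F : Bool → Bool → ℝ) (v : ℝ) :
    interp a b (fun i j => F i j) * v = interp a b fun i j => F i j * v := (interp_mul_const v).symm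

theorem mul_flag {f : C4} {flag : Bool} (h : (flag || f.isZero) = true) (hn : ∀ i j, 0 ≤ (f.get i j).v)
    {a b G : ℝ} (ha : a ∈ Icc (0 : ℝ) 1) (hb : b ∈ Icc (0 : ℝ) 1) (hG : flag = true → 0 ≤ G) :
    0 ≤ interp a b (fun i j => (f.get i j).v) * G := by
  cases hf : flag
  · rw [hf, Bool.false_or] at h
    have e : (fun i j => (f.get i j).v) = fun _ _ => (0 : ℝ) :=
      funext fun i => funext fun j => isZero_get h hn i j
    rw [e, interp_const, zero_mul]
  · exact mul_nonneg (interp_nonneg ha hb hn) (hG hf)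

theorem split_flag {f0 f1 : Bool} {A B C D : C4} (h : (f0 || (A.isZero && B.isZero && C.isZero && D.isZero)) = true)
    (g : f1 = true ∨ f1 = false) :
    (f0 || A.isZero) = true ∧ (f0 || B.isZero) = true ∧ (f0 || C.isZero) = true ∧ (f0 || D.isZero) = true := by
  cases f0 <;> simp_all

theorem penalty_ge (W : WEnv) (V : VEnv) (K : KEnv) (M : Mult) (hn : M.NN) {a b lam σ : ℝ}
    (ha : a ∈ Icc (0 : ℝ) 1) (hb : b ∈ Icc (0 : ℝ) 1) (υ : ℝ)
    (hl : M.ridge.isZero = false → lam ∈ Icc (0 : ℝ) 1 ∧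
      υ * 16777216 - V.v0.v = lam * (V.v1.v - V.v0.v)) :
    (interp a b (fun i j => (M.lo.get i j).v) *
        ((σ * 16777216 - W.slo.l.v) + a * (0 : ℝ) + b * (W.slo.l.v - W.slo.h.v)) +
      interp a b (fun i j => (M.hi.get i j).v) *
        ((W.shi.l.v - σ * 16777216) + a * (0 : ℝ) + b * (W.shi.h.v - W.shi.l.v)) +
      interp a b (fun i j => (M.band.get i j).v) * bandG K a b (υ * 16777216)) * 16777216 +
      interp a b (fun i j => (M.ridge.get i j).v) * ridgeG W V K a b σ (υ * 16777216) ≤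
    interp a b (fun i j => linAt W V M K i j σ υ) + (penalty W V K M : ℕ) := by
  have z : (Sg.mk 0 0).v = 0 := by simp [Sg.v]
  have clo := cov_fix ha hb M.lo ⟨0, 0⟩ (W.slo.l.sub W.slo.h) (σ * 16777216 - W.slo.l.v)
  have chi := cov_fix ha hb M.hi ⟨0, 0⟩ (W.shi.h.sub W.shi.l) (W.shi.l.v - σ * 16777216)
  have cband := cov_fix ha hb M.band (K.band.hl.sub K.band.ll) (K.band.lh.sub K.band.ll)
    (υ * 16777216 + K.band.ll.v)
  set dv := V.v1.sub V.v0 with hdv
  set dt := (K.ridge.h.sub W.off.h).sub (K.ridge.l.sub W.off.l) with hdt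
  set p0 := covLoss M.ridge (dv.mul (V.P0.hl.sub V.P0.ll)) (dv.mul (dt.add (V.P0.lh.sub V.P0.ll))) with hp0
  set p1 := covLoss M.ridge (dv.mul (V.P1.hl.sub V.P1.ll)) (dv.mul (dt.add (V.P1.lh.sub V.P1.ll))) with hp1
  have crid : interp a b (fun i j => (M.ridge.get i j).v) * ridgeG W V K a b σ (υ * 16777216) ≤
      interp a b (fun i j => (M.ridge.get i j).v * (ridge0 W V K σ (υ * 16777216) +
        b01 i * ridgeS V (υ * 16777216) + b01 j * ridgeT W V K (υ * 16777216))) +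
      ((cond M.ridge.isZero 0 (nmax p0 p1) : ℕ) : ℝ) / 4 := by
    cases hz : M.ridge.isZero
    · obtain ⟨hlam, he⟩ := hl hz
      have eu : υ * 16777216 = V.v0.v + lam * (V.v1.v - V.v0.v) := by linarith
      rw [cond_false, ridgeG, hp0, hp1]
      refine cov_sound ha hb hlam M.ridge _ _ _ _ _ _ _ ?_ ?_ <;>
        simp only [ridgeS, ridgeT, hdv, hdt, Sg.mul_v, Sg.add_v, Sg.sub_v, eu] <;> ring
    · have e : ∀ i j, (M.ridge.get i j).v = 0 := isZero_get hz hn.ridge
      simp only [e, zero_mul, interp_const, cond_true, Nat.cast_zero, zero_div, add_zero, le_refl]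
  have hpen : ((16777216 * ((covLoss M.lo ⟨0, 0⟩ (W.slo.l.sub W.slo.h) : ℕ) +
      (covLoss M.hi ⟨0, 0⟩ (W.shi.h.sub W.shi.l) : ℕ) +
      (covLoss M.band (K.band.hl.sub K.band.ll) (K.band.lh.sub K.band.ll) : ℕ)) +
      (cond M.ridge.isZero 0 (nmax p0 p1) : ℕ)) : ℝ) / 4 ≤ (penalty W V K M : ℕ) := by
    refine le_trans ?_ (cdiv_ge _ (d := 4) (by norm_num))
    simp only [Nat.add_eq, Nat.mul_eq, Nat.cast_add, Nat.cast_mul, Nat.cast_ofNat]
    exact le_rfl
  simp only [Sg.sub_v, z] at clo chi cband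
  simp only [linAt, interp_add, ← interp_scale, bandG]
  linarith

/-- The part of the quadratic that the corners of a range carry. -/
theorem base_ge {c : Cell} {E : BEnv} {W : WEnv} {V : VEnv} {a b D e1 aX a1 W0 W1 ε X z σ υ : ℝ}
    (h : BHas E a b D e1 aX a1 W0 W1 ε X z) (hw : W.neg = true → σ ≤ 0) (hw' : W.neg = false → 0 ≤ σ)
    (hv : V.neg = true → υ ≤ 0) (hv' : V.neg = false → 0 ≤ υ) :
    quad (RnR D e1 aX ε X) (LR D aX a1 ε X) (CnR D W0 ε X)
        (interp a b (fun i j => (W.kap.get i j).v) / 16777216) (QbR D W0 W1 ε X (rn W.psi)) σ υ *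
      16777216 ^ 3 ≤ interp a b fun i j => baseAt E W V i j σ υ := by
  have eQ : QbR D W0 W1 ε X (rn W.psi) =
      QbR D W0 W1 ε X 0 - rn W.psi * (132 / 25 * D * (X * iA ε)) := by simp only [QbR]; ring
  have h1 : RnR D e1 aX ε X * 16777216 * σ ≤
      interp a b (fun i j => (cond W.neg (E.RnL.get i j) (E.RnH.get i j)).v) * σ := by
    cases hn : W.neg
    · exact mul_le_mul_of_nonneg_right h.RnH (hw' hn)
    · exact mul_le_mul_of_nonpos_right h.RnL (hw hn)
  have h2 : LR D aX a1 ε X * 16777216 * υ ≤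
      interp a b (fun i j => (cond V.neg (E.LL.get i j) (E.LH.get i j)).v) * υ := by
    cases hn : V.neg
    · exact mul_le_mul_of_nonneg_right h.LH (hv' hn)
    · exact mul_le_mul_of_nonpos_right h.LL (hv hn)
  have h3 : CnR D W0 ε X * 16777216 * (σ * υ) ≤
      interp a b (fun i j => (cond (Bool.xor W.neg V.neg) (E.CL.get i j) (E.CH.get i j)).v) * (σ * υ) := by
    cases hn : W.neg <;> cases hm : V.neg
    · exact mul_le_mul_of_nonneg_right h.CH (mul_nonneg (hw' hn) (hv' hm))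
    · exact mul_le_mul_of_nonpos_right h.CL (mul_nonpos_of_nonneg_of_nonpos (hw' hn) (hv hm))
    · exact mul_le_mul_of_nonpos_right h.CL (mul_nonpos_of_nonpos_of_nonneg (hw hn) (hv' hm))
    · exact mul_le_mul_of_nonneg_right h.CH (mul_nonneg_of_nonpos_of_nonpos (hw hn) (hv hm))
  have h4 := mul_le_mul_of_nonneg_right h.QH (sq_nonneg υ)
  have h5 := mul_le_mul_of_nonneg_right (mul_le_mul_of_nonneg_left h.EA (Nat.cast_nonneg W.psi))
    (sq_nonneg υ)
  rw [eQ]
  simp only [baseAt, interp_add, interp_sub, ← interp_scale, interp_const_mul, quad, rn]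
  linarith

/-- One piece. -/
theorem piece_sound {c : Cell} {E : BEnv} {W : WEnv} {V : VEnv} {bandF : Bool} {k0 k1 : KEnv}
    {n0 n1 : Node} {mu : ℕ} {p : ℕ} {c2 lam y t r a b l D e1 aX a1 W0 W1 ε X z : ℝ}
    (ha : a ∈ Icc (0 : ℝ) 1) (hb : b ∈ Icc (0 : ℝ) 1) (hl : l ∈ Icc (0 : ℝ) 1)
    (hE : BHas E a b D e1 aX a1 W0 W1 ε X z) (hW : WR c W p c2 lam y t r a b)
    (hV : VR W V k0 k1 a b l (sig p r) (ups p y t)) (hk0 : k0.Aff) (hk1 : k1.Aff)
    (hband : bandF = true → 0 ≤ mix l fun kk => bandG (cond kk k1 k0) a b (ups p y t * 16777216))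
    (hok : pieceOK E W V bandF k0 k1 n0 n1 mu = true) :
    quad (RnR D e1 aX ε X) (LR D aX a1 ε X) (CnR D W0 ε X)
      (interp a b (fun i j => (W.kap.get i j).v) / 16777216) (QbR D W0 W1 ε X (rn W.psi))
      (sig p r) (ups p y t) ≤ hVal n0 n1 a b l := by
  set σ := sig p r
  set υ := ups p y t
  simp only [pieceOK, withMult_eq, forceN_eq, Bool.and_eq_true] at hok
  obtain ⟨⟨⟨⟨hm, c00⟩, c10⟩, c01⟩, c11⟩ := hok
  have hn := multOf_nn mu
  set M := multOf mu
  simp only [multOK, Bool.and_eq_true] at hm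
  obtain ⟨⟨⟨⟨⟨mb, mr⟩, ms0⟩, ms1⟩, mv0⟩, mv1⟩ := hm
  have s0 : (W.sloF || (M.lo.isZero && M.qs.isZero && M.b00.isZero && M.b01.isZero)) = true := ms0
  obtain ⟨zlo, zqs0, z00a, z01a⟩ := split_flag s0 (Or.inl rfl : true = true ∨ true = false)
  obtain ⟨zhi, zqs1, z10a, z11a⟩ := split_flag ms1 (Or.inl rfl : true = true ∨ true = false)
  have hlam : ∀ K : KEnv, ∀ kk : Bool, K = cond kk k1 k0 → M.ridge.isZero = false →
      (υ * 16777216 - V.v0.v) / (V.v1.v - V.v0.v) ∈ Icc (0 : ℝ) 1 ∧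
        υ * 16777216 - V.v0.v =
          (υ * 16777216 - V.v0.v) / (V.v1.v - V.v0.v) * (V.v1.v - V.v0.v) := by
    intro K kk _ hz
    rw [hz, Bool.or_false] at mr
    obtain ⟨d0, d1, d2⟩ := hV.rdom mr
    have hd : 0 < V.v1.v - V.v0.v := sub_pos.2 d0
    exact ⟨⟨div_nonneg (sub_nonneg.2 d1) hd.le, (div_le_one hd).2 (by linarith)⟩,
      (div_mul_cancel₀ _ hd.ne').symm⟩
  have main : ∀ kk : Bool,
      interp a b (fun i j => baseAt E W V i j σ υ) + interp a b (fun i j => fixAt W V M i j σ υ) +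
      ((interp a b (fun i j => (M.lo.get i j).v) *
          ((σ * 16777216 - W.slo.l.v) + a * (0 : ℝ) + b * (W.slo.l.v - W.slo.h.v)) +
        interp a b (fun i j => (M.hi.get i j).v) *
          ((W.shi.l.v - σ * 16777216) + a * (0 : ℝ) + b * (W.shi.h.v - W.shi.l.v)) +
        interp a b (fun i j => (M.band.get i j).v) * bandG (cond kk k1 k0) a b (υ * 16777216)) * 16777216 +
        interp a b (fun i j => (M.ridge.get i j).v) *
          ridgeG W V (cond kk k1 k0) a b σ (υ * 16777216)) ≤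
      interp a b (fun i j => ((cond i n1 n0).H j kk : ℝ)) * 16777216 ^ 2 := by
    intro kk
    set K := cond kk k1 k0 with hK
    have haff : K.Aff := by rw [hK]; cases kk <;> assumption
    have hp := penalty_ge W V K M hn ha hb (σ := σ) υ (fun hz => hlam K kk rfl hz)
    have hc : interp a b (fun i j => pval E W V M K i j σ υ) + (penalty W V K M : ℕ) ≤
        interp a b (fun i j => ((cond i n1 n0).H j kk : ℝ)) * 16777216 ^ 2 := by
      rw [← interp_mul_const, ← interp_const (a := a) (b := b) ((penalty W V K M : ℕ) : ℝ), ← interp_add]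
      refine interp_mono ha hb fun i j => ?_
      rw [hK]
      cases i <;> cases j
      · have := corner_sound c00 σ υ kk
        cases kk <;> simp only [cond_true, cond_false] at this ⊢ <;> exact this
      · have := corner_sound c01 σ υ kk
        cases kk <;> simp only [cond_true, cond_false] at this ⊢ <;> exact this
      · have := corner_sound c10 σ υ kk
        cases kk <;> simp only [cond_true, cond_false] at this ⊢ <;> exact this
      · have := corner_sound c11 σ υ kk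
        cases kk <;> simp only [cond_true, cond_false] at this ⊢ <;> exact this
    have e : interp a b (fun i j => pval E W V M K i j σ υ) =
        interp a b (fun i j => baseAt E W V i j σ υ) + interp a b (fun i j => fixAt W V M i j σ υ) +
          interp a b (fun i j => linAt W V M K i j σ υ) := by
      rw [← interp_add, ← interp_add]
      simp only [corner_id haff hV.aff0 hV.aff1]
    linarith
  have hfix : 0 ≤ interp a b fun i j => fixAt W V M i j σ υ := by
    refine interp_nonneg ha hb fun i j => ?_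
    have g : ∀ {f : C4} {fl fl' : Bool} {G : ℝ}, (fl || f.isZero) = true → (fl' || f.isZero) = true →
        (∀ i j, 0 ≤ (f.get i j).v) → (fl = true → fl' = true → 0 ≤ G) → 0 ≤ (f.get i j).v * G := by
      intro f fl fl' G h1 h2 hn' hG
      cases hz : f.isZero
      · rw [hz, Bool.or_false] at h1 h2
        exact mul_nonneg (hn' i j) (hG h1 h2)
      · rw [isZero_get hz hn' i j, zero_mul]
    obtain ⟨zvlo, zqv0, z00b, z10b⟩ := split_flag mv0 (Or.inl rfl : true = true ∨ true = false)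
    obtain ⟨zvhi, zqv1, z01b, z11b⟩ := split_flag mv1 (Or.inl rfl : true = true ∨ true = false)
    have p0 : W.sloF = true → 0 ≤ σ * 16777216 - W.s0.v := fun h => sub_nonneg.2 (hW.slo h).2
    have p1 : W.shiF = true → 0 ≤ W.s1.v - σ * 16777216 := fun h => sub_nonneg.2 (hW.shi h).2
    have q0 : V.loF = true → 0 ≤ υ * 16777216 - V.v0.v := fun h => sub_nonneg.2 (hV.lo h)
    have q1 : V.hiF = true → 0 ≤ V.v1.v - υ * 16777216 := fun h => sub_nonneg.2 (hV.hi h)
    have U0 : (0 : ℝ) ≤ 16777216 := by norm_num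
    exact add_nonneg (add_nonneg (add_nonneg (add_nonneg (add_nonneg (add_nonneg (add_nonneg
      (g zvlo zvlo hn.vlo fun h _ => mul_nonneg (q0 h) U0)
      (g zvhi zvhi hn.vhi fun h _ => mul_nonneg (q1 h) U0))
      (g zqs0 zqs1 hn.qs fun h h' => mul_nonneg (p0 h) (p1 h')))
      (g zqv0 zqv1 hn.qv fun h h' => mul_nonneg (q0 h) (q1 h')))
      (g z00a z00b hn.b00 fun h h' => mul_nonneg (p0 h) (q0 h')))
      (g z11a z11b hn.b11 fun h h' => mul_nonneg (p1 h) (q1 h')))
      (g z01a z01b hn.b01 fun h h' => mul_nonneg (p0 h) (q1 h')))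
      (g z10a z10b hn.b10 fun h h' => mul_nonneg (p1 h) (q0 h'))
  have hlo := mul_flag zlo hn.lo ha hb (G := (σ * 16777216 - W.slo.l.v) + a * (0 : ℝ) +
    b * (W.slo.l.v - W.slo.h.v)) fun h => by
      have := (hW.slo h).1; rw [int2] at this; linarith
  have hhi := mul_flag zhi hn.hi ha hb (G := (W.shi.l.v - σ * 16777216) + a * (0 : ℝ) +
    b * (W.shi.h.v - W.shi.l.v)) fun h => by
      have := (hW.shi h).1; rw [int2] at this; linarith
  have hbd := mul_flag mb hn.band ha hb hband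
  have hrd := mul_flag mr hn.ridge ha hb hV.rG
  have m0 := mul_le_mul_of_nonneg_left (main false) (sub_nonneg.2 hl.2)
  have m1 := mul_le_mul_of_nonneg_left (main true) hl.1
  have hbase := base_ge (c := c) hE hW.neg hW.pos hV.neg hV.pos
  have eH : hVal n0 n1 a b l * 16777216 ^ 3 =
      ((1 - l) * interp a b (fun i j => ((cond i n1 n0).H j false : ℝ)) +
        l * interp a b (fun i j => ((cond i n1 n0).H j true : ℝ))) * 16777216 ^ 2 := by
    simp only [hVal, interp]; ring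
  refine le_of_mul_le_mul_right ?_ (show (0 : ℝ) < 16777216 ^ 3 by norm_num)
  rw [eH]
  simp only [mix, cond_true, cond_false] at hbd hrd m0 m1
  linarith

end Vale.Agent.P237.All.Transport.Mid
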