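import Vale.Agent.P237.All.Middle.Cap

/-!
P237, every dimension, cell `k` in `[4/5, 5/2]`: a sharper bound on the mass tail and the cap on `w`
that follows from it.
-/

noncomputable section

open MeasureTheory Set Filter Real intervalIntegral

namespace Vale.Agent.P237.All.Transport.Mid

open Upper (mills mills_pos tail_ge2)

/-- The factor of the tail bound, in `x ^ 2 = (p + 2) u ^ 2`. -/
def tailFac (p : ℕ) (u : ℝ) : ℝ :=
  (((p : ℝ) + 2) * u ^ 2 + 2) / (((p : ℝ) + 2) * u * (((p : ℝ) + 1) * u ^ 2 + 3))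

/-- The tail of the mass of a power of the semicircle from above, one order sharper. -/
theorem tail_le3 (p : ℕ) {u : ℝ} (hu : u ∈ Ioc (0 : ℝ) 1) :
    mass p semi 1 - mass p semi u ≤ semi u ^ (p + 2) * tailFac p u := by
  set G : ℝ → ℝ := fun v => mass p semi 1 - mass p semi v - semi v ^ (p + 2) * tailFac p v with hG
  have hden : ∀ v : ℝ, 0 < v → ((p : ℝ) + 2) * v * (((p : ℝ) + 1) * v ^ 2 + 3) ≠ 0 := fun v hv => by
    positivity
  have hc : ContinuousOn G (Icc u 1) :=
    (continuousOn_const.sub (Continuous.continuousOn (continuous_iff_continuousAt.2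
      fun v => (semi_mass_hasDerivAt p v).continuousAt))).sub
      (((semi_continuous.pow _).continuousOn).mul
        (ContinuousOn.div (by fun_prop) (by fun_prop) fun v hv => hden v (hu.1.trans_le hv.1)))
  have hd : ∀ v ∈ Ioo u 1, HasDerivAt G (semi v ^ p * (6 * (1 - v ^ 2) ^ 2 /
      (((p : ℝ) + 2) * v ^ 2 * (((p : ℝ) + 1) * v ^ 2 + 3) ^ 2))) v := by
    intro v hv
    have hv0 : 0 < v := hu.1.trans hv.1
    have hv' : v ∈ Ioo (-1 : ℝ) 1 := ⟨by linarith, hv.2⟩
    have hN := (((hasDerivAt_id v).pow 2).const_mul ((p : ℝ) + 2)).add_const (2 : ℝ)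
    have hD := ((hasDerivAt_id v).const_mul ((p : ℝ) + 2)).mul
      ((((hasDerivAt_id v).pow 2).const_mul ((p : ℝ) + 1)).add_const (3 : ℝ))
    have h := ((semi_mass_hasDerivAt p v).const_sub (mass p semi 1)).sub
      (((semi_hasDerivAt hv').pow (p + 2)).mul (hN.div hD (hden v hv0)))
    refine h.congr_deriv ?_
    have hs0 := (semi_pos hv').ne'
    have hsq : semi v ^ 2 = 1 - v ^ 2 := semi_sq (Ioo_subset_Icc_self hv')
    have h1 : ((p : ℝ) + 1) * v ^ 2 + 3 ≠ 0 := by positivity
    simp only [Pi.pow_apply, Pi.div_apply, Pi.mul_apply, id_eq, mul_one, Nat.cast_ofNat,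
      show p + 2 - 1 = p + 1 from rfl, Nat.cast_add, show 2 - 1 = 1 from rfl, pow_one]
    field_simp
    rw [pow_succ (semi v) (p + 1), pow_succ (semi v) p]
    ring_nf
    rw [show semi v ^ 3 = (1 - v ^ 2) * semi v by rw [← hsq]; ring]
    ring
  have hmono : MonotoneOn G (Icc u 1) := by
    refine monotoneOn_of_deriv_nonneg (convex_Icc _ _) hc ?_ ?_
    · intro v hv; rw [interior_Icc] at hv; exact (hd v hv).differentiableAt.differentiableWithinAt
    · intro v hv
      rw [interior_Icc] at hv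
      rw [(hd v hv).deriv]
      have := hu.1.trans hv.1
      exact mul_nonneg (pow_nonneg (Real.sqrt_nonneg _) _) (by positivity)
  have h := hmono (left_mem_Icc.2 hu.2) (right_mem_Icc.2 hu.2) hu.2
  have h1 : G 1 = 0 := by simp [hG, semi, zero_pow (show p + 2 ≠ 0 by omega)]
  rw [h1] at h
  simp only [hG] at h
  linarith

theorem tailFac_pos (p : ℕ) {u : ℝ} (hu : 0 < u) : 0 < tailFac p u := by
  unfold tailFac; positivity

/-- The cap on `w` from `TailCap` at a point `u ≤ y`, with the sharper tail. -/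
def capU (p : ℕ) (u y lam : ℝ) : ℝ :=
  lam * mills (√((p : ℝ) + 2) * y) *
    ((lam ^ p - 1) * (mass p semi 1 * √((p : ℝ) + 2)) / semi u ^ (p + 1) +
      semi u * (√((p : ℝ) + 2) * tailFac p u)) / semi y

/-- `TailCap` bounds `log w` by the sharper cap. -/
theorem capU_log (p : ℕ) {u y r lam : ℝ} (hy : y ∈ Ioo (0 : ℝ) 1) (hu : 0 < u) (huy : u ≤ y)
    (hr : 0 < r) (hlam : 1 ≤ lam) (hcap : TailCap p y r lam) :
    -((p : ℝ) * log r) ≤ max 0 (log (capU p u y lam)) := by
  have hu1 : u < 1 := huy.trans_lt hy.2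
  have hs := semi_pos (t := u) ⟨by linarith, hu1⟩
  have hy' := semi_pos (t := y) ⟨by linarith [hy.1], hy.2⟩
  have hP := mass_one_pos isProfile_semi p
  have hlp : 1 ≤ lam ^ p := one_le_pow₀ hlam
  have hA : (0 : ℝ) < (p : ℝ) + 2 := by positivity
  have hsA : 0 < √((p : ℝ) + 2) := Real.sqrt_pos.2 hA
  have hM := mills_pos (mul_nonneg hsA.le hy.1.le)
  have hmass : mass p semi u ≤ lam ^ p * mass p semi y := by
    have h0 : 0 ≤ mass p semi y := intervalIntegral.integral_nonneg hy.1.le fun v _ =>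
      pow_nonneg (Real.sqrt_nonneg _) _
    exact le_trans ((semi_mass_strictMonoOn p).monotoneOn ⟨by linarith, hu1.le⟩
      ⟨by linarith [hy.1], hy.2.le⟩ huy) (le_mul_of_one_le_left h0 hlp)
  have h := hcap u ⟨hu.le, hu1⟩ hmass
  have hV : semi y ^ (p + 2) / (√((p : ℝ) + 2) * mills (√((p : ℝ) + 2) * y)) ≤
      mass p semi 1 - mass p semi y := by
    have h2 := tail_ge2 p (Ioo_subset_Icc_self hy)
    rw [tailFrac, mul_assoc, mul_comm (mass p semi 1), ← div_div] at h2
    exact (div_le_div_iff_of_pos_right hP).1 h2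
  have hVu := tail_le3 p (u := u) ⟨hu, hu1.le⟩
  set V := mass p semi 1 - mass p semi y
  have h3 : semi u ^ (p + 1) * (lam ^ p * (semi y ^ (p + 2) / (√((p : ℝ) + 2) * mills (√((p : ℝ) + 2) * y)))) ≤
      (lam * semi y * r) ^ (p + 1) *
        ((lam ^ p - 1) * mass p semi 1 + semi u ^ (p + 2) * tailFac p u) := by
    refine le_trans (mul_le_mul_of_nonneg_left (mul_le_mul_of_nonneg_left hV (by positivity))
      (pow_nonneg hs.le _)) (h.trans (mul_le_mul_of_nonneg_left ?_ (by positivity)))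
    linarith
  have hF := tailFac_pos p hu
  have hC : 0 < capU p u y lam := by
    have : 0 ≤ lam ^ p - 1 := sub_nonneg.2 hlp
    unfold capU
    positivity
  have hR : (r ^ (p + 1))⁻¹ ≤ capU p u y lam := by
    rw [inv_le_iff_one_le_mul₀ (by positivity)]
    have e : capU p u y lam * r ^ (p + 1) = (lam * semi y * r) ^ (p + 1) *
        ((lam ^ p - 1) * mass p semi 1 + semi u ^ (p + 2) * tailFac p u) /
        (semi u ^ (p + 1) * (lam ^ p * (semi y ^ (p + 2) / (√((p : ℝ) + 2) * mills (√((p : ℝ) + 2) * y))))) := by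
      rw [capU, mul_pow, mul_pow]
      field_simp
      ring
    rw [e, le_div_iff₀ (by positivity), one_mul]
    exact h3
  have hl := Real.log_le_log (by positivity) hR
  rw [Real.log_inv, Real.log_pow] at hl
  push_cast at hl
  have hp : (0 : ℝ) ≤ p := Nat.cast_nonneg p
  rcases le_total (log r) 0 with h0 | h0
  · exact le_max_of_le_right (by linarith)
  · exact le_max_of_le_left (neg_nonpos.2 (mul_nonneg hp h0))

end Vale.Agent.P237.All.Transport.Mid
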