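import Vale.Agent.P237.All.Mid.Major
import Vale.Agent.P237.All.Mid.Sharp

/-!
P237, cell `k` in `[4/5, 5/2]`: what a failing profile can reach, in the scaled variables: the band
behind `y`, the ridge through a secant, and the caps on `w`.
-/

noncomputable section

open MeasureTheory Set Filter Real intervalIntegral

namespace Vale.Agent.P237.All.Transport.Mid

open Upper (mills mills_pos mills_mono scaled_mass_mem)

/-- The scaled excess `σ`. -/
def sig (p : ℕ) (r : ℝ) : ℝ := ((r ^ p)⁻¹ - 1) / epsP p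

/-- The scaled shift `υ`. -/
def ups (p : ℕ) (y t : ℝ) : ℝ := (t - y) / (epsP p * y)

/-- The points that the certificate has to cover. -/
structure Pt (p : ℕ) (k y t r lam : ℝ) : Prop where
  hy : y ∈ Ioo (0 : ℝ) 1
  ht : t ∈ Ioo (0 : ℝ) 1
  hr : 0 < r
  hlam : 1 ≤ lam
  hpow : lam ^ (p + 1) ≤ exp (k / ((p : ℝ) + 1))
  ridge : semi t ≤ lam * semi y * r
  back : mass p semi 1 - mass p semi t ≤ lam ^ p * (mass p semi 1 - mass p semi y)
  cap : TailCap p y r lam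
  reach : Reach p y r

variable {p : ℕ} {k y t r lam : ℝ}

theorem eps_pos (p : ℕ) : 0 < epsP p := by unfold epsP; positivity

theorem eps_le_one (p : ℕ) : epsP p ≤ 1 := by
  unfold epsP; rw [div_le_one (by positivity)]; linarith [(Nat.cast_nonneg p : (0 : ℝ) ≤ p)]

theorem XP_iA (p : ℕ) (y : ℝ) : XP p y * iA (epsP p) = y ^ 2 := by
  simp only [XP, iA, epsP]; field_simp; ring

theorem eps_iA (p : ℕ) : iA (epsP p) = 1 / ((p : ℝ) + 2) := by
  simp only [iA, epsP]; field_simp; ring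

theorem XP_pos (p : ℕ) (hy : 0 < y) : 0 < XP p y := by unfold XP; positivity

theorem sqrt_mul_y (p : ℕ) (hy : 0 ≤ y) : √((p : ℝ) + 2) * y = √(XP p y) := by
  rw [XP, Real.sqrt_mul (by positivity), Real.sqrt_sq hy]

/-- The excess of `lam ^ p` over one. -/
theorem lam_pow_sub (h : Pt p k y t r lam) (hk : 0 ≤ k) (hk2 : k * epsP p < 2) {γ : ℝ}
    (hγ : 1 / (1 + epsP p - k * epsP p / 2) ≤ γ) : lam ^ p - 1 ≤ k * γ * epsP p := by
  have hε := eps_pos p
  have e : k / ((p : ℝ) + 2) = k * iA (epsP p) := by rw [eps_iA]; ring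
  have hlt : k / ((p : ℝ) + 2) < 2 := by
    refine lt_of_le_of_lt (le_of_eq_of_le rfl ?_) hk2
    rw [epsP, mul_one_div]
    exact div_le_div_of_nonneg_left hk (by positivity) (by linarith)
  have hd : 0 < 1 + epsP p - k * epsP p / 2 := by linarith
  refine (Middle.excess_lam_le p h.hlam hk hlt h.hpow).trans ?_
  rw [e]
  have e2 : k * iA (epsP p) / (1 - k * iA (epsP p) / 2) = k * epsP p * (1 / (1 + epsP p - k * epsP p / 2)) := by
    have h1 : 1 + epsP p ≠ 0 := by positivity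
    have hd' := hd.ne'
    simp only [iA]
    field_simp
  rw [e2]
  nlinarith [mul_le_mul_of_nonneg_left hγ (mul_nonneg hk hε.le)]

/-- The band behind `y`. -/
theorem band (h : Pt p k y t r lam) (hk : 0 ≤ k) (hk2 : k * epsP p < 2) {γ : ℝ}
    (hγ : 1 / (1 + epsP p - k * epsP p / 2) ≤ γ) :
    -ups p y t ≤ k * γ * (1 / XP p y - iA (epsP p)) ∧
      -(k * γ * epsP p * iA (epsP p)) ≤ y * (t - y) := by
  have hb := band_back p h.hy h.ht h.hlam h.back
  have hl := lam_pow_sub h hk hk2 hγ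
  have hy0 := h.hy.1
  have hS : 0 ≤ 1 - y ^ 2 := by nlinarith [h.hy.2]
  have hε := eps_pos p
  have hγ0 : 0 ≤ γ := le_trans (one_div_nonneg.2 (by linarith)) hγ
  have h2 : y - t ≤ k * γ * epsP p * (1 - y ^ 2) / (((p : ℝ) + 2) * y) :=
    hb.trans (div_le_div_of_nonneg_right (mul_le_mul_of_nonneg_right hl hS) (by positivity))
  constructor
  · rw [ups, ← neg_div, div_le_iff₀ (by positivity), neg_sub]
    refine h2.trans (le_of_eq ?_)
    rw [eps_iA, XP]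
    field_simp
  · have h3 := mul_le_mul_of_nonneg_left h2 hy0.le
    have e : y * (k * γ * epsP p * (1 - y ^ 2) / (((p : ℝ) + 2) * y)) =
        k * γ * epsP p * iA (epsP p) * (1 - y ^ 2) := by
      rw [eps_iA]; field_simp
    rw [e] at h3
    have h4 : 0 ≤ k * γ * epsP p * iA (epsP p) := by
      have : 0 ≤ iA (epsP p) := by rw [eps_iA]; positivity
      positivity
    nlinarith [mul_le_of_le_one_right h4 (show 1 - y ^ 2 ≤ 1 by nlinarith)]

theorem ups_gt (h : Pt p k y t r lam) : -(1 / epsP p) ≤ ups p y t := by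
  have := h.hy.1
  have hε := eps_pos p
  rw [ups, le_div_iff₀ (by positivity)]
  rw [show -(1 / epsP p) * (epsP p * y) = -y by field_simp]
  linarith [h.ht.1]

theorem ups_lt (h : Pt p k y t r lam) {v : ℝ} (hv : 0 ≤ v)
    (hX : 1 ≤ (1 + v * epsP p) ^ 2 * (XP p y * iA (epsP p))) : ups p y t ≤ v := by
  have hy0 := h.hy.1
  have hε := eps_pos p
  rw [XP_iA, ← mul_pow] at hX
  have h1 : 1 ≤ (1 + v * epsP p) * y :=
    (one_le_sq_iff₀ (by positivity)).1 hX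
  rw [ups, div_le_iff₀ (by positivity)]
  linarith [h.ht.2]

/-- The logarithm near one. -/
theorem neg_log_le {u rec : ℝ} (hu : 0 ≤ u) (hu1 : u < 1) (hrec : 1 ≤ rec * (1 - u)) :
    -log (1 - u) ≤ u + u ^ 2 * rec / 2 := by
  have h := Real.self_le_sinh_iff.2 (Real.log_nonneg ((one_le_inv₀ (by linarith)).2
    (show 1 - u ≤ 1 by linarith)))
  rw [Real.sinh_log (inv_pos.2 (by linarith)), Real.log_inv, inv_inv] at h
  have e2 : ((1 - u)⁻¹ - (1 - u)) / 2 = u + u ^ 2 * (1 - u)⁻¹ / 2 := by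
    have : 1 - u ≠ 0 := by linarith
    field_simp
    ring
  have h2 : (1 - u)⁻¹ ≤ rec := by rw [inv_le_iff_one_le_mul₀ (by linarith)]; linarith
  have h3 := mul_le_mul_of_nonneg_left h2 (sq_nonneg u)
  linarith

/-- The exponent of the ridge at the shift `v`. -/
def phi (p : ℕ) (y v : ℝ) : ℝ :=
  (1 - epsP p) / (2 * epsP p ^ 2) * -log ((1 - (y * (1 + v * epsP p)) ^ 2) / (1 - y ^ 2))

/-- A rational bound on the exponent of the ridge. -/
theorem phi_le (hy : y ∈ Ioo (0 : ℝ) 1) {v q u rec : ℝ}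
    (hq : q = v * (2 + v * epsP p) * (XP p y * MA (epsP p) (XP p y))) (hu : u = epsP p ^ 2 * q)
    (hu1 : u < 1) (hrec : 1 ≤ rec) (hrec' : 1 ≤ rec * (1 - u)) :
    -1 < y * (1 + v * epsP p) ∧ y * (1 + v * epsP p) < 1 ∧
      phi p y v ≤ (1 - epsP p) / 2 * (q * (1 + u * rec / 2)) := by
  have hε := eps_pos p
  have hS : 0 < 1 - y ^ 2 := by nlinarith [hy.1, hy.2]
  have e : (1 - (y * (1 + v * epsP p)) ^ 2) / (1 - y ^ 2) = 1 - u := by
    have e1 : 1 + epsP p - epsP p * XP p y = (1 + epsP p) * (1 - y ^ 2) := by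
      simp only [XP, epsP]; field_simp; ring
    rw [hu, hq, MA, e1]
    simp only [XP, epsP]
    field_simp
    ring
  have ht : (y * (1 + v * epsP p)) ^ 2 < 1 := by
    have : 0 < (1 - (y * (1 + v * epsP p)) ^ 2) / (1 - y ^ 2) := by rw [e]; linarith
    rcases (div_pos_iff.1 this) with ⟨a, -⟩ | ⟨-, b⟩ <;> linarith
  obtain ⟨t0, t1⟩ := abs_lt.1 ((sq_lt_one_iff_abs_lt_one _).1 ht)
  refine ⟨t0, t1, ?_⟩
  have key : -log (1 - u) ≤ u + u ^ 2 * rec / 2 := by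
    rcases le_total 0 u with h0 | h0
    · exact neg_log_le h0 hu1 hrec'
    · obtain ⟨w, hw, rfl⟩ : ∃ w, 0 ≤ w ∧ u = -w := ⟨-u, by linarith, by ring⟩
      rw [sub_neg_eq_add]
      have h := Real.le_log_one_add_of_nonneg hw
      have h2 : w - w ^ 2 / 2 ≤ 2 * w / (w + 2) := by
        rw [le_div_iff₀ (by linarith)]; nlinarith [pow_nonneg hw 3]
      nlinarith [mul_le_mul_of_nonneg_left hrec (sq_nonneg w)]
  rw [phi, e]
  refine (mul_le_mul_of_nonneg_left key (by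
    have := eps_le_one p
    exact div_nonneg (by linarith) (by positivity))).trans (le_of_eq ?_)
  rw [hu]; field_simp

/-- The ridge, through a secant. -/
theorem ridge_secant (h : Pt p k y t r lam) {v0 v1 P0 P1 : ℝ} (hlt : v0 < v1)
    (hv : ups p y t ∈ Icc v0 v1)
    (h0 : -1 < y * (1 + v0 * epsP p) ∧ y * (1 + v0 * epsP p) < 1 ∧ phi p y v0 ≤ P0)
    (h1 : -1 < y * (1 + v1 * epsP p) ∧ y * (1 + v1 * epsP p) < 1 ∧ phi p y v1 ≤ P1) :
    (v1 - v0) * (log (r ^ p)⁻¹ / epsP p) ≤ (v1 - v0) * (k * (1 - epsP p)) +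
      P0 * (v1 - ups p y t) + P1 * (ups p y t - v0) := by
  obtain ⟨a0, a1, a2⟩ := h0
  obtain ⟨b0, b1, b2⟩ := h1
  have hy := h.hy
  have hε := eps_pos p
  have hε1 := eps_le_one p
  have hS : 0 < 1 - y ^ 2 := by nlinarith [hy.1, hy.2]
  set υ := ups p y t with hυ
  have ht : t = y * (1 + υ * epsP p) := by
    rw [hυ, ups]; have := hy.1.ne'; field_simp; ring
  set t0 := y * (1 + v0 * epsP p)
  set t1 := y * (1 + v1 * epsP p)
  set a := (v1 - υ) / (v1 - v0) with ha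
  set b := (υ - v0) / (v1 - v0) with hb
  have hd : 0 < v1 - v0 := sub_pos.2 hlt
  have hab : a + b = 1 := by rw [ha, hb, ← add_div, div_eq_one_iff_eq hd.ne']; ring
  have ha0 : 0 ≤ a := div_nonneg (sub_nonneg.2 hv.2) hd.le
  have hb0 : 0 ≤ b := div_nonneg (sub_nonneg.2 hv.1) hd.le
  have htt : t = a * t0 + b * t1 := by
    rw [ht, ha, hb]; field_simp; ring
  have g0 : 0 < 1 - t0 ^ 2 := by nlinarith
  have g1 : 0 < 1 - t1 ^ 2 := by nlinarith
  have gt : 0 < 1 - t ^ 2 := by nlinarith [h.ht.1, h.ht.2]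
  have hconc : a * log (1 - t0 ^ 2) + b * log (1 - t1 ^ 2) ≤ log (1 - t ^ 2) := by
    have hc := strictConcaveOn_log_Ioi.concaveOn.2 (show (1 - t0 ^ 2) ∈ Ioi (0 : ℝ) from g0)
      (show (1 - t1 ^ 2) ∈ Ioi (0 : ℝ) from g1) ha0 hb0 hab
    simp only [smul_eq_mul] at hc
    refine hc.trans (Real.log_le_log ?_ ?_)
    · rcases eq_or_lt_of_le ha0 with e | e
      · have hb1' : b = 1 := by linarith
        rw [← e, hb1']; linarith
      · nlinarith [mul_pos e g0, mul_nonneg hb0 g1.le]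
    · have hb1 : b = 1 - a := by linarith
      rw [htt, hb1]
      nlinarith [mul_nonneg (mul_nonneg ha0 (show 0 ≤ 1 - a by linarith)) (sq_nonneg (t0 - t1))]
  have hst : 0 < semi t := Real.sqrt_pos.2 gt
  have hsy : 0 < semi y := Real.sqrt_pos.2 hS
  have hl0 : 0 < lam := by linarith [h.hlam]
  have hL := Real.log_le_log hst h.ridge
  rw [Real.log_mul (by positivity) h.hr.ne', Real.log_mul hl0.ne' hsy.ne', semi, semi,
    Real.log_sqrt gt.le, Real.log_sqrt hS.le] at hL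
  have hlam := (Real.log_le_iff_le_exp (pow_pos hl0 _)).2 h.hpow
  rw [Real.log_pow] at hlam
  push_cast at hlam
  have hP : phi p y v0 * (v1 - υ) + phi p y v1 * (υ - v0) ≤ P0 * (v1 - υ) + P1 * (υ - v0) :=
    add_le_add (mul_le_mul_of_nonneg_right a2 (sub_nonneg.2 hv.2))
      (mul_le_mul_of_nonneg_right b2 (sub_nonneg.2 hv.1))
  have e0 : (p : ℝ) = (1 - epsP p) / epsP p := by simp only [epsP]; field_simp; ring
  have e1 : ∀ v, phi p y v = (1 - epsP p) / (2 * epsP p ^ 2) *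
      (log (1 - y ^ 2) - log (1 - (y * (1 + v * epsP p)) ^ 2)) ∨ ¬ (y * (1 + v * epsP p)) ^ 2 < 1 := by
    intro v
    by_cases hv2 : (y * (1 + v * epsP p)) ^ 2 < 1
    · left; rw [phi, Real.log_div (by linarith) hS.ne']; ring
    · exact Or.inr hv2
  have p0 := (e1 v0).resolve_right (not_not.2 (by linarith))
  have p1 := (e1 v1).resolve_right (not_not.2 (by linarith))
  rw [p0, p1] at hP
  have hl1 : log (r ^ p)⁻¹ ≤ (p : ℝ) * (log lam + log (1 - y ^ 2) / 2 - log (1 - t ^ 2) / 2) := by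
    rw [Real.log_inv, Real.log_pow]
    nlinarith [mul_le_mul_of_nonneg_left hL (Nat.cast_nonneg p : (0 : ℝ) ≤ p)]
  have hl2 : log lam ≤ k * epsP p ^ 2 := by
    have e : k * epsP p ^ 2 = k / ((p : ℝ) + 1) / ((p : ℝ) + 1) := by simp only [epsP]; field_simp
    rw [e, le_div_iff₀ (by positivity)]; linarith
  rw [e0] at hl1
  have hc : 0 ≤ (1 - epsP p) / epsP p := div_nonneg (by linarith) hε.le
  have hl3 : log (r ^ p)⁻¹ ≤ (1 - epsP p) / epsP p * (k * epsP p ^ 2 +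
      (a * (log (1 - y ^ 2) - log (1 - t0 ^ 2)) + b * (log (1 - y ^ 2) - log (1 - t1 ^ 2))) / 2) := by
    refine hl1.trans (mul_le_mul_of_nonneg_left ?_ hc)
    have : log (1 - y ^ 2) = a * log (1 - y ^ 2) + b * log (1 - y ^ 2) := by rw [← add_mul, hab, one_mul]
    linarith
  have h4 := mul_le_mul_of_nonneg_left hl3 (div_nonneg hd.le hε.le)
  generalize log (1 - y ^ 2) = Ly at *
  generalize log (1 - t0 ^ 2) = L0 at *
  generalize log (1 - t1 ^ 2) = L1 at *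
  generalize log (r ^ p)⁻¹ = Lw at *
  have e4 : (v1 - v0) * (Lw / epsP p) = (v1 - v0) / epsP p * Lw := by ring
  have e5 : (v1 - v0) / epsP p * ((1 - epsP p) / epsP p * (k * epsP p ^ 2 +
      (a * (Ly - L0) + b * (Ly - L1)) / 2)) = (v1 - v0) * (k * (1 - epsP p)) +
      ((1 - epsP p) / (2 * epsP p ^ 2) * (Ly - L0) * (v1 - υ) +
      (1 - epsP p) / (2 * epsP p ^ 2) * (Ly - L1) * (υ - v0)) := by
    rw [ha, hb]; field_simp
  rw [e4]
  linarith only [h4, e5, hP]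

/-- The series bound on the logarithm. -/
def logLo (w : ℝ) : ℝ :=
  2 * ((w - 1) / (w + 1)) + 2 / 3 * ((w - 1) / (w + 1)) ^ 3 + 2 / 5 * ((w - 1) / (w + 1)) ^ 5 +
    2 / 7 * ((w - 1) / (w + 1)) ^ 7

theorem logLo_le {w : ℝ} (hw : 1 ≤ w) : logLo w ≤ log w := by
  have hd : ∀ x ∈ Ici (1 : ℝ), HasDerivAt (fun x => log x - logLo x)
      (1 / x - (2 + 2 * ((x - 1) / (x + 1)) ^ 2 + 2 * ((x - 1) / (x + 1)) ^ 4 +
        2 * ((x - 1) / (x + 1)) ^ 6) * (2 / (x + 1) ^ 2)) x := by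
    intro x hx
    have hx0 : (0 : ℝ) < x := lt_of_lt_of_le one_pos hx
    have hz := ((hasDerivAt_id x).sub_const 1).div ((hasDerivAt_id x).add_const 1)
      (show id x + 1 ≠ 0 by simp only [id]; linarith)
    have h := (Real.hasDerivAt_log hx0.ne').sub ((((hz.const_mul 2).add ((hz.pow 3).const_mul (2 / 3))).add
      ((hz.pow 5).const_mul (2 / 5))).add ((hz.pow 7).const_mul (2 / 7)))
    refine h.congr_deriv ?_
    have : x + 1 ≠ 0 := by linarith
    simp only [id, Pi.div_apply, one_div]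
    push_cast
    field_simp
    ring
  have hm : MonotoneOn (fun x => log x - logLo x) (Ici 1) := by
    refine monotoneOn_of_hasDerivWithinAt_nonneg (convex_Ici 1)
      (fun x hx => (hd x hx).continuousAt.continuousWithinAt)
      (fun x hx => (hd x (interior_subset hx)).hasDerivWithinAt) fun x hx => ?_
    have hx1 : (1 : ℝ) ≤ x := interior_subset hx
    have : 1 / x - (2 + 2 * ((x - 1) / (x + 1)) ^ 2 + 2 * ((x - 1) / (x + 1)) ^ 4 +
        2 * ((x - 1) / (x + 1)) ^ 6) * (2 / (x + 1) ^ 2) = (x - 1) ^ 8 / (x * (x + 1) ^ 8) := by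
      field_simp
      ring
    rw [this]; positivity
  have h := hm self_mem_Ici hw hw
  simp [logLo] at h
  simp only [logLo]
  linarith

/-- A line below the logarithm. -/
theorem log_line {a b w inv off : ℝ} (ha : 1 ≤ a) (hw : w ∈ Icc a b)
    (h0 : inv * (a - 1) + off ≤ logLo a) (h1 : inv * (b - 1) + off ≤ logLo b) :
    inv * (w - 1) + off ≤ log w := by
  rcases eq_or_lt_of_le (hw.1.trans hw.2) with e | hlt
  · have : w = a := le_antisymm (e ▸ hw.2) hw.1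
    subst this; exact h0.trans (logLo_le ha)
  set la := (b - w) / (b - a) with hla
  set lb := (w - a) / (b - a) with hlb
  have hd : 0 < b - a := sub_pos.2 hlt
  have hab : la + lb = 1 := by rw [hla, hlb, ← add_div, div_eq_one_iff_eq hd.ne']; ring
  have la0 : 0 ≤ la := div_nonneg (sub_nonneg.2 hw.2) hd.le
  have lb0 : 0 ≤ lb := div_nonneg (sub_nonneg.2 hw.1) hd.le
  have hb1 : 1 ≤ b := ha.trans (hw.1.trans hw.2)
  have hc := strictConcaveOn_log_Ioi.concaveOn.2 (show a ∈ Ioi (0 : ℝ) from lt_of_lt_of_le one_pos ha)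
    (show b ∈ Ioi (0 : ℝ) from lt_of_lt_of_le one_pos hb1) la0 lb0 hab
  simp only [smul_eq_mul] at hc
  have e : la * a + lb * b = w := by rw [hla, hlb]; field_simp; ring
  rw [e] at hc
  refine le_trans ?_ hc
  have k0 := mul_le_mul_of_nonneg_left (h0.trans (logLo_le ha)) la0
  have k1 := mul_le_mul_of_nonneg_left (h1.trans (logLo_le hb1)) lb0
  have e2 : inv * (w - 1) + off = la * (inv * (a - 1) + off) + lb * (inv * (b - 1) + off) := by
    have hb' : lb = 1 - la := by linarith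
    rw [← e, hb']; ring
  linarith

theorem w_pos (h : Pt p k y t r lam) : 0 < (r ^ p)⁻¹ := inv_pos.2 (pow_pos h.hr p)

theorem w_le_of_log {C : ℝ} (h : Pt p k y t r lam) (hC : 0 < C)
    (hl : -((p : ℝ) * log r) ≤ max 0 (log C)) : (r ^ p)⁻¹ ≤ max 1 C := by
  rw [← Real.log_pow, ← Real.log_inv] at hl
  rcases le_total (log C) 0 with h0 | h0
  · rw [max_eq_left h0] at hl
    exact le_max_of_le_left ((Real.log_nonpos_iff (w_pos h).le).1 hl)
  · rw [max_eq_right h0] at hl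
    exact le_max_of_le_right ((Real.log_le_log_iff (w_pos h) hC).1 hl)

theorem lam_le (h : Pt p k y t r lam) (hk : 0 ≤ k) (hk1 : k * epsP p ^ 2 ≤ 1) :
    lam ≤ 1 + 2 * (k * epsP p ^ 2) := by
  have hl0 : 0 < lam := by linarith [h.hlam]
  have hlam := (Real.log_le_iff_le_exp (pow_pos hl0 _)).2 h.hpow
  rw [Real.log_pow] at hlam
  push_cast at hlam
  have hl2 : log lam ≤ k * epsP p ^ 2 := by
    have e : k * epsP p ^ 2 = k / ((p : ℝ) + 1) / ((p : ℝ) + 1) := by simp only [epsP]; field_simp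
    rw [e, le_div_iff₀ (by positivity)]; linarith
  have hz : 0 ≤ k * epsP p ^ 2 := by positivity
  have := (abs_le.1 (Real.abs_exp_sub_one_le (x := k * epsP p ^ 2) (by rwa [abs_of_nonneg hz]))).2
  rw [abs_of_nonneg hz] at this
  linarith [(Real.log_le_iff_le_exp hl0).1 hl2]

/-- The scaled mass of the power `p` from above. -/
theorem mass_scaled_le {E : ℝ} (hE : epsP p ≤ E) (hE1 : E ≤ 1) :
    mass p semi 1 * √((p : ℝ) + 2) ≤ 125332 / 100000 * (1 + E / 3) := by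
  obtain ⟨hlo, hhi⟩ := scaled_mass_mem p
  have h0 : 0 < mass p semi 1 * √((p : ℝ) + 2) := lt_of_lt_of_le (by norm_num) hlo
  have hε := eps_pos p
  have e : 1 / (4 * ((p : ℝ) + 1)) = epsP p / 4 := by simp only [epsP]; field_simp
  rw [e] at hhi
  have h2 := (Real.log_le_iff_le_exp h0).1 hhi
  rw [Real.exp_add, Real.exp_log (by norm_num)] at h2
  refine h2.trans (mul_le_mul_of_nonneg_left ?_ (by norm_num))
  have h3 := (abs_le.1 (Real.abs_exp_sub_one_sub_id_le (x := epsP p / 4)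
    (by rw [abs_le]; constructor <;> linarith))).2
  nlinarith

/-- A power of the semicircle from below, to second order in `y ^ 2`. -/
theorem semi_inv_le (n' : ℕ) {n u1 : ℝ} (hy : y ∈ Ioo (0 : ℝ) 1) (hn : (n' : ℝ) = n) (hu : y ^ 2 ≤ u1)
    (hu1 : u1 < 1) : (semi y ^ n')⁻¹ ≤ exp (n * y ^ 2 / 2 * (1 + u1 / (2 * (1 - u1)))) := by
  have hs := semi_pos (t := y) ⟨by linarith [hy.1], hy.2⟩
  have hd : 0 < 1 - y ^ 2 := by nlinarith [hy.1, hy.2]
  refine (Real.log_le_iff_le_exp (by positivity)).1 ?_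
  rw [Real.log_inv, Real.log_pow, show semi y = √(1 - y ^ 2) from rfl, Real.log_sqrt hd.le, hn]
  have h := neg_log_le (sq_nonneg y) (by linarith) (rec := 1 / (1 - y ^ 2))
    (le_of_eq (by field_simp))
  have h2 : y ^ 2 / (1 - y ^ 2) ≤ u1 / (1 - u1) := by
    rw [div_le_div_iff₀ hd (by linarith)]; nlinarith only [hu]
  have hn0 : 0 ≤ n := hn ▸ Nat.cast_nonneg _
  have h3 : -log (1 - y ^ 2) ≤ y ^ 2 * (1 + u1 / (2 * (1 - u1))) := by
    refine h.trans ?_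
    have := mul_le_mul_of_nonneg_left h2 (div_nonneg (sq_nonneg y) two_pos.le)
    have e : (y ^ 2) ^ 2 * (1 / (1 - y ^ 2)) / 2 = y ^ 2 / 2 * (y ^ 2 / (1 - y ^ 2)) := by ring
    have e' : y ^ 2 * (1 + u1 / (2 * (1 - u1))) = y ^ 2 + y ^ 2 / 2 * (u1 / (1 - u1)) := by
      have : 1 - u1 ≠ 0 := by linarith
      field_simp
    linarith
  calc -(n * (log (1 - y ^ 2) / 2)) = n / 2 * -log (1 - y ^ 2) := by ring
    _ ≤ n / 2 * (y ^ 2 * (1 + u1 / (2 * (1 - u1)))) := mul_le_mul_of_nonneg_left h3 (by positivity)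
    _ = _ := by ring

/-- The arithmetic of the cap at `y`. -/
theorem sig_cap_arith {C lam W k K γ ε E Q Qm Em ml mx e : ℝ} (hε : 0 < ε) (hεE : ε ≤ E)
    (hk : 0 ≤ k) (hkK : k ≤ K) (hγ : 0 ≤ γ) (hlam1 : 1 ≤ lam) (hlam : lam ≤ 1 + 2 * (k * ε ^ 2))
    (hC : C = lam * (1 + W * Q * ml * Em)) (hW0 : 0 ≤ W) (hW : W ≤ k * γ * ε) (hQ0 : 0 ≤ Q)
    (hQ : Q ≤ Qm) (hml0 : 0 ≤ ml) (hml : ml ≤ mx) (hE0 : 0 ≤ Em) (hEm : Em ≤ e) :
    C - 1 ≤ K * (2 * E + (1 + 2 * (K * E ^ 2)) * γ * Qm * mx * e) * ε := by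
  have hK : 0 ≤ K := hk.trans hkK
  have h1 : W * Q * ml * Em ≤ K * γ * ε * Qm * mx * e := by
    have : 0 ≤ K * γ * ε := by positivity
    have hW' : W ≤ K * γ * ε := hW.trans (by gcongr)
    have : 0 ≤ Qm := hQ0.trans hQ
    have : 0 ≤ mx := hml0.trans hml
    gcongr
  have h0 : 0 ≤ W * Q * ml * Em := by positivity
  have hl : lam ≤ 1 + 2 * (K * E ^ 2) := hlam.trans (by gcongr)
  have h2 : lam - 1 ≤ 2 * (K * E * ε) := by
    have : k * ε ^ 2 ≤ K * E * ε := by rw [sq, ← mul_assoc]; gcongr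
    linarith
  have h3 := mul_le_mul hl h1 h0 (le_trans (by linarith) hl)
  rw [hC]
  linarith

/-- The cap at `y` itself, in `σ`. -/
theorem sig_cap (h : Pt p k y t r lam) (hk : 0 ≤ k) (hk2 : k * epsP p < 2) {K E γ x1 X1 t1 e : ℝ}
    (hkK : k ≤ K) (hE : epsP p ≤ E) (hE1 : E ≤ 1) (hK : K * E ^ 2 ≤ 1)
    (hγ : 1 / (1 + epsP p - k * epsP p / 2) ≤ γ) (hX : XP p y ≤ X1) (hx : XP p y ≤ x1 ^ 2) (hx1 : 0 ≤ x1)
    (ht1 : 1 / ((p : ℝ) + 2) ≤ t1) (hXt : X1 * t1 < 1)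
    (he : exp (X1 / 2 * (1 + X1 * t1 / (2 * (1 - X1 * t1)))) ≤ e) :
    sig p r ≤ K * (2 * E + (1 + 2 * (K * E ^ 2)) * γ * (125332 / 100000 * (1 + E / 3)) * mills x1 * e) := by
  have hε := eps_pos p
  have hl := Middle.tailCap_self_log' p h.hy h.hr h.hlam h.cap
  have hz : k * epsP p ^ 2 ≤ K * E ^ 2 :=
    mul_le_mul hkK (pow_le_pow_left₀ hε.le hE 2) (sq_nonneg _) (hk.trans hkK)
  have hlam := lam_le h hk (hz.trans hK)
  have hlp := lam_pow_sub h hk hk2 hγ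
  have hQ := mass_scaled_le (p := p) hE hE1
  have hy0 := h.hy.1
  have hx0 : 0 ≤ √((p : ℝ) + 2) * y := by positivity
  have hxx : √((p : ℝ) + 2) * y ≤ x1 := by
    rw [sqrt_mul_y p hy0.le, Real.sqrt_le_left hx1]; exact hx
  have hmills := mills_mono hx0 hxx
  have hm0 := mills_pos hx0
  have hexp : (semi y ^ (p + 2))⁻¹ ≤ e := by
    refine (semi_inv_le (p + 2) h.hy (n := (p : ℝ) + 2) (by push_cast; rfl) (u1 := X1 * t1) ?_ hXt).trans
      ((exp_le_exp.2 ?_).trans he)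
    · refine le_trans (le_of_eq ?_) (mul_le_mul hX ht1 (by positivity) ((XP_pos p hy0).le.trans hX))
      simp only [XP]; field_simp
    · have : 0 ≤ 1 + X1 * t1 / (2 * (1 - X1 * t1)) := by
        have : 0 ≤ X1 * t1 := mul_nonneg ((XP_pos p hy0).le.trans hX) (le_trans (by positivity) ht1)
        have : 0 < 1 - X1 * t1 := by linarith
        positivity
      exact mul_le_mul_of_nonneg_right (div_le_div_of_nonneg_right hX two_pos.le) this
  have hlp0 : 0 ≤ lam ^ p - 1 := sub_nonneg.2 (one_le_pow₀ h.hlam)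
  have hsemi := semi_pos (t := y) ⟨by linarith, h.hy.2⟩
  have hP : 0 ≤ mass p semi 1 * √((p : ℝ) + 2) :=
    mul_nonneg (mass_one_pos isProfile_semi p).le (Real.sqrt_nonneg _)
  have hγ0 : 0 ≤ γ := le_trans (one_div_nonneg.2 (by linarith)) hγ
  set C := lam * (1 + (lam ^ p - 1) * (mass p semi 1 * √((p : ℝ) + 2)) *
    mills (√((p : ℝ) + 2) * y) / semi y ^ (p + 2)) with hC
  have hC1 : 1 ≤ C := by
    rw [hC]
    refine one_le_mul_of_one_le_of_one_le h.hlam (le_add_of_nonneg_right ?_)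
    positivity
  have hw := w_le_of_log h (lt_of_lt_of_le one_pos hC1) hl
  rw [max_eq_right hC1] at hw
  rw [sig, div_le_iff₀ hε]
  rw [div_eq_mul_inv] at hC
  exact le_trans (sub_le_sub_right hw 1) (sig_cap_arith hε hE hk hkK hγ0 h.hlam hlam hC hlp0 hlp hP hQ
    hm0.le hmills (by positivity) hexp)

/-- The square root below its tangent. -/
theorem sqrt_one_sub_le {v v0 : ℝ} (h0 : 0 ≤ v0) (h : v0 ≤ v) (h1 : v ≤ 1) :
    √(1 - v) ≤ 1 - v0 / 2 := by
  rw [Real.sqrt_le_left (by linarith)]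
  nlinarith only [h0, h, h1, sq_nonneg v0]

/-- The arithmetic of the cap from a point below. -/
theorem w_cap_arith {lam W k K γ ε E Q Qm Em ml mx e S su F Fm iy sy : ℝ} (hε : 0 < ε) (hεE : ε ≤ E)
    (hk : 0 ≤ k) (hkK : k ≤ K) (hγ : 0 ≤ γ) (hlam0 : 0 ≤ lam) (hlam : lam ≤ 1 + 2 * (k * ε ^ 2))
    (hW0 : 0 ≤ W) (hW : W ≤ k * γ * ε) (hQ0 : 0 ≤ Q) (hQ : Q ≤ Qm) (hml0 : 0 ≤ ml) (hml : ml ≤ mx)
    (hE0 : 0 ≤ Em) (hEm : Em ≤ e) (hS0 : 0 ≤ S) (hS : S ≤ su) (hF0 : 0 ≤ F) (hF : ml * F ≤ Fm)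
    (hi0 : 0 ≤ iy) (hi : iy ≤ sy) :
    lam * ml * (W * Q * Em + S * F) * iy ≤
      (1 + 2 * (K * E ^ 2)) * sy * (mx * (K * γ * E * Qm * e) + su * Fm) := by
  have hK : 0 ≤ K := hk.trans hkK
  have : 0 ≤ E := hε.le.trans hεE
  have : 0 ≤ Qm := hQ0.trans hQ
  have : 0 ≤ mx := hml0.trans hml
  have : 0 ≤ e := hE0.trans hEm
  have : 0 ≤ su := hS0.trans hS
  have : 0 ≤ Fm := le_trans (mul_nonneg hml0 hF0) hF
  have hW' : W ≤ K * γ * E := hW.trans (by gcongr)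
  have hl : lam ≤ 1 + 2 * (K * E ^ 2) := hlam.trans (by gcongr)
  rw [show lam * ml * (W * Q * Em + S * F) * iy = lam * iy * (ml * (W * Q * Em) + S * (ml * F)) by ring]
  have : 0 ≤ sy := hi0.trans hi
  have : 0 ≤ 1 + 2 * (K * E ^ 2) := hlam0.trans hl
  have : 0 ≤ K * γ * E := hW0.trans hW'
  refine mul_le_mul (mul_le_mul hl hi hi0 (by positivity)) (add_le_add ?_ ?_) (by positivity) (by positivity)
  · exact mul_le_mul hml (mul_le_mul (mul_le_mul hW' hQ hQ0 (by positivity)) hEm hE0 (by positivity))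
      (by positivity) (by positivity)
  · exact mul_le_mul hS hF (by positivity) (by positivity)

/-- `mills x / x` decreases. -/
theorem mills_div_anti {x x' : ℝ} (hx : 0 < x) (h : x ≤ x') : mills x' / x' ≤ mills x / x := by
  have hx' : 0 < x' := hx.trans_le h
  simp only [mills, add_div, div_self hx.ne', div_self hx'.ne']
  gcongr

/-- The tail factor grows. -/
theorem fac_le {X X1 t t1 : ℝ} (hX : 0 ≤ X) (hXX : X ≤ X1) (ht0 : 0 ≤ t) (ht : t ≤ t1) (ht1 : t1 < 1) :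
    (X + 2) / (X * (1 - t) + 3) ≤ (X1 + 2) / (X1 * (1 - t1) + 3) := by
  have : 0 ≤ X1 := hX.trans hXX
  have d1 : 0 < X * (1 - t1) + 3 := by nlinarith
  refine le_trans (div_le_div_of_nonneg_left (by linarith) d1 (by
    nlinarith [mul_le_mul_of_nonneg_left ht hX])) ?_
  rw [div_le_div_iff₀ d1 (by nlinarith)]
  nlinarith [mul_nonneg (sub_nonneg.2 hXX) (show 0 ≤ 3 - 2 * (1 - t1) by linarith)]

/-- The tail factor against `mills`, at the point `θ y`. -/
theorem tail_fac_le (p : ℕ) {y θ x x0 X Xu1 t1 : ℝ} (hxd : x = √((p : ℝ) + 2) * y) (hy : 0 < y)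
    (hθ : 0 < θ) (hx00 : 0 < x0) (hx0x : x0 ≤ x) (hXu : ((p : ℝ) + 2) * (θ * y) ^ 2 = θ ^ 2 * X)
    (hU : θ ^ 2 * x ^ 2 ≤ Xu1) (hxX : x ^ 2 = X) (ht1 : 1 / ((p : ℝ) + 2) ≤ t1) (ht11 : t1 < 1) :
    mills x * (√((p : ℝ) + 2) * tailFac p (θ * y)) ≤
      mills x0 / (θ * x0) * ((Xu1 + 2) / (Xu1 * (1 - t1) + 3)) := by
  have hA : (0 : ℝ) < (p : ℝ) + 2 := by positivity
  have hsA : 0 < √((p : ℝ) + 2) := Real.sqrt_pos.2 hA
  have hX0 : 0 ≤ θ ^ 2 * X := by rw [← hxX]; positivity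
  have eB : ((p : ℝ) + 1) * (θ * y) ^ 2 = θ ^ 2 * X * (1 - 1 / ((p : ℝ) + 2)) := by
    rw [← hXu]; field_simp; ring
  have eA : ((p : ℝ) + 2) * (θ * y) = √((p : ℝ) + 2) * (θ * x) := by
    rw [hxd]; nth_rw 1 [← Real.mul_self_sqrt hA.le]; ring
  have e2 : √((p : ℝ) + 2) * tailFac p (θ * y) = 1 / (θ * x) * ((θ ^ 2 * X + 2) /
      (θ ^ 2 * X * (1 - 1 / ((p : ℝ) + 2)) + 3)) := by
    rw [tailFac, hXu, eA, eB]
    field_simp
  rw [e2, ← mul_assoc, mul_one_div]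
  have hm : mills x / (θ * x) ≤ mills x0 / (θ * x0) := by
    have e3 : ∀ a : ℝ, mills a / (θ * a) = mills a / a / θ := fun a => by rw [div_div, mul_comm θ a]
    rw [e3, e3]
    exact div_le_div_of_nonneg_right (mills_div_anti hx00 hx0x) hθ.le
  have hh : 0 ≤ 1 - 1 / ((p : ℝ) + 2) := sub_nonneg.2 (ht1.trans ht11.le)
  have hU' : θ ^ 2 * X ≤ Xu1 := hxX ▸ hU
  have hf := fac_le hX0 hU' (by positivity) ht1 ht11
  exact mul_le_mul hm hf (div_nonneg (add_nonneg hX0 zero_le_two)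
    (add_nonneg (mul_nonneg hX0 hh) zero_le_three))
    (div_nonneg (mills_pos hx00.le).le (mul_nonneg hθ.le hx00.le))

/-- The cap from a point below, in `w`. -/
theorem w_cap (h : Pt p k y t r lam) (hk : 0 ≤ k) (hk2 : k * epsP p < 2)
    {K E γ θ x0 x1 Xu0 Xu1 t0 t1 e su sy Fm : ℝ}
    (hkK : k ≤ K) (hE : epsP p ≤ E) (hE1 : E ≤ 1) (hK : K * E ^ 2 ≤ 1)
    (hγ : 1 / (1 + epsP p - k * epsP p / 2) ≤ γ) (hθ : 0 < θ) (hθ1 : θ ≤ 1) (hx00 : 0 < x0)
    (hx0 : x0 ^ 2 ≤ XP p y) (hx : XP p y ≤ x1 ^ 2) (hx1 : 0 ≤ x1)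
    (hu0 : Xu0 ≤ θ ^ 2 * x0 ^ 2) (hu1 : θ ^ 2 * x1 ^ 2 ≤ Xu1) (hu00 : 0 ≤ Xu0)
    (ht1 : 1 / ((p : ℝ) + 2) ≤ t1) (ht11 : t1 < 1) (ht0 : t0 ≤ 1 / ((p : ℝ) + 2)) (ht00 : 0 ≤ t0)
    (hXt : Xu1 * t1 < 1)
    (he : exp ((1 - t0) * (Xu1 / 2 * (1 + Xu1 * t1 / (2 * (1 - Xu1 * t1))))) ≤ e)
    (hsu : 1 - Xu0 * t0 / 2 ≤ su)
    (hFm : mills x0 / (θ * x0) * ((Xu1 + 2) / (Xu1 * (1 - t1) + 3)) ≤ Fm)
    (hsy : 1 ≤ sy ^ 2 * (1 - x1 ^ 2 * t1)) (hsy0 : 0 ≤ sy) :
    (r ^ p)⁻¹ ≤ max 1 ((1 + 2 * (K * E ^ 2)) * sy *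
      (mills x1 * (K * γ * E * (125332 / 100000 * (1 + E / 3)) * e) + su * Fm)) := by
  have hε := eps_pos p
  have hA : (0 : ℝ) < (p : ℝ) + 2 := by positivity
  have hsA : 0 < √((p : ℝ) + 2) := Real.sqrt_pos.2 hA
  have hy0 := h.hy.1
  set u := θ * y with hu
  have hup : 0 < u := by positivity
  have hXu : ((p : ℝ) + 2) * u ^ 2 = θ ^ 2 * XP p y := by rw [hu, XP]; ring
  have huy : u ≤ y := mul_le_of_le_one_left hy0.le hθ1
  have hl := capU_log p h.hy hup huy h.hr h.hlam h.cap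
  have hz : k * epsP p ^ 2 ≤ K * E ^ 2 :=
    mul_le_mul hkK (pow_le_pow_left₀ hε.le hE 2) (sq_nonneg _) (hk.trans hkK)
  have hlam := lam_le h hk (hz.trans hK)
  have hlp := lam_pow_sub h hk hk2 hγ
  have hQ := mass_scaled_le (p := p) hE hE1
  set x := √((p : ℝ) + 2) * y with hxd
  have hxX : x ^ 2 = XP p y := by rw [hxd, mul_pow, Real.sq_sqrt hA.le, XP]
  have hxpos : 0 < x := by positivity
  have hxx : x ≤ x1 := (pow_le_pow_iff_left₀ hxpos.le hx1 two_ne_zero).1 (by rw [hxX]; exact hx)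
  have hx0x : x0 ≤ x := (pow_le_pow_iff_left₀ hx00.le hxpos.le two_ne_zero).1 (by rw [hxX]; exact hx0)
  have hmills := mills_mono hxpos.le hxx
  have hu1' : u < 1 := huy.trans_lt h.hy.2
  have hs := semi_pos (t := u) ⟨by linarith, hu1'⟩
  have hy' := semi_pos (t := y) ⟨by linarith, h.hy.2⟩
  have hP : 0 ≤ mass p semi 1 * √((p : ℝ) + 2) :=
    mul_nonneg (mass_one_pos isProfile_semi p).le (Real.sqrt_nonneg _)
  have hlp0 : 0 ≤ lam ^ p - 1 := sub_nonneg.2 (one_le_pow₀ h.hlam)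
  have hm0 := mills_pos hxpos.le
  have hF := tailFac_pos p hup
  have hlam0 : 0 < lam := by linarith [h.hlam]
  have hC : 0 < capU p u y lam := by unfold capU; positivity
  have hγ0 : 0 ≤ γ := le_trans (one_div_nonneg.2 (by linarith)) hγ
  have hu2 : u ^ 2 ≤ 1 := by nlinarith
  have e1 : u ^ 2 = θ ^ 2 * XP p y * (1 / ((p : ℝ) + 2)) := by rw [← hXu]; field_simp
  have hUle : θ ^ 2 * XP p y ≤ Xu1 := (mul_le_mul_of_nonneg_left hx (sq_nonneg θ)).trans hu1
  have hUge : Xu0 ≤ θ ^ 2 * XP p y := hu0.trans (mul_le_mul_of_nonneg_left hx0 (sq_nonneg θ))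
  have hX0 : 0 ≤ θ ^ 2 * XP p y := hu00.trans hUge
  have huu : u ^ 2 ≤ Xu1 * t1 := by
    rw [e1]; exact mul_le_mul hUle ht1 (by positivity) (hX0.trans hUle)
  have hexp : (semi u ^ (p + 1))⁻¹ ≤ e := by
    refine (semi_inv_le (p + 1) ⟨hup, hu1'⟩ (n := (p : ℝ) + 1) (by push_cast; rfl) huu hXt).trans
      ((exp_le_exp.2 ?_).trans he)
    rw [← mul_assoc, ← mul_div_assoc]
    have h0 : 0 ≤ Xu1 * t1 := le_trans (sq_nonneg u) huu
    have h1 : 0 < 1 - Xu1 * t1 := by linarith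
    refine mul_le_mul_of_nonneg_right (div_le_div_of_nonneg_right ?_ two_pos.le) (by positivity)
    rw [show ((p : ℝ) + 1) * u ^ 2 = (1 - 1 / ((p : ℝ) + 2)) * (((p : ℝ) + 2) * u ^ 2) by field_simp; ring,
      hXu]
    exact mul_le_mul (by linarith) hUle hX0 (by linarith)
  have hle : Xu0 * t0 ≤ u ^ 2 := by rw [e1]; exact mul_le_mul hUge ht0 ht00 hX0
  have hsu' : semi u ≤ su := le_trans (sqrt_one_sub_le (mul_nonneg hu00 ht00) hle hu2) hsu
  have hfac : mills x * (√((p : ℝ) + 2) * tailFac p u) ≤ Fm :=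
    (tail_fac_le p hxd hy0 hθ hx00 hx0x hXu (by rw [← hxX] at hUle; exact hUle) hxX ht1 ht11).trans hFm
  have hsy' : (semi y)⁻¹ ≤ sy := by
    rw [inv_le_iff_one_le_mul₀ hy']
    refine (pow_le_pow_iff_left₀ zero_le_one (by positivity) two_ne_zero).1 ?_
    rw [one_pow, mul_pow, semi_sq ⟨by linarith, h.hy.2.le⟩]
    refine hsy.trans (mul_le_mul_of_nonneg_left ?_ (sq_nonneg _))
    have : y ^ 2 ≤ x1 ^ 2 * t1 := by
      rw [show y ^ 2 = XP p y * (1 / ((p : ℝ) + 2)) by rw [XP]; field_simp]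
      exact mul_le_mul hx ht1 (by positivity) (sq_nonneg _)
    linarith
  refine (w_le_of_log h hC hl).trans (max_le_max le_rfl ?_)
  rw [capU, div_eq_mul_inv, div_eq_mul_inv]
  exact w_cap_arith hε hE hk hkK hγ0 hlam0.le hlam hlp0 hlp hP hQ hm0.le hmills (by positivity) hexp
    hs.le hsu' (by positivity) hfac (by positivity) hsy'

end Vale.Agent.P237.All.Transport.Mid
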