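import Vale.Agent.P237.All.Mid.Check
import Vale.Agent.P237.All.Mid.Region

/-!
P237, cell `k` in `[4/5, 5/2]`: the caps of the checker mean what they say.
-/

noncomputable section

open Real Set

namespace Vale.Agent.P237.All.Transport.Mid

open Upper (mills mills_pos mills_mono)

/-- The real number of a natural one at the scale `U`. -/
def rn (n : ℕ) : ℝ := (n : ℝ) / 16777216

theorem rn_U : rn 16777216 = 1 := by norm_num [rn]

theorem rn_nonneg (n : ℕ) : 0 ≤ rn n := by unfold rn; positivity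

theorem rn_le {m n : ℕ} (h : m ≤ n) : rn m ≤ rn n :=
  div_le_div_of_nonneg_right (Nat.cast_le.2 h) (by norm_num)

theorem rn_add (m n : ℕ) : rn (m + n) = rn m + rn n := by simp [rn, add_div]

theorem cast_U : (U : ℝ) = 16777216 := by norm_num [U]

theorem cast_sub_ge (a b : ℕ) : (a : ℝ) - b ≤ ((a - b : ℕ) : ℝ) := by
  rcases le_total b a with h | h
  · rw [Nat.cast_sub h]
  · rw [Nat.sub_eq_zero_of_le h, Nat.cast_zero, sub_nonpos]; exact_mod_cast h

theorem cast_div_le (a d : ℕ) : ((Nat.div a d : ℕ) : ℝ) ≤ (a : ℝ) / d := Nat.cast_div_le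

theorem rn_sub_ge (a b : ℕ) : rn a - rn b ≤ rn (a - b) := by
  rw [rn, rn, rn, ← sub_div]
  exact div_le_div_of_nonneg_right (cast_sub_ge a b) (by norm_num)

theorem cdiv_le_of {a d n : ℕ} (hd : 0 < d) (h : a ≤ d * n) : cdiv a d ≤ n := by
  rw [cdiv_def]
  refine Nat.le_of_lt_succ (Nat.div_lt_iff_lt_mul hd |>.2 ?_)
  rw [Nat.succ_mul, mul_comm n d]
  omega

theorem cdiv_le_cdiv {a d a' d' : ℕ} (hd : 0 < d) (hd' : 0 < d') (h : a * d' ≤ a' * d) :
    cdiv a d ≤ cdiv a' d' := by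
  rw [cdiv_def, cdiv_def]
  set n' := (a' + d' - 1) / d'
  have h1 : a' ≤ d' * n' := by
    have := Nat.lt_mul_div_succ (a' + d' - 1) hd'
    rw [mul_add, mul_one] at this
    simp only [n']
    omega
  have h2 : a ≤ d * n' := by
    refine Nat.le_of_mul_le_mul_right ?_ hd'
    calc a * d' ≤ a' * d := h
      _ ≤ d' * n' * d := Nat.mul_le_mul_right _ h1
      _ = d * n' * d' := by ring
  refine Nat.le_of_lt_succ (Nat.div_lt_iff_lt_mul hd |>.2 ?_)
  rw [Nat.succ_mul, mul_comm n' d]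
  omega

theorem cast_cdiv (a : ℕ) {d : ℕ} (hd : 0 < d) : (a : ℝ) ≤ d * (cdiv a d : ℕ) := by
  rw [cdiv_def]; exact Sg.nat_up a hd

theorem cdiv_ge (a : ℕ) {d : ℕ} (hd : 0 < d) : (a : ℝ) / d ≤ (cdiv a d : ℕ) := by
  rw [div_le_iff₀ (Nat.cast_pos.2 hd), mul_comm]; exact cast_cdiv a hd

theorem rn_cdiv (a : ℕ) {d : ℕ} (hd : 0 < d) : (a : ℝ) / d / 16777216 ≤ rn (cdiv a d) :=
  div_le_div_of_nonneg_right (cdiv_ge a hd) (by norm_num)

theorem rn_mul_up (a b : ℕ) : rn a * rn b ≤ rn (cdiv (a * b) 16777216) := by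
  refine le_trans (le_of_eq ?_) (rn_cdiv _ (by norm_num))
  simp only [rn]; push_cast; ring

theorem nat_div_def (a b : ℕ) : Nat.div a b = a / b := rfl

theorem le_nmax_left (a b : ℕ) : a ≤ nmax a b := by
  rcases h : Nat.ble a b with _ | _
  · simp [nmax, h]
  · simpa [nmax, h] using Nat.le_of_ble_eq_true h

theorem le_nmax_right (a b : ℕ) : b ≤ nmax a b := by
  rcases h : Nat.ble a b with _ | _
  · have : ¬ a ≤ b := by rw [← Nat.ble_eq]; simp [h]
    simp [nmax, h]; omega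
  · simp [nmax, h]

theorem le_nmin {a b : ℕ} {x : ℝ} (ha : x ≤ a) (hb : x ≤ b) : x ≤ (nmin a b : ℕ) := by
  rcases h : Nat.ble a b with _ | _ <;> simpa [nmin, h]

theorem nodeX_rn (x : ℕ) : rn (nodeX x) = ((x : ℝ) / 2048) ^ 2 := by
  simp only [nodeX, Nat.mul_eq, rn]; push_cast; ring

theorem sqUp_sound : ∀ (n r : ℕ) (a : ℝ), 0 ≤ a → a ≤ rn r → a ^ 2 ^ n ≤ rn (sqUp 16777216 n r)
  | 0, r, a, _, h => by simpa [sqUp] using h
  | n + 1, r, a, h0, h => by
    rw [sqUp, forceN_eq, pow_succ', pow_mul]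
    refine sqUp_sound n _ _ (sq_nonneg a) ?_
    exact (le_trans (le_of_eq (pow_two a)) (mul_le_mul h h h0 (rn_nonneg r))).trans (rn_mul_up r r)

theorem expUp_sound {v : ℕ} (hv : v ≤ 4096 * 16777216) {z : ℝ} (hz : z ≤ rn v) :
    exp z ≤ rn (expUp v) := by
  rw [expUp, forceN_eq]
  set u := cdiv v 4096 with hu
  have hu1 : u ≤ 16777216 := by
    rw [hu, cdiv_def]; omega
  have hle : rn v / 4096 ≤ rn u := le_trans (le_of_eq (by rw [rn]; ring)) (rn_cdiv v (by norm_num))
  have hb := (abs_le.1 (Real.abs_exp_sub_one_sub_id_le (x := rn u)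
    (by rw [abs_of_nonneg (rn_nonneg u)]; exact (rn_le hu1).trans rn_U.le))).2
  have h1 : exp (rn u) ≤ rn (16777216 + u + cdiv (u * u) 16777216) := by
    rw [rn_add, rn_add, rn_U]
    have := rn_mul_up u u
    nlinarith
  refine le_trans (exp_le_exp.2 (show z ≤ ((2 ^ 12 : ℕ) : ℝ) * rn u by norm_num; linarith)) ?_
  rw [Real.exp_nat_mul]
  exact sqUp_sound 12 _ _ (exp_pos _).le h1

theorem mills_up (x : ℕ) : mills ((x : ℝ) / 2048) ≤ rn (millsUp x) := by
  simp only [millsUp, Nat.add_eq, Nat.mul_eq]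
  rw [rn_add]
  refine le_trans (le_of_eq ?_) (add_le_add le_rfl (rn_cdiv _ (by omega)))
  simp only [mills, rn]; push_cast; field_simp; ring

theorem iUp_le (E : ℕ) : rn E / (1 + rn E) ≤ rn (iUp E) := by
  refine le_trans (le_of_eq ?_) (rn_cdiv _ (Nat.add_pos_left (by norm_num) _))
  simp only [rn, Nat.mul_eq, Nat.add_eq]; push_cast; field_simp

theorem iUp_mono {E E' : ℕ} (h : E ≤ E') : iUp E ≤ iUp E' := by
  refine cdiv_le_cdiv (Nat.add_pos_left (by norm_num) _) (Nat.add_pos_left (by norm_num) _) ?_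
  simp only [Nat.mul_eq, Nat.add_eq]
  nlinarith

theorem tUp_eq (c : Cell) : tUp c = iUp c.E1 := rfl

theorem iLo_le (E : ℕ) : rn (iLo E) ≤ rn E / (1 + rn E) := by
  refine le_trans (div_le_div_of_nonneg_right (cast_div_le _ _) (by norm_num)) (le_of_eq ?_)
  simp only [rn, Nat.mul_eq, Nat.add_eq]; push_cast; field_simp

theorem expArg_ge (t X : ℕ) (h : X * t < 16777216 * 16777216) :
    rn X / 2 * (1 + rn X * rn t / (2 * (1 - rn X * rn t))) ≤ rn (expArg t X) := by
  simp only [expArg, Nat.mul_eq, Nat.sub_eq]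
  refine le_trans (le_of_eq ?_) (rn_cdiv _ (by omega))
  have h' : (X : ℝ) * t < 16777216 * 16777216 := by exact_mod_cast h
  have e1 : ((2 * 16777216 * 16777216 - X * t : ℕ) : ℝ) = 2 * 16777216 * 16777216 - (X : ℝ) * t := by
    rw [Nat.cast_sub (by omega)]; push_cast; ring
  have e2 : ((16777216 * 16777216 - X * t : ℕ) : ℝ) = 16777216 * 16777216 - (X : ℝ) * t := by
    rw [Nat.cast_sub (by omega)]; push_cast; ring
  push_cast [e1, e2]
  have : (16777216 : ℝ) * 16777216 - X * t ≠ 0 := by linarith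
  have e3 : 1 - rn X * rn t = ((16777216 : ℝ) * 16777216 - X * t) / (16777216 * 16777216) := by
    simp only [rn]; ring
  rw [e3]
  simp only [rn]
  set D := (16777216 : ℝ) * 16777216 - X * t with hD
  have hN : (2 : ℝ) * 16777216 * 16777216 - X * t = 2 * D + X * t := by rw [hD]; ring
  rw [hN]
  field_simp
  ring

theorem rsqUp_sound (v : ℕ) (hv : v < 16777216) : 1 ≤ rn (rsqUp v) ^ 2 * (1 - rn v) := by
  rw [rsqUp, forceN_eq]
  set s := Nat.add 16777216 (cdiv (Nat.mul v 16777216) (Nat.mul 2 (Nat.sub 16777216 v)))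
  have hs : 0 < s := Nat.add_pos_left (by norm_num) _
  simp only [Nat.mul_eq, Nat.sub_eq, Nat.add_eq]
  set a := 16777216 - v with ha
  have ha0 : 0 < a := by omega
  set R := cdiv (s * s * a + 16777216 * 16777216 * 16777216) (2 * (s * a))
  have h := cast_cdiv (s * s * a + 16777216 * 16777216 * 16777216) (d := 2 * (s * a)) (by positivity)
  push_cast at h
  have eR : 1 - rn v = (a : ℝ) / 16777216 := by
    rw [ha, rn, Nat.cast_sub hv.le]; push_cast; ring
  rw [eR, rn, div_pow, div_mul_div_comm, one_le_div (by norm_num)]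
  have hs' : (0 : ℝ) < s := Nat.cast_pos.2 hs
  have ha' : (0 : ℝ) < a := Nat.cast_pos.2 ha0
  refine le_of_mul_le_mul_right ?_ (show 0 < 4 * ((s : ℝ) ^ 2 * a) by positivity)
  have h2 := pow_le_pow_left₀ (by positivity) h 2
  have h3 := four_mul_le_sq_add ((s : ℝ) * s * a) (16777216 * 16777216 * 16777216)
  linarith

/-- What is fixed along a cell. -/
structure CellPt (c : Cell) (p : ℕ) (k y t r lam : ℝ) : Prop where
  pt : Pt p k y t r lam
  hk : k ∈ Icc (rn c.K0) (rn c.K1)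
  hε : epsP p ∈ Icc (rn c.E0) (rn c.E1)
  hE : c.E1 ≤ 559241
  hK : c.K1 ≤ 41943040
  hgam : 2 * 16777216 * 16777216 * 16777216 ≤
    c.gam * (2 * 16777216 * 16777216 + 2 * 16777216 * c.E0 - c.K1 * c.E1)

variable {c : Cell} {p : ℕ} {k y t r lam : ℝ}

namespace CellPt

theorem k0 (h : CellPt c p k y t r lam) : 0 ≤ k := (rn_nonneg _).trans h.hk.1

theorem E1_le (h : CellPt c p k y t r lam) : rn c.E1 ≤ 1 / 29 :=
  (rn_le h.hE).trans (by norm_num [rn])

theorem eps_small (h : CellPt c p k y t r lam) : epsP p ≤ 1 / 29 := h.hε.2.trans h.E1_le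

theorem K_le (h : CellPt c p k y t r lam) : rn c.K1 ≤ 5 / 2 := (rn_le h.hK).trans (by norm_num [rn])

theorem k2 (h : CellPt c p k y t r lam) : k * epsP p < 2 := by
  have := mul_le_mul (h.hk.2.trans h.K_le) h.eps_small (eps_pos p).le (by norm_num)
  linarith

theorem KE (h : CellPt c p k y t r lam) : rn c.K1 * rn c.E1 ^ 2 ≤ 1 := by
  have := mul_le_mul h.K_le (pow_le_pow_left₀ (rn_nonneg _) h.E1_le 2) (sq_nonneg _) (by norm_num)
  linarith

theorem gamma (h : CellPt c p k y t r lam) :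
    1 / (1 + epsP p - k * epsP p / 2) ≤ rn c.gam := by
  have hkε := mul_le_mul h.hk.2 h.hε.2 (eps_pos p).le (rn_nonneg _)
  have hlt : c.K1 * c.E1 ≤ 2 * 16777216 * 16777216 + 2 * 16777216 * c.E0 :=
    le_trans (Nat.mul_le_mul h.hK h.hE) (le_trans (by norm_num) (Nat.le_add_right _ _))
  have hg : ((2 * 16777216 * 16777216 * 16777216 : ℕ) : ℝ) ≤
      ((c.gam * (2 * 16777216 * 16777216 + 2 * 16777216 * c.E0 - c.K1 * c.E1) : ℕ) : ℝ) :=
    Nat.cast_le.2 h.hgam
  rw [Nat.cast_mul c.gam, Nat.cast_sub hlt] at hg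
  push_cast at hg
  have h2 := h.k2
  have hp := eps_pos p
  rw [div_le_iff₀ (by linarith)]
  have h3 : 1 ≤ rn c.gam * (1 + rn c.E0 - rn c.K1 * rn c.E1 / 2) := by
    simp only [rn]
    linarith
  refine h3.trans (mul_le_mul_of_nonneg_left ?_ (rn_nonneg _))
  linarith [h.hε.1]

theorem t_mem (h : CellPt c p k y t r lam) {F0 F1 : ℕ} (h0 : rn F0 ≤ epsP p) (h1 : epsP p ≤ rn F1) :
    rn (iLo F0) ≤ 1 / ((p : ℝ) + 2) ∧ 1 / ((p : ℝ) + 2) ≤ rn (iUp F1) := by
  rw [← eps_iA p]
  have hp := eps_pos p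
  have hF := rn_nonneg F0
  constructor
  · refine (iLo_le F0).trans ?_
    rw [iA, div_le_div_iff₀ (by linarith) (by linarith)]
    linarith
  · refine le_trans ?_ (iUp_le F1)
    have := h1
    rw [iA, div_le_div_iff₀ (by linarith) (by linarith)]
    linarith

theorem lam_up (h : CellPt c p k y t r lam) :
    1 + 2 * (rn c.K1 * rn c.E1 ^ 2) ≤ rn (lamUp c) := by
  simp only [lamUp, Nat.add_eq, Nat.mul_eq]
  rw [rn_add, rn_U]
  refine add_le_add le_rfl (le_trans (le_of_eq ?_) (rn_cdiv _ (by norm_num)))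
  simp only [rn]; push_cast; ring

theorem mass_up (_h : CellPt c p k y t r lam) :
    125332 / 100000 * (1 + rn c.E1 / 3) ≤ rn (massUp c.E1) := by
  simp only [massUp, Nat.add_eq, Nat.mul_eq]
  refine le_trans (le_of_eq ?_) (rn_cdiv _ (by norm_num))
  simp only [rn]; push_cast; ring

/-- `capS` bounds `σ`. -/
theorem capS_sound (h : CellPt c p k y t r lam) {x1 : ℕ} (hx : XP p y ≤ rn (nodeX x1))
    (hok : nodeX x1 * tUp c < 16777216 * 16777216) (harg : expArg (tUp c) (nodeX x1) ≤ 4096 * 16777216) :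
    sig p r ≤ rn (capS c x1) := by
  have hx' := hx
  rw [nodeX_rn] at hx'
  have hXt : rn (nodeX x1) * rn (tUp c) < 1 := by
    have h' : ((nodeX x1 * tUp c : ℕ) : ℝ) < ((16777216 * 16777216 : ℕ) : ℝ) := Nat.cast_lt.2 hok
    push_cast at h'
    simp only [rn]; linarith
  have hE1 : rn c.E1 ≤ 1 := h.E1_le.trans (by norm_num)
  refine (sig_cap h.pt h.k0 h.k2 (K := rn c.K1) (E := rn c.E1) (γ := rn c.gam) (x1 := (x1 : ℝ) / 2048)
    (X1 := rn (nodeX x1)) (t1 := rn (tUp c)) (e := rn (expUp (expArg (tUp c) (nodeX x1))))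
    h.hk.2 h.hε.2 hE1 h.KE h.gamma hx hx' (by positivity) ?_ hXt
    (expUp_sound harg (expArg_ge _ _ hok))).trans ?_
  · rw [tUp_eq]; exact (h.t_mem h.hε.1 h.hε.2).2
  simp only [capS, Nat.add_eq, Nat.mul_eq]
  set e := expUp (expArg (tUp c) (nodeX x1))
  set B := cdiv (lamUp c * c.gam * (massUp c.E1 * millsUp x1 * e))
    (16777216 * 16777216 * 16777216 * 16777216)
  have hB : (1 + 2 * (rn c.K1 * rn c.E1 ^ 2)) * rn c.gam * (125332 / 100000 * (1 + rn c.E1 / 3)) *
      mills ((x1 : ℝ) / 2048) * rn e ≤ rn B := by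
    have hm := mills_pos (show (0 : ℝ) ≤ (x1 : ℝ) / 2048 by positivity)
    have := rn_nonneg c.gam
    have := rn_nonneg e
    have := rn_nonneg c.E1
    have := rn_nonneg c.K1
    have := rn_nonneg (lamUp c)
    have := rn_nonneg (massUp c.E1)
    have hl := h.lam_up
    have hQ := h.mass_up
    have hM := mills_up x1
    refine le_trans (b := rn (lamUp c) * rn c.gam * rn (massUp c.E1) * rn (millsUp x1) * rn e)
      (by gcongr) (le_trans (le_of_eq ?_) (rn_cdiv _ (by norm_num)))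
    simp only [rn]; push_cast; ring
  refine le_trans (mul_le_mul_of_nonneg_left (b := 2 * rn c.E1 + _) (c := rn (2 * c.E1 + B))
    ?_ (rn_nonneg _)) (le_trans (le_of_eq ?_) (rn_mul_up c.K1 (2 * c.E1 + B)))
  · rw [rn_add]
    refine add_le_add (le_of_eq ?_) hB
    simp only [rn]; push_cast; ring
  · rfl

theorem syAt_sound {x1 F1 : ℕ} (hok : cdiv (nodeX x1 * iUp F1) 16777216 < 16777216) :
    1 ≤ rn (syAt x1 F1) ^ 2 * (1 - ((x1 : ℝ) / 2048) ^ 2 * rn (iUp F1)) := by
  refine (rsqUp_sound _ hok).trans (mul_le_mul_of_nonneg_left (sub_le_sub_left ?_ 1) (sq_nonneg _))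
  rw [← nodeX_rn]
  exact rn_mul_up _ _

/-- `capW` bounds `w` on a range of `ε`. -/
theorem capW_sound (h : CellPt c p k y t r lam) {x0 x1 xu F0 F1 : ℕ} (h0 : rn F0 ≤ epsP p)
    (h1 : epsP p ≤ rn F1) (hF : F1 ≤ c.E1) (hxu : 0 < xu) (hxux : xu ≤ x0)
    (hX : XP p y ∈ Icc (rn (nodeX x0)) (rn (nodeX x1)))
    (hok : xuTop x0 x1 xu * tUp c < 16777216 * 16777216)
    (harg : expArg (tUp c) (xuTop x0 x1 xu) ≤ 4096 * 16777216)
    (hsy : cdiv (nodeX x1 * tUp c) 16777216 < 16777216) :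
    (r ^ p)⁻¹ ≤ rn (capW c x0 x1 xu F0 F1) := by
  obtain ⟨ht0, ht1⟩ := h.t_mem h0 h1
  set X1 := xuTop x0 x1 xu with hX1
  set t1 := iUp F1 with ht1d
  have htt : t1 ≤ tUp c := by rw [tUp_eq]; exact iUp_mono hF
  have hok' : X1 * t1 < 16777216 * 16777216 := lt_of_le_of_lt (Nat.mul_le_mul_left _ htt) hok
  have hXt : rn X1 * rn t1 < 1 := by
    have h' : ((X1 * t1 : ℕ) : ℝ) < ((16777216 * 16777216 : ℕ) : ℝ) := Nat.cast_lt.2 hok'
    push_cast at h'
    simp only [rn]; linarith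
  have ht11 : rn t1 < 1 := by
    rcases Nat.eq_zero_or_pos t1 with e | e
    · simp [e, rn]
    · have : t1 ≤ 559241 := by
        refine htt.trans ?_
        rw [tUp_eq, iUp, cdiv_def]
        refine Nat.div_le_of_le_mul ?_
        simp only [Nat.mul_eq, Nat.add_eq]
        have := h.hE
        omega
      exact lt_of_le_of_lt (rn_le this) (by norm_num [rn])
  have hsy' : cdiv (nodeX x1 * t1) 16777216 < 16777216 :=
    lt_of_le_of_lt (cdiv_le_cdiv (by norm_num) (by norm_num)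
      (Nat.mul_le_mul_right _ (Nat.mul_le_mul_left _ htt))) hsy
  have hax : expArgW F0 F1 X1 ≤ 4096 * 16777216 := by
    refine le_trans ?_ harg
    have hmono : expArg t1 X1 ≤ expArg (tUp c) X1 := by
      refine cdiv_le_cdiv (by simp only [Nat.mul_eq, Nat.sub_eq]; omega)
        (by simp only [Nat.mul_eq, Nat.sub_eq]; omega) ?_
      simp only [Nat.mul_eq, Nat.sub_eq]
      have a : X1 * t1 ≤ X1 * tUp c := Nat.mul_le_mul_left _ htt
      generalize X1 * t1 = u at *
      generalize X1 * tUp c = v at *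
      obtain ⟨d, rfl⟩ := Nat.exists_eq_add_of_le a
      obtain ⟨e, he⟩ := Nat.exists_eq_add_of_le hok.le
      rw [show 16777216 * 16777216 - u = d + e by omega, show 16777216 * 16777216 - (u + d) = e by omega,
        show 2 * 16777216 * 16777216 - u = 16777216 * 16777216 + d + e by omega,
        show 2 * 16777216 * 16777216 - (u + d) = 16777216 * 16777216 + e by omega]
      ring_nf
      nlinarith [Nat.zero_le (X1 * 16777216 * 16777216 * d)]
    refine le_trans ?_ hmono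
    simp only [expArgW, Nat.mul_eq, Nat.sub_eq]
    rw [← ht1d]
    exact cdiv_le_of (by norm_num) (Nat.mul_le_mul_right _ (Nat.sub_le _ _))
  have hE : rn F1 ≤ 1 := ((rn_le hF).trans h.E1_le).trans (by norm_num)
  have hKE : rn c.K1 * rn F1 ^ 2 ≤ 1 :=
    (mul_le_mul_of_nonneg_left (pow_le_pow_left₀ (rn_nonneg _) (rn_le hF) 2) (rn_nonneg _)).trans h.KE
  have hx0 : 0 < (x0 : ℝ) := Nat.cast_pos.2 (lt_of_lt_of_le hxu hxux)
  set A := cdiv (millsUp x1 * (c.K1 * c.gam) * (F1 * (massUp c.E1 * expUp (expArgW F0 F1 X1))))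
    (16777216 * 16777216 * 16777216 * 16777216 * 16777216)
  set F := cdiv (millsUp x0 * (X1 + 2 * 16777216) * (16777216 * 16777216))
    (xu * 8192 * (X1 * (16777216 - t1) + 3 * 16777216 * 16777216))
  set su := 16777216 - Nat.div (nodeX xu * iLo F0) (2 * 16777216) with hsu
  have hFm : mills ((x0 : ℝ) / 2048) / ((xu : ℝ) / x0 * ((x0 : ℝ) / 2048)) *
      ((rn X1 + 2) / (rn X1 * (1 - rn t1) + 3)) ≤ rn F := by
    have hmu := mills_up x0
    have hm0 := mills_pos (show (0 : ℝ) ≤ (x0 : ℝ) / 2048 by positivity)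
    refine le_trans (b := rn (millsUp x0) / ((xu : ℝ) / 2048) * ((rn X1 + 2) / (rn X1 * (1 - rn t1) + 3))) ?_
      (le_trans (le_of_eq ?_) (rn_cdiv _ (by positivity)))
    · rw [show (xu : ℝ) / x0 * ((x0 : ℝ) / 2048) = (xu : ℝ) / 2048 by field_simp]
      have : 0 ≤ rn X1 * (1 - rn t1) + 3 :=
        add_nonneg (mul_nonneg (rn_nonneg _) (sub_nonneg.2 ht11.le)) zero_le_three
      have := rn_nonneg X1
      exact mul_le_mul_of_nonneg_right (div_le_div_of_nonneg_right hmu (by positivity)) (by positivity)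
    · have ht1U : t1 ≤ 16777216 := by
        by_contra hc
        push Not at hc
        have := rn_le hc.le
        rw [rn_U] at this
        linarith
      simp only [rn]
      push_cast [Nat.cast_sub ht1U]
      have : (0 : ℝ) < xu := Nat.cast_pos.2 hxu
      field_simp
      ring
  refine (w_cap h.pt h.k0 h.k2 (K := rn c.K1) (E := rn F1) (γ := rn c.gam) (θ := (xu : ℝ) / x0)
    (x0 := (x0 : ℝ) / 2048) (x1 := (x1 : ℝ) / 2048) (Xu0 := rn (nodeX xu)) (Xu1 := rn X1)
    (t0 := rn (iLo F0)) (t1 := rn t1) (e := rn (expUp (expArgW F0 F1 X1))) (su := rn su)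
    (sy := rn (syAt x1 F1)) (Fm := rn F) h.hk.2 h1 hE hKE h.gamma (by positivity)
    (by rw [div_le_one hx0]; exact Nat.cast_le.2 hxux) (by positivity)
    (by rw [← nodeX_rn]; exact hX.1) (by rw [← nodeX_rn]; exact hX.2) (by positivity) ?_ ?_
    (rn_nonneg _) ht1 ht11 ht0 (rn_nonneg _) hXt (expUp_sound hax ?_) ?_ hFm
    (syAt_sound hsy') (rn_nonneg _)).trans ?_
  · rw [nodeX_rn]; field_simp; exact le_rfl
  · refine le_trans (le_of_eq ?_) (rn_cdiv _ (Nat.mul_pos (lt_of_lt_of_le hxu hxux) (lt_of_lt_of_le hxu hxux)))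
    simp only [nodeX, Nat.mul_eq]; push_cast; field_simp; ring
  · refine le_trans ?_ (rn_mul_up _ _)
    have : 0 ≤ rn X1 / 2 * (1 + rn X1 * rn t1 / (2 * (1 - rn X1 * rn t1))) := by
      have := mul_nonneg (rn_nonneg X1) (rn_nonneg t1)
      have : 0 < 1 - rn X1 * rn t1 := by linarith
      exact mul_nonneg (div_nonneg (rn_nonneg X1) zero_le_two)
        (add_nonneg zero_le_one (div_nonneg (by assumption) (mul_nonneg zero_le_two (le_of_lt (by assumption)))))
    refine mul_le_mul ?_ (expArg_ge _ _ hok') this (rn_nonneg _)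
    have := rn_sub_ge 16777216 (iLo F0)
    rw [rn_U] at this
    exact this
  · refine le_trans ?_ (rn_sub_ge _ _)
    rw [rn_U]
    refine sub_le_sub_left ?_ 1
    refine le_trans (div_le_div_of_nonneg_right (cast_div_le _ _) (by norm_num)) (le_of_eq ?_)
    simp only [rn, nodeX, Nat.mul_eq]; push_cast; ring
  have he0 := rn_nonneg (expUp (expArgW F0 F1 X1))
  have hA : mills ((x1 : ℝ) / 2048) *
      (rn c.K1 * rn c.gam * rn F1 * (125332 / 100000 * (1 + rn F1 / 3)) *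
        rn (expUp (expArgW F0 F1 X1))) ≤ rn A := by
    have hm := mills_pos (show (0 : ℝ) ≤ (x1 : ℝ) / 2048 by positivity)
    have hM := mills_up x1
    have := rn_nonneg c.gam
    have := rn_nonneg c.K1
    have := rn_nonneg F1
    have := rn_nonneg (millsUp x1)
    have := rn_nonneg (massUp c.E1)
    have hQ : 125332 / 100000 * (1 + rn F1 / 3) ≤ rn (massUp c.E1) := by
      refine le_trans ?_ h.mass_up
      have := rn_le hF
      linarith
    refine le_trans (b := rn (millsUp x1) * (rn c.K1 * rn c.gam * rn F1 * rn (massUp c.E1) *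
      rn (expUp (expArgW F0 F1 X1)))) (by gcongr) (le_trans (le_of_eq ?_) (rn_cdiv _ (by norm_num)))
    simp only [rn]; push_cast; ring
  simp only [capW, forceN_eq, Nat.mul_eq, Nat.add_eq, Nat.sub_eq]
  rw [← hX1, ← ht1d, ← hsu]
  refine max_le (rn_U.ge.trans (rn_le (le_nmax_left _ _))) (le_trans ?_ (rn_le (le_nmax_right _ _)))
  have hl : 1 + 2 * (rn c.K1 * rn F1 ^ 2) ≤ rn (lamUp c) := by
    refine le_trans ?_ h.lam_up
    have := rn_le hF
    have := rn_nonneg F1
    have := rn_nonneg c.K1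
    gcongr
  refine le_trans (b := rn (lamUp c) * rn (syAt x1 F1) * (rn A + rn (cdiv (su * F) 16777216))) ?_
    (le_trans (le_of_eq ?_) (rn_cdiv _ (by norm_num)))
  · refine mul_le_mul (mul_le_mul_of_nonneg_right hl (rn_nonneg _)) (add_le_add hA (rn_mul_up su F)) ?_
      (mul_nonneg (rn_nonneg _) (rn_nonneg _))
    refine add_nonneg (mul_nonneg (mills_pos (div_nonneg (Nat.cast_nonneg _) (by norm_num))).le
      (mul_nonneg (mul_nonneg (mul_nonneg (mul_nonneg (rn_nonneg _) (rn_nonneg _)) (rn_nonneg _))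
        (mul_nonneg (by norm_num) (add_nonneg zero_le_one (div_nonneg (rn_nonneg _) (by norm_num)))))
        (rn_nonneg _))) (mul_nonneg (rn_nonneg _) (rn_nonneg _))
  · simp only [rn]; push_cast; ring

theorem sub_cover (c : Cell) {ε : ℝ} : ∀ n, rn c.E0 ≤ ε → ε ≤ rn (subEps c n) → 0 < n →
    ∃ i < n, rn (subEps c i) ≤ ε ∧ ε ≤ rn (subEps c (i + 1))
  | 0, _, _, h => absurd h (lt_irrefl 0)
  | n + 1, h0, h1, _ => by
    rcases le_total (rn (subEps c n)) ε with h | h
    · exact ⟨n, Nat.lt_succ_self n, h, h1⟩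
    · rcases Nat.eq_zero_or_pos n with rfl | hn
      · exact ⟨0, Nat.one_pos, by simpa [subEps, nat_div_def] using h0, h1⟩
      · obtain ⟨i, hi, a, b⟩ := sub_cover c n h0 h hn
        exact ⟨i, hi.trans (Nat.lt_succ_self n), a, b⟩

theorem scapUp_ge (c : Cell) (x0 x1 xu : ℕ) : ∀ n i, i < n →
    cdiv ((capW c x0 x1 xu (subEps c i) (subEps c (i + 1)) - 16777216) * 16777216) (subEps c i) ≤
      scapUp c x0 x1 xu n
  | 0, _, h => absurd h (Nat.not_lt_zero _)
  | n + 1, i, h => by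
    rw [scapUp, forceN_eq]
    rcases Nat.lt_succ_iff_lt_or_eq.1 h with h' | rfl
    · exact (scapUp_ge c x0 x1 xu n i h').trans (le_nmax_left _ _)
    · exact le_nmax_right _ _

/-- `scapUp` bounds `σ`. -/
theorem scapUp_sound (h : CellPt c p k y t r lam) {x0 x1 xu : ℕ} (hE0 : 0 < c.E0) (het : c.et ≤ c.ec)
    (hxu : 0 < xu) (hxux : xu ≤ x0) (hX : XP p y ∈ Icc (rn (nodeX x0)) (rn (nodeX x1)))
    (hok : xuTop x0 x1 xu * tUp c < 16777216 * 16777216)
    (harg : expArg (tUp c) (xuTop x0 x1 xu) ≤ 4096 * 16777216)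
    (hsy : cdiv (nodeX x1 * tUp c) 16777216 < 16777216) :
    sig p r ≤ rn (scapUp c x0 x1 xu 8) := by
  have e8 : subEps c 8 = c.E1 := by
    simp only [subEps, Cell.E0, Cell.E1, Nat.add_eq, Nat.mul_eq, Nat.sub_eq, nat_div_def]; omega
  obtain ⟨i, hi, h0, h1⟩ := sub_cover c 8 h.hε.1 (e8 ▸ h.hε.2) (by norm_num)
  have hsub : subEps c (i + 1) ≤ c.E1 := by
    rw [← e8]
    simp only [subEps, Nat.add_eq, Nat.mul_eq, nat_div_def]
    exact Nat.add_le_add_left (Nat.div_le_div_right (Nat.mul_le_mul_left _ hi)) _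
  have hp : 0 < subEps c i := Nat.lt_of_lt_of_le hE0 (Nat.le_add_right _ _)
  have hw := h.capW_sound h0 h1 hsub hxu hxux hX hok harg hsy
  refine le_trans ?_ (rn_le (scapUp_ge c x0 x1 xu 8 i hi))
  set W := capW c x0 x1 xu (subEps c i) (subEps c (i + 1))
  refine le_trans ?_ (rn_cdiv _ hp)
  have hε := eps_pos p
  have hsub0 : 0 < rn (subEps c i) := div_pos (Nat.cast_pos.2 hp) (by norm_num)
  rw [sig]
  refine le_trans (b := rn (W - 16777216) / rn (subEps c i)) ?_ (le_of_eq ?_)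
  · have h3 : (r ^ p)⁻¹ - 1 ≤ rn (W - 16777216) := by
      have h4 := rn_sub_ge W 16777216
      rw [rn_U] at h4
      linarith
    exact (div_le_div_of_nonneg_right h3 hε.le).trans (div_le_div_of_nonneg_left (rn_nonneg _) hsub0 h0)
  · simp only [rn, Nat.mul_eq, Nat.sub_eq, Nat.cast_mul, Nat.cast_ofNat]
    have hne : ((subEps c i : ℕ) : ℝ) ≠ 0 := (Nat.cast_pos.2 hp).ne'
    generalize ((subEps c i : ℕ) : ℝ) = e at hne ⊢
    generalize ((W - 16777216 : ℕ) : ℝ) = v
    field_simp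

end CellPt

end Vale.Agent.P237.All.Transport.Mid
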