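import Vale.Agent.P237.All.Mid.Region

/-!
P237, cell `k` in `[4/5, 5/2]`: moments and the mass of the power `p + 1` from below.
-/

noncomputable section

open Real Set MeasureTheory intervalIntegral

namespace Vale.Agent.P237.All.Transport.Mid

theorem moment_succ (q n : ℕ) :
    (2 * (n : ℝ) + 1) * ∫ y in (0 : ℝ)..1, y ^ (2 * n) * semi y ^ q =
      ((q : ℝ) + 3 + 2 * n) * ∫ y in (0 : ℝ)..1, y ^ (2 * (n + 1)) * semi y ^ q := by
  have h := moment_step q (2 * n)
  have hs := semi_continuous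
  have e : ∫ y in (0 : ℝ)..1, y ^ (2 * n) * semi y ^ (q + 2) =
      (∫ y in (0 : ℝ)..1, y ^ (2 * n) * semi y ^ q) - ∫ y in (0 : ℝ)..1, y ^ (2 * n + 2) * semi y ^ q := by
    rw [← intervalIntegral.integral_sub
      ((show Continuous fun y => y ^ (2 * n) * semi y ^ q by fun_prop).intervalIntegrable _ _)
      ((show Continuous fun y => y ^ (2 * n + 2) * semi y ^ q by fun_prop).intervalIntegrable _ _)]
    refine intervalIntegral.integral_congr fun y hy => ?_
    rw [uIcc_of_le zero_le_one] at hy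
    simp only [pow_add, semi_sq (t := y) ⟨by linarith [hy.1], hy.2⟩]
    ring
  rw [e] at h
  rw [show 2 * (n + 1) = 2 * n + 2 by ring]
  push_cast at h
  linarith

/-- The product in the moments of `X`. -/
def momProd (E : ℝ) : ℕ → ℝ
  | 0 => 1
  | n + 1 => momProd E n * ((2 * (n : ℝ) + 1) / (1 + 2 * n * (E / (1 + E))))

theorem momProd_nonneg {E : ℝ} (hE : 0 ≤ E) : ∀ n, 0 ≤ momProd E n
  | 0 => zero_le_one
  | n + 1 => mul_nonneg (momProd_nonneg hE n) (by positivity)

/-- The scaled moment of `X ^ n` against `S ^ (p - 1)`. -/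
theorem moment_le {p : ℕ} (hp : 29 ≤ p) {E : ℝ} (hE0 : 0 ≤ E) (hE : E ≤ epsP p) (n : ℕ) :
    √((p : ℝ) + 2) * ∫ y in (0 : ℝ)..1, XP p y ^ n * semi y ^ (p - 1) ≤ 13 / 10 * momProd E n := by
  obtain ⟨q, rfl⟩ : ∃ q, p = q + 1 := ⟨p - 1, by omega⟩
  simp only [Nat.add_sub_cancel]
  induction n with
  | zero =>
    simp only [pow_zero, one_mul, momProd, mul_one, ← mass_semi]
    have hq : (28 : ℝ) ≤ q := by exact_mod_cast (show 28 ≤ q by omega)
    have hεq : epsP q ≤ 1 / 29 := one_div_le_one_div_of_le (by norm_num) (by linarith)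
    have h := mass_scaled_le (p := q) hεq (by norm_num)
    have hm := (mass_one_pos isProfile_semi q).le
    have hs : √((((q + 1 : ℕ) : ℝ)) + 2) ≤ 51 / 50 * √((q : ℝ) + 2) := by
      refine Real.sqrt_le_iff.2 ⟨by positivity, ?_⟩
      rw [mul_pow, sq_sqrt (by positivity)]
      push_cast
      linarith
    calc √((((q + 1 : ℕ) : ℝ)) + 2) * mass q semi 1 ≤ 51 / 50 * √((q : ℝ) + 2) * mass q semi 1 :=
          mul_le_mul_of_nonneg_right hs hm
      _ = 51 / 50 * (mass q semi 1 * √((q : ℝ) + 2)) := by ring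
      _ ≤ 13 / 10 := by linarith
  | succ n ih =>
    have hs := semi_continuous
    have e : ∀ j : ℕ, ∫ y in (0 : ℝ)..1, XP (q + 1) y ^ j * semi y ^ q =
        (((q + 1 : ℕ) : ℝ) + 2) ^ j * ∫ y in (0 : ℝ)..1, y ^ (2 * j) * semi y ^ q := by
      intro j
      rw [← intervalIntegral.integral_const_mul]
      refine intervalIntegral.integral_congr fun y _ => ?_
      simp only [XP, mul_pow, ← pow_mul]; ring
    have h := moment_succ q n
    rw [e] at ih ⊢
    set A := (((q + 1 : ℕ) : ℝ) + 2) with hA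
    have hA' : A = (q : ℝ) + 3 := by rw [hA]; push_cast; ring
    set I := ∫ y in (0 : ℝ)..1, y ^ (2 * n) * semi y ^ q with hI
    set J := ∫ y in (0 : ℝ)..1, y ^ (2 * (n + 1)) * semi y ^ q
    have hI0 : 0 ≤ I := intervalIntegral.integral_nonneg zero_le_one fun y hy =>
      mul_nonneg (pow_nonneg hy.1 _) (pow_nonneg (Real.sqrt_nonneg _) _)
    have hd : (0 : ℝ) < (q : ℝ) + 3 + 2 * n := by positivity
    have hJ : J = (2 * (n : ℝ) + 1) * I / ((q : ℝ) + 3 + 2 * n) := by rw [eq_div_iff hd.ne']; linarith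
    have hEA : E / (1 + E) ≤ 1 / A := by
      have h1 : E * ((((q + 1 : ℕ) : ℝ)) + 1) ≤ 1 := by
        rw [epsP, le_div_iff₀ (by positivity)] at hE; exact hE
      push_cast at h1
      rw [hA', div_le_div_iff₀ (by linarith) (by positivity)]
      linarith
    have hf : A * (2 * (n : ℝ) + 1) / ((q : ℝ) + 3 + 2 * n) ≤
        (2 * (n : ℝ) + 1) / (1 + 2 * n * (E / (1 + E))) := by
      rw [div_le_div_iff₀ hd (by positivity), ← hA']
      have hA0 : 0 < A := by rw [hA']; positivity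
      have h2 := mul_le_mul_of_nonneg_left hEA hA0.le
      rw [mul_one_div, div_self hA0.ne'] at h2
      have h3 := mul_le_mul_of_nonneg_left h2 (show 0 ≤ 2 * (n : ℝ) * (2 * n + 1) by positivity)
      linarith
    have e2 : √A * (A ^ (n + 1) * J) = √A * (A ^ n * I) * (A * (2 * (n : ℝ) + 1) / ((q : ℝ) + 3 + 2 * n)) := by
      rw [hJ, pow_succ]; ring
    rw [e2, momProd, ← mul_assoc (13 / 10 : ℝ)]
    exact mul_le_mul ih hf (by positivity) (mul_nonneg (by norm_num) (momProd_nonneg hE0 n))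

theorem mass_step_le (q : ℕ) :
    mass (q + 1) semi 1 ^ 2 ≤ mass q semi 1 * mass (q + 2) semi 1 := by
  set P0 := mass q semi 1
  set P1 := mass (q + 1) semi 1
  set P2 := mass (q + 2) semi 1
  have hs := semi_continuous
  have hq := mass_one_pos isProfile_semi q
  have hi : ∀ n, IntervalIntegrable (fun y => semi y ^ n) volume 0 1 := fun n =>
    (show Continuous fun y => semi y ^ n by fun_prop).intervalIntegrable _ _
  have h : ∀ u : ℝ, 0 ≤ u ^ 2 * P0 - 2 * u * P1 + P2 := fun u => by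
    have h0 : 0 ≤ ∫ y in (0 : ℝ)..1, semi y ^ q * (u - semi y) ^ 2 :=
      intervalIntegral.integral_nonneg zero_le_one fun y _ =>
        mul_nonneg (pow_nonneg (Real.sqrt_nonneg _) _) (sq_nonneg _)
    refine h0.trans (le_of_eq ?_)
    rw [show (fun y => semi y ^ q * (u - semi y) ^ 2) = fun y =>
      u ^ 2 * semi y ^ q - 2 * u * semi y ^ (q + 1) + semi y ^ (q + 2) by funext y; ring,
      intervalIntegral.integral_add (((hi q).const_mul _).sub ((hi _).const_mul _)) (hi _),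
      intervalIntegral.integral_sub ((hi q).const_mul _) ((hi _).const_mul _),
      intervalIntegral.integral_const_mul, intervalIntegral.integral_const_mul]
    rfl
  have h' := h (P1 / P0)
  field_simp at h'
  have e : P1 ^ 2 * (1 - 2) / P0 * P0 = -P1 ^ 2 := by
    rw [div_mul_cancel₀ _ hq.ne']; ring
  have := mul_nonneg h' hq.le
  linarith

theorem mass_poly {q : ℝ} (hq : 30 ≤ q) :
    (4 * q - 1) ^ 4 * (q + 2) ^ 3 ≤ 256 * q ^ 4 * ((q + 1) ^ 2 * (q + 3)) := by
  obtain ⟨s, hs, rfl⟩ : ∃ s, 0 ≤ s ∧ q = 30 + s := ⟨q - 30, by linarith, by ring⟩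
  nlinarith [pow_nonneg hs 2, pow_nonneg hs 3, pow_nonneg hs 4, pow_nonneg hs 5, pow_nonneg hs 6,
    pow_nonneg hs 7]

/-- The scaled mass of the power `p + 1` from below. -/
theorem mass_succ_ge {p : ℕ} (hp : 29 ≤ p) :
    12533 / 10000 * (1 - epsP p / 4) ≤ √((p : ℝ) + 2) * mass (p + 1) semi 1 := by
  set a := mass (p + 1) semi 1 with ha
  set b := mass (p + 2) semi 1 with hb
  have ha0 : 0 < a := mass_one_pos isProfile_semi _
  have hb0 : 0 < b := mass_one_pos isProfile_semi _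
  have hw : a * b = π / (2 * ((p : ℝ) + 3)) := by
    have := mass_semi_mul (p + 1)
    rw [show p + 1 + 1 = p + 2 from rfl] at this
    rw [ha, hb, this]; push_cast; ring
  have hc := mass_step_le (p + 1)
  rw [show p + 1 + 1 = p + 2 from rfl, mass_semi_step (p + 1), ← ha, ← hb] at hc
  push_cast at hc
  set q := (p : ℝ) + 1 with hq
  have hq30 : 30 ≤ q := by
    have : (29 : ℝ) ≤ p := by exact_mod_cast hp
    linarith
  rw [show (p : ℝ) + 3 = q + 2 by rw [hq]; ring] at hw
  rw [show q + 2 = q + 2 from rfl, show q + 3 = q + 3 from rfl] at hc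
  have key : (π / 2) ^ 2 * ((q + 1) ^ 2 * (q + 3)) / (q + 2) ^ 3 ≤ ((q + 1) * a ^ 2) ^ 2 := by
    have h1 : (q + 3) * b ^ 2 ≤ (q + 2) * a ^ 2 := by
      have h2 := mul_le_mul_of_nonneg_left hc (show 0 ≤ q + 3 by linarith)
      refine h2.trans (le_of_eq ?_)
      field_simp
    have e : (π / 2) ^ 2 = (a * b * (q + 2)) ^ 2 := by rw [hw]; field_simp
    rw [e, div_le_iff₀ (by positivity)]
    have := mul_le_mul_of_nonneg_left h1 (show 0 ≤ a ^ 2 * (q + 1) ^ 2 * (q + 2) ^ 2 by positivity)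
    linarith
  have hpoly := mass_poly hq30
  have hπ : (12533 / 10000 : ℝ) ^ 4 ≤ (π / 2) ^ 2 := by
    nlinarith [Real.pi_gt_d6]
  have h4 : (12533 / 10000 * (1 - epsP p / 4)) ^ 4 ≤ (√((p : ℝ) + 2) * a) ^ 4 := by
    have e1 : (√((p : ℝ) + 2) * a) ^ 4 = ((q + 1) * a ^ 2) ^ 2 := by
      rw [hq, show (4 : ℕ) = 2 * 2 from rfl, pow_mul, mul_pow, sq_sqrt (by positivity)]; ring
    have e2 : (1 - epsP p / 4) ^ 4 = (4 * q - 1) ^ 4 / (256 * q ^ 4) := by
      rw [epsP, ← hq]; field_simp; ring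
    rw [e1, mul_pow, e2]
    refine le_trans ?_ key
    rw [mul_div_assoc ((π / 2) ^ 2)]
    refine mul_le_mul hπ ?_ (by positivity) (by positivity)
    rw [div_le_div_iff₀ (by positivity) (by positivity)]
    linarith
  exact (pow_le_pow_iff_left₀ (mul_nonneg (by norm_num) (by linarith [eps_le_one p])) (by positivity)
    (by norm_num : (4 : ℕ) ≠ 0)).1 h4

end Vale.Agent.P237.All.Transport.Mid
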