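import Vale.Agent.P237.All.Mid.Major
import Vale.Agent.P237.All.Mid.Region
import Vale.Agent.P237.All.High.Tail

/-!
P237, cell `k` in `[4/5, 5/2]`: the crude bound for `X = (p + 2) y ^ 2` beyond the boxes.
-/

noncomputable section

open Real Set

namespace Vale.Agent.P237.All.Transport.Mid

open Upper (mills mills_mono mills_pos core core_mem)

/-- `w semi y` against `x ≥ 5`. -/
theorem wide_five {x : ℝ} (hx : 5 ≤ x) : High.wide (17 / 20) x ≤ 19 / 20 * x := by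
  refine (High.wide_le (θ := 17 / 20) (by norm_num) (show (0 : ℝ) ≤ 5 by norm_num) hx le_rfl).trans ?_
  have hm : mills x ≤ x + 9 / 5 / (361 / 50) :=
    add_le_add le_rfl (div_le_div_of_nonneg_left (by norm_num) (by norm_num) (by linarith))
  rw [div_le_iff₀ (High.lift_pos (by norm_num) (by norm_num))]
  have hl : (229 : ℝ) / 100 ≤ High.lift (17 / 20) 5 := by
    norm_num [High.lift, core, mills]
  have := mul_le_mul_of_nonneg_left hl (show 0 ≤ 19 / 20 * x by positivity)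
  linarith

/-- The constant of the crude tail. -/
def tailC (α sa w Mm s x1 X1 : ℝ) : ℝ :=
  Mm * (19 / 20) * (α + 5 / 2) * (X1 ^ 2 / x1) +
    Mm ^ 2 * (19 / 20 * (2 * w + 6 / 5) * s + 19 / 20 * (9 / 2) * x1 + 10) +
    Mm * (α + 4 / 5 + (2 * sa + 3) / 25) * s * (X1 ^ 2 / x1) +
    Mm ^ 2 * ((26 / 25 * w + 73 / 100) * (Mm + 1))

/-- What the coefficients satisfy beyond the last knot. -/
structure Far (D e1 aX a1 W0 W1 X α sa w : ℝ) : Prop where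
  hD : D ∈ Icc (1 / 4 : ℝ) (2 / 5)
  he : |e1| ≤ 1
  ha : |aX| ≤ α * X
  ha1 : |a1| ≤ sa
  hW : |W0| ≤ w
  hW1 : W1 = 0

theorem eps_le {p : ℕ} (hp : 29 ≤ p) : epsP p ≤ 1 / 30 :=
  one_div_le_one_div_of_le (by norm_num) (by have : (29 : ℝ) ≤ p := (by exact_mod_cast hp); linarith)

theorem epsX {p : ℕ} {y : ℝ} (hy : y ∈ Ioo (0 : ℝ) 1) (hp : 29 ≤ p) :
    epsP p * XP p y ≤ 31 / 30 := by
  have hy2 : y ^ 2 ≤ 1 := by nlinarith [hy.1, hy.2]
  have hp' : (29 : ℝ) ≤ p := by exact_mod_cast hp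
  simp only [epsP, XP]
  rw [div_mul_eq_mul_div, one_mul, div_le_iff₀ (by linarith)]
  nlinarith [mul_le_mul_of_nonneg_left hy2 (show (0 : ℝ) ≤ (p : ℝ) + 2 by linarith)]

variable {p : ℕ} {D e1 aX a1 W0 W1 α sa w y : ℝ}

theorem Far.rn_le (h : Far D e1 aX a1 W0 W1 (XP p y) α sa w) (hp : 29 ≤ p) (hX : 25 ≤ XP p y) :
    |RnR D e1 aX (epsP p) (XP p y)| ≤ (α + 5 / 2) * XP p y ∧
      |aX - RnR D e1 aX (epsP p) (XP p y)| ≤ 30 / 29 * (3 / 2 + 23 / 10 * XP p y) := by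
  obtain ⟨⟨hD0, hD1⟩, he, ha, -, -, -⟩ := h
  have hε := eps_pos p
  have hε1 := eps_le hp
  obtain ⟨e0, e1'⟩ := abs_le.1 he
  set X := XP p y
  set ε := epsP p
  have hi : 0 ≤ iA ε ∧ iA ε ≤ 1 / 30 := by
    unfold iA
    refine ⟨by positivity, ?_⟩
    rw [div_le_iff₀ (by linarith)]; linarith
  have hm : 0 ≤ 1 / (1 - ε) ∧ 1 / (1 - ε) ≤ 30 / 29 := by
    refine ⟨div_nonneg zero_le_one (by linarith), ?_⟩
    rw [div_le_div_iff₀ (by linarith) (by norm_num)]; linarith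
  have h1 : |1 / 2 + 22 / 5 * D + (1 - 44 / 5 * D) * iA ε| ≤ 23 / 10 := by
    rw [abs_le]
    constructor <;> nlinarith [hi.1, hi.2, hD0, hD1]
  have h2 : |1 - 22 / 5 * D + e1 - (1 / 2 - D) + 17 / 5 * D + X * (1 / 2 + 22 / 5 * D +
      (1 - 44 / 5 * D) * iA ε)| ≤ 3 / 2 + 23 / 10 * X := by
    refine (abs_add_le _ _).trans (add_le_add ?_ ?_)
    · rw [abs_le]; constructor <;> linarith
    · rw [abs_mul, abs_of_nonneg (show 0 ≤ X by linarith), mul_comm]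
      exact mul_le_mul_of_nonneg_right h1 (by linarith)
  have e : aX - RnR D e1 aX ε X = 1 / (1 - ε) * (1 - 22 / 5 * D + e1 - (1 / 2 - D) + 17 / 5 * D +
      X * (1 / 2 + 22 / 5 * D + (1 - 44 / 5 * D) * iA ε)) := by rw [RnR]; ring
  have h3 : |aX - RnR D e1 aX ε X| ≤ 30 / 29 * (3 / 2 + 23 / 10 * X) := by
    rw [e, abs_mul, abs_of_nonneg hm.1]
    exact mul_le_mul hm.2 h2 (abs_nonneg _) (by norm_num)
  refine ⟨?_, h3⟩
  obtain ⟨a0, a1'⟩ := abs_le.1 h3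
  obtain ⟨b0, b1⟩ := abs_le.1 ha
  rw [abs_le]
  constructor <;> linarith

theorem cr_le (hD : D ∈ Icc (1 / 4 : ℝ) (2 / 5)) (hp : 29 ≤ p) :
    |1 - 22 / 5 * D + iA (epsP p) * (2 - 88 / 25 * D) - 22 / 25 * D * (1 / (1 + epsP p))| ≤ 28 / 25 := by
  obtain ⟨hD0, hD1⟩ := hD
  have hε := eps_pos p
  have hε1 := eps_le hp
  have h1 : 1 / (1 + epsP p) ≤ 1 := by rw [div_le_one (by linarith)]; linarith
  have h2 : 0 ≤ 1 / (1 + epsP p) := by positivity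
  have hi : 0 ≤ iA (epsP p) ∧ iA (epsP p) ≤ 1 / 30 := by
    unfold iA
    refine ⟨by positivity, ?_⟩
    rw [div_le_iff₀ (by linarith)]; linarith
  rw [abs_le]
  constructor <;> nlinarith [hi.1, hi.2, h1, h2, hD0, hD1]

theorem Far.C_le (h : Far D e1 aX a1 W0 W1 (XP p y) α sa w) (hp : 29 ≤ p) (hy : y ∈ Ioo (0 : ℝ) 1) :
    |CnR D W0 (epsP p) (XP p y)| ≤ 2 * w + 6 / 5 ∧
      |(2 * W0 - CnR D W0 (epsP p) (XP p y)) / y| ≤ 6 / 5 := by
  have hε := eps_pos p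
  have hε1 := eps_le hp
  have hp' : (29 : ℝ) ≤ p := by exact_mod_cast hp
  set cr := 1 - 22 / 5 * D + iA (epsP p) * (2 - 88 / 25 * D) - 22 / 25 * D * (1 / (1 + epsP p)) with hcr
  have hc := cr_le (D := D) h.hD hp
  rw [← hcr] at hc
  have hq0 : 0 ≤ XP p y * (epsP p / (1 - epsP p)) :=
    mul_nonneg (XP_pos p hy.1).le (div_nonneg hε.le (by linarith))
  have hq : XP p y * (epsP p / (1 - epsP p)) ≤ 15 / 14 * y := by
    have e : XP p y * (epsP p / (1 - epsP p)) = ((p : ℝ) + 2) / p * (y * y) := by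
      have : (p : ℝ) ≠ 0 := by linarith
      simp only [XP, epsP]; field_simp; ring_nf; rw [mul_right_comm, mul_inv_cancel₀ this, one_mul]
    have h2 : ((p : ℝ) + 2) / p ≤ 15 / 14 := by rw [div_le_iff₀ (by linarith)]; linarith
    rw [e]
    exact mul_le_mul h2 (mul_le_of_le_one_left hy.1.le hy.2.le) (mul_self_nonneg y) (by norm_num)
  have e : 2 * W0 - CnR D W0 (epsP p) (XP p y) = XP p y * (epsP p / (1 - epsP p)) * cr := by
    rw [CnR, hcr]; ring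
  have h3 : |2 * W0 - CnR D W0 (epsP p) (XP p y)| ≤ 6 / 5 * y := by
    rw [e, abs_mul, abs_of_nonneg hq0]
    calc XP p y * (epsP p / (1 - epsP p)) * |cr| ≤ 15 / 14 * y * (28 / 25) :=
          mul_le_mul hq hc (abs_nonneg _) (by linarith [hy.1])
      _ = 6 / 5 * y := by ring
  constructor
  · obtain ⟨a0, a1'⟩ := abs_le.1 (h3.trans (mul_le_of_le_one_right (by norm_num) hy.2.le))
    obtain ⟨b0, b1⟩ := abs_le.1 h.hW
    rw [abs_le]
    constructor <;> linarith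
  · rw [abs_div, abs_of_pos hy.1, div_le_iff₀ hy.1]; exact h3

theorem MA_mul (hy : y ∈ Ioo (0 : ℝ) 1) :
    0 ≤ MA (epsP p) (XP p y) * (1 - y ^ 2) ∧ MA (epsP p) (XP p y) * (1 - y ^ 2) ≤ 1 := by
  have hS : 0 < 1 - y ^ 2 := by nlinarith [hy.1, hy.2]
  have hε := eps_pos p
  have e : 1 + epsP p - epsP p * XP p y = (1 + epsP p) * (1 - y ^ 2) := by
    simp only [XP, epsP]; field_simp; ring
  rw [MA, e, div_mul_eq_mul_div, one_mul]
  constructor
  · positivity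
  · rw [div_le_one (by positivity)]; nlinarith

theorem Far.L_le (h : Far D e1 aX a1 W0 W1 (XP p y) α sa w) (hy : y ∈ Ioo (0 : ℝ) 1)
    (hX : 25 ≤ XP p y) :
    |LR D aX a1 (epsP p) (XP p y)| * (1 - y ^ 2) ≤ (α + 4 / 5 + (2 * sa + 3) / 25) * XP p y ^ 2 := by
  obtain ⟨⟨hD0, hD1⟩, -, ha, ha1, -, -⟩ := h
  obtain ⟨m0, m1⟩ := MA_mul (p := p) hy
  have hS : 0 < 1 - y ^ 2 := by nlinarith [hy.1, hy.2]
  have hS1 : 1 - y ^ 2 ≤ 1 := by nlinarith
  have hε := eps_pos p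
  set X := XP p y
  set m := MA (epsP p) X * (1 - y ^ 2) with hm
  have e : LR D aX a1 (epsP p) X * (1 - y ^ 2) = X * (2 * a1 * (1 - y ^ 2) +
      m * ((1 - 22 / 5 * D) * (1 - X) - aX) + 1 / (1 + epsP p) * (2 - 22 / 5 * D) * (1 - y ^ 2)) := by
    rw [LR, hm]; ring
  have h1 : |2 * a1 * (1 - y ^ 2)| ≤ 2 * sa := by
    rw [abs_mul, abs_mul, abs_of_pos hS, abs_two]
    have := abs_nonneg a1
    nlinarith
  have h2 : |m * ((1 - 22 / 5 * D) * (1 - X) - aX)| ≤ 4 / 5 * X + α * X := by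
    rw [abs_mul, abs_of_nonneg m0]
    refine le_trans (mul_le_of_le_one_left (abs_nonneg _) m1) ((abs_sub _ _).trans (add_le_add ?_ ha))
    rw [abs_mul, abs_of_nonpos (show 1 - X ≤ 0 by linarith)]
    have : |1 - 22 / 5 * D| ≤ 4 / 5 := abs_le.2 ⟨by linarith, by linarith⟩
    exact mul_le_mul this (by linarith) (by linarith) (by norm_num)
  have h3 : |1 / (1 + epsP p) * (2 - 22 / 5 * D) * (1 - y ^ 2)| ≤ 3 := by
    rw [abs_mul, abs_mul, abs_of_pos hS, abs_of_nonneg (show (0 : ℝ) ≤ 1 / (1 + epsP p) by positivity)]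
    have : |2 - 22 / 5 * D| ≤ 3 := abs_le.2 ⟨by linarith, by linarith⟩
    have h4 : 1 / (1 + epsP p) ≤ 1 := by rw [div_le_one (by linarith)]; linarith
    exact le_trans (mul_le_of_le_one_right (by positivity) hS1)
      (le_trans (mul_le_of_le_one_left (abs_nonneg _) h4) this)
  have hs : 0 ≤ sa := (abs_nonneg _).trans ha1
  rw [show |LR D aX a1 (epsP p) X| * (1 - y ^ 2) = |LR D aX a1 (epsP p) X * (1 - y ^ 2)| by
    rw [abs_mul, abs_of_pos hS], e, abs_mul, abs_of_nonneg (show 0 ≤ X by linarith)]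
  refine (mul_le_mul_of_nonneg_left ((abs_add_three _ _ _).trans (add_le_add (add_le_add h1 h2) h3))
    (by linarith)).trans ?_
  nlinarith [mul_le_mul_of_nonneg_left hX (show 0 ≤ (2 * sa + 3) * X / 25 by positivity)]

theorem Far.Q_le (h : Far D e1 aX a1 W0 W1 (XP p y) α sa w) (hy : y ∈ Ioo (0 : ℝ) 1) (hp : 29 ≤ p)
    (hX : 25 ≤ XP p y) :
    |QbR D W0 W1 (epsP p) (XP p y) 0| * (1 - y ^ 2) ≤ (26 / 25 * w + 73 / 100) * XP p y := by
  obtain ⟨⟨hD0, hD1⟩, -, -, -, hW, hW1⟩ := h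
  obtain ⟨m0, m1⟩ := MA_mul (p := p) hy
  have hS : 0 < 1 - y ^ 2 := by nlinarith [hy.1, hy.2]
  have hS1 : 1 - y ^ 2 ≤ 1 := by nlinarith
  have hε := eps_pos p
  have hε1 := eps_le hp
  set X := XP p y
  set m := MA (epsP p) X * (1 - y ^ 2) with hm
  have e : QbR D W0 W1 (epsP p) X 0 * (1 - y ^ 2) =
      X * ((1 / 2 + 11 / 25 * D) * (1 + 2 * iA (epsP p))) * (1 - y ^ 2) - W0 * ((1 - y ^ 2) + X * m) := by
    rw [QbR, hm, hW1]; ring
  have hi : 0 ≤ iA (epsP p) ∧ iA (epsP p) ≤ 1 / 30 := by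
    unfold iA
    refine ⟨by positivity, ?_⟩
    rw [div_le_iff₀ (by linarith)]; linarith
  have h1 : |X * ((1 / 2 + 11 / 25 * D) * (1 + 2 * iA (epsP p))) * (1 - y ^ 2)| ≤ 73 / 100 * X := by
    have h0 : 0 ≤ (1 / 2 + 11 / 25 * D) * (1 + 2 * iA (epsP p)) := mul_nonneg (by linarith) (by linarith [hi.1])
    have h1 : (1 / 2 + 11 / 25 * D) * (1 + 2 * iA (epsP p)) ≤ 73 / 100 := by
      nlinarith [hi.1, hi.2, hD0, hD1]
    rw [abs_mul, abs_mul, abs_of_nonneg h0, abs_of_pos hS, abs_of_nonneg (show 0 ≤ X by linarith)]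
    refine le_trans (mul_le_of_le_one_right (by positivity) hS1) ?_
    rw [mul_comm X]; exact mul_le_mul_of_nonneg_right h1 (by linarith)
  have h2 : |W0 * ((1 - y ^ 2) + X * m)| ≤ 26 / 25 * w * X := by
    rw [abs_mul, abs_of_nonneg (show 0 ≤ (1 - y ^ 2) + X * m by positivity)]
    refine (mul_le_mul hW (show (1 - y ^ 2) + X * m ≤ 1 + X by nlinarith) (by positivity)
      ((abs_nonneg _).trans hW)).trans ?_
    nlinarith [(abs_nonneg W0).trans hW]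
  rw [show |QbR D W0 W1 (epsP p) X 0| * (1 - y ^ 2) = |QbR D W0 W1 (epsP p) X 0 * (1 - y ^ 2)| by
    rw [abs_mul, abs_of_pos hS], e]
  refine (abs_sub _ _).trans ((add_le_add h1 h2).trans (le_of_eq ?_))
  ring

variable {A dA W dW : ℝ → ℝ} {k t r lam c2 : ℝ}

theorem km_ge (hp : 29 ≤ p) (hpt : Pt p k y t r lam) (hk0 : 0 ≤ k) (hk : k ≤ 5 / 2)
    (hD : D ∈ Icc (1 / 4 : ℝ) (2 / 5)) :
    99 / 100 * (22 / 5 * D * (1 - y ^ 2)) ≤
      majC (6 / 5) D * (1 - y ^ 2 - (6 / 5 - 1) * y * max 0 (y - t)) := by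
  obtain ⟨hy, -, -, -, -, -, -, -, -⟩ := id hpt
  have hε := eps_pos p
  have hε1 := eps_le hp
  have hS0 : 0 < 1 - y ^ 2 := by nlinarith [hy.1, hy.2]
  have hkε := mul_le_mul hk hε1 hε.le (by norm_num)
  obtain ⟨hb, -⟩ := band hpt hk0 (γ := 11 / 10) (by linarith) (by
    rw [div_le_iff₀ (by linarith)]; linarith)
  have hyη : y * (y - t) ≤ k * (11 / 10) * epsP p * iA (epsP p) * (1 - y ^ 2) := by
    have h1 := mul_le_mul_of_nonneg_left hb (show 0 ≤ epsP p * y ^ 2 by positivity)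
    have e : epsP p * y ^ 2 * -ups p y t = y * (y - t) := by
      rw [ups]; have := hy.1.ne'; field_simp; ring
    rw [e] at h1
    refine h1.trans (le_of_eq ?_)
    have hX := (XP_pos p hy.1).ne'
    rw [← XP_iA p y]
    field_simp
  have hi : iA (epsP p) ≤ 1 / 30 := by unfold iA; rw [div_le_iff₀ (by linarith)]; linarith
  have hi0 : 0 ≤ iA (epsP p) := by unfold iA; positivity
  have hyη' : y * max 0 (y - t) ≤ 1 / 100 * (1 - y ^ 2) := by
    rcases le_total (y - t) 0 with h | h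
    · rw [max_eq_left h, mul_zero]; positivity
    · rw [max_eq_right h]
      refine hyη.trans (mul_le_mul_of_nonneg_right ?_ hS0.le)
      have := mul_le_mul (mul_le_mul (mul_le_mul_of_nonneg_right hk (by norm_num : (0 : ℝ) ≤ 11 / 10))
        hε1 hε.le (by norm_num)) hi hi0 (by norm_num)
      linarith
  rw [show majC (6 / 5) D = 22 / 5 * D by unfold majC; ring]
  have := mul_le_mul_of_nonneg_left hyη' (show 0 ≤ 22 / 5 * D * (1 / 5) by linarith [hD.1])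
  have hD0 : 0 ≤ 22 / 5 * D * (1 - y ^ 2) := mul_nonneg (by linarith [hD.1]) hS0.le
  linarith

theorem k1_le (hp : 29 ≤ p) (hy : y ∈ Ioo (0 : ℝ) 1) (ht : t ∈ Ioo (0 : ℝ) 1)
    (hf : Far D e1 aX a1 W0 W1 (XP p y) α sa w) (hpot : PotAt p D aX a1 W0 W1 y A dA W dW)
    (hX : 25 ≤ XP p y) :
    |majLr p (1 / 2 - D) D (6 / 5) (ellM p D e1 c2) c2 y / p +
      majX p (1 / 2 - D) D (6 / 5) y * (t - y) / p| ≤ 9 / 2 := by
  obtain ⟨-, hR⟩ := hf.rn_le hp hX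
  obtain ⟨-, hC⟩ := hf.C_le hp hy
  obtain ⟨hD0, hD1⟩ := hf.hD
  have hε := eps_pos p
  have hre := maj_re (e1 := e1) (c2 := c2) (show 1 ≤ p by omega) hpot
  have hcx := maj_cross (show 1 ≤ p by omega) hy hpot
  rw [hpot.hA] at hre
  have e1' : majLr p (1 / 2 - D) D (6 / 5) (ellM p D e1 c2) c2 y / p =
      1 - 22 / 5 * D + (aX - RnR D e1 aX (epsP p) (XP p y)) * epsP p := by linarith
  have e2 : majX p (1 / 2 - D) D (6 / 5) y / p = (2 * W0 - CnR D W0 (epsP p) (XP p y)) / y := by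
    rw [← hcx, hpot.hW]
    generalize majX p (1 / 2 - D) D (6 / 5) y / p = q
    have := hy.1.ne'
    field_simp
    ring
  rw [e1', mul_div_right_comm, e2]
  refine (abs_add_le _ _).trans ?_
  have h1 : |1 - 22 / 5 * D + (aX - RnR D e1 aX (epsP p) (XP p y)) * epsP p| ≤ 19 / 25 + 63 / 25 := by
    refine (abs_add_le _ _).trans (add_le_add (abs_le.2 ⟨by linarith, by linarith⟩) ?_)
    rw [abs_mul, abs_of_pos hε]
    refine (mul_le_mul_of_nonneg_right hR hε.le).trans ?_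
    have := epsX (p := p) hy hp
    have := eps_le hp
    linarith
  have h2 : |(2 * W0 - CnR D W0 (epsP p) (XP p y)) / y * (t - y)| ≤ 6 / 5 := by
    rw [abs_mul]
    exact le_trans (mul_le_of_le_one_right (abs_nonneg _)
      (abs_le.2 ⟨by linarith [ht.1, hy.2], by linarith [ht.2, hy.1]⟩)) hC
  linarith

theorem scale_le {x x1 X X1 : ℝ} (hx1 : 0 < x1) (hsq : x1 ^ 2 = X1) (hx : x ^ 2 = X) (hxx : x1 ≤ x)
    {n : ℕ} (hn : 2 ≤ n) :
    1 ≤ (X / X1) ^ n ∧ x ≤ x1 * (X / X1) ^ n ∧ X * x ≤ X1 ^ 2 / x1 * (X / X1) ^ n := by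
  subst hsq; subst hx
  have hu : 1 ≤ x ^ 2 / x1 ^ 2 := by
    rw [one_le_div (by positivity)]; exact pow_le_pow_left₀ hx1.le hxx 2
  have hv : 1 ≤ x / x1 := (one_le_div hx1).2 hxx
  have h1 : x ^ 2 / x1 ^ 2 ≤ (x ^ 2 / x1 ^ 2) ^ n := le_self_pow₀ hu (by omega)
  have h2 : (x ^ 2 / x1 ^ 2) ^ 2 ≤ (x ^ 2 / x1 ^ 2) ^ n := pow_le_pow_right₀ hu hn
  refine ⟨one_le_pow₀ hu, ?_, ?_⟩
  · refine le_trans ?_ (mul_le_mul_of_nonneg_left h1 hx1.le)
    have e : x1 * (x ^ 2 / x1 ^ 2) = x * (x / x1) := by field_simp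
    rw [e]; exact le_mul_of_one_le_right (by linarith) hv
  · refine le_trans ?_ (mul_le_mul_of_nonneg_left h2 (by positivity))
    have e : (x1 ^ 2) ^ 2 / x1 * (x ^ 2 / x1 ^ 2) ^ 2 = x ^ 2 * x * (x / x1) := by field_simp
    rw [e]; exact le_mul_of_one_le_right (mul_nonneg (sq_nonneg x) (by linarith)) hv

/-- The terms of the crude bound, times `(p + 1) ^ 2`. -/
theorem terms_le {R C L Q Km S x X M E x1 X1 V Mm s : ℝ}
    (hR : R ≤ (α + 5 / 2) * X) (hR0 : 0 ≤ R) (hC : C ≤ 2 * w + 6 / 5) (hC0 : 0 ≤ C)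
    (hL : L * S ^ 2 ≤ (α + 4 / 5 + (2 * sa + 3) / 25) * X ^ 2) (hL0 : 0 ≤ L)
    (hQ : Q * S ^ 2 ≤ (26 / 25 * w + 73 / 100) * X) (hQ0 : 0 ≤ Q)
    (hS : 0 < S) (hS1 : S ≤ 1) (hKm : 99 / 100 * (22 / 5 * (1 / 4) * S ^ 2) ≤ Km)
    (hx : 0 < x) (hxX : x ^ 2 = X) (hM : 1 ≤ M) (hMm : M ≤ Mm) (hs : Mm + 1 ≤ s ^ 2) (hs0 : 0 ≤ s)
    (hE : E = 19 / 20 * x / S) (hV : 1 ≤ V) (hx1 : x ≤ x1 * V) (hXx : X * x ≤ X1 ^ 2 / x1 * V)
    (hα : 0 ≤ α) (hsa : 0 ≤ sa) (hw : 0 ≤ w) :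
    M ^ 2 * (S ^ 2 * ((1 / M * R + C * (√(M + 1) / x) + 9 / 2) * E + 1 / M * L * (√(M + 1) / x) +
      Q * (√(M + 1) / x) ^ 2 + (9 / 2) ^ 2 / (2 * Km))) ≤ tailC α sa w Mm s x1 X1 * V := by
  have hsq : √(M + 1) ≤ s := Real.sqrt_le_iff.2 ⟨hs0, by linarith⟩
  have hq0 : 0 ≤ √(M + 1) := Real.sqrt_nonneg _
  have hq2 : √(M + 1) ^ 2 = M + 1 := sq_sqrt (by linarith)
  have hMm0 : 0 ≤ Mm := by linarith
  have hMM : M ^ 2 ≤ Mm ^ 2 := pow_le_pow_left₀ (by linarith) hMm 2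
  have hS2 : 0 < S ^ 2 := by positivity
  have t1 : M ^ 2 * (S ^ 2 * (1 / M * R * E)) ≤ Mm * (19 / 20) * (α + 5 / 2) * (X1 ^ 2 / x1) * V := by
    rw [show M ^ 2 * (S ^ 2 * (1 / M * R * E)) = M * (19 / 20) * (R * x) * S by
      rw [hE]; field_simp]
    have h1 : R * x ≤ (α + 5 / 2) * (X1 ^ 2 / x1 * V) := by
      refine (mul_le_mul_of_nonneg_right hR hx.le).trans ?_
      rw [mul_assoc]; exact mul_le_mul_of_nonneg_left hXx (by linarith)
    calc M * (19 / 20) * (R * x) * S ≤ M * (19 / 20) * (R * x) :=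
          mul_le_of_le_one_right (by positivity) hS1
      _ ≤ Mm * (19 / 20) * ((α + 5 / 2) * (X1 ^ 2 / x1 * V)) := by gcongr
      _ = _ := by ring
  have t2 : M ^ 2 * (S ^ 2 * ((C * (√(M + 1) / x) + 9 / 2) * E + (9 / 2) ^ 2 / (2 * Km))) ≤
      Mm ^ 2 * (19 / 20 * (2 * w + 6 / 5) * s + 19 / 20 * (9 / 2) * x1 + 10) * V := by
    have h1 : S ^ 2 * ((9 / 2) ^ 2 / (2 * Km)) ≤ 10 := by
      rw [mul_div_assoc', div_le_iff₀ (by linarith)]; linarith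
    have h2 : S ^ 2 * ((C * (√(M + 1) / x) + 9 / 2) * E) =
        S * (19 / 20 * C * √(M + 1) + 19 / 20 * (9 / 2) * x) := by
      rw [hE]; field_simp
    have h3 : S ^ 2 * ((C * (√(M + 1) / x) + 9 / 2) * E + (9 / 2) ^ 2 / (2 * Km)) ≤
        (19 / 20 * (2 * w + 6 / 5) * s + 19 / 20 * (9 / 2) * x1 + 10) * V := by
      rw [mul_add, h2]
      refine (add_le_add (mul_le_of_le_one_left (by positivity) hS1) h1).trans ?_
      rw [add_mul, add_mul]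
      refine add_le_add (add_le_add ?_ ?_) (le_mul_of_one_le_right (by norm_num) hV)
      · refine le_trans ?_ (le_mul_of_one_le_right (by positivity) hV)
        gcongr
      · rw [mul_assoc (19 / 20 * (9 / 2 : ℝ))]; gcongr
    have hKm0 : 0 < Km := lt_of_lt_of_le (by positivity) hKm
    rw [mul_assoc (Mm ^ 2)]
    refine mul_le_mul hMM h3 ?_ (sq_nonneg _)
    subst hE
    positivity
  have t3 : M ^ 2 * (S ^ 2 * (1 / M * L * (√(M + 1) / x))) ≤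
      Mm * (α + 4 / 5 + (2 * sa + 3) / 25) * s * (X1 ^ 2 / x1) * V := by
    rw [show M ^ 2 * (S ^ 2 * (1 / M * L * (√(M + 1) / x))) = M * √(M + 1) * (L * S ^ 2 / x) by
      field_simp]
    have h1 : L * S ^ 2 / x ≤ (α + 4 / 5 + (2 * sa + 3) / 25) * (X1 ^ 2 / x1 * V) := by
      refine (div_le_div_of_nonneg_right hL hx.le).trans ?_
      rw [mul_div_assoc, show X ^ 2 / x = X * x by rw [← hxX]; field_simp]
      gcongr
    calc M * √(M + 1) * (L * S ^ 2 / x) ≤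
          Mm * s * ((α + 4 / 5 + (2 * sa + 3) / 25) * (X1 ^ 2 / x1 * V)) := by gcongr
      _ = _ := by ring
  have t4 : M ^ 2 * (S ^ 2 * (Q * (√(M + 1) / x) ^ 2)) ≤
      Mm ^ 2 * ((26 / 25 * w + 73 / 100) * (Mm + 1)) * V := by
    have e : S ^ 2 * (Q * (√(M + 1) / x) ^ 2) = Q * S ^ 2 * (M + 1) / X := by
      rw [div_pow, hq2, hxX]; ring
    have hX0 : 0 < X := by rw [← hxX]; positivity
    have h1 : S ^ 2 * (Q * (√(M + 1) / x) ^ 2) ≤ (26 / 25 * w + 73 / 100) * (Mm + 1) := by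
      rw [e, div_le_iff₀ hX0]
      calc Q * S ^ 2 * (M + 1) ≤ (26 / 25 * w + 73 / 100) * X * (Mm + 1) := by gcongr
        _ = _ := by ring
    exact (mul_le_mul hMM h1 (by positivity) (sq_nonneg _)).trans
      (le_mul_of_one_le_right (by positivity) hV)
  rw [tailC]
  linarith

/-- The crude bound beyond the boxes. -/
theorem crude_tail (hp : 29 ≤ p) (hpt : Pt p k y t r lam) (hk0 : 0 ≤ k) (hk : k ≤ 5 / 2)
    (hf : Far D e1 aX a1 W0 W1 (XP p y) α sa w) (hpot : PotAt p D aX a1 W0 W1 y A dA W dW)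
    {X1 x1 Mm s : ℝ} (hx1 : 5 ≤ x1) (hsq : x1 ^ 2 = X1) (hX1 : X1 ≤ XP p y)
    (hM : (p : ℝ) + 1 ≤ Mm) (hs : Mm + 1 ≤ s ^ 2) (hs0 : 0 ≤ s) {n : ℕ} (hn : 2 ≤ n) :
    density p 0 (1 / 2 - D) D (6 / 5) (ellM p D e1 c2) lam c2 y t r +
        (potFY p A dA W dW y t + potFT p A W y t / r ^ p) ≤
      semi y ^ (p + 1) * majZero p (1 / 2 - D) D c2 y +
        epsP p ^ 2 * (semi y ^ (p - 1) * (tailC α sa w Mm s x1 X1 * (XP p y / X1) ^ n)) := by
  obtain ⟨hy, ht, hr, -, -, -, -, -, -⟩ := id hpt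
  have hD := hf.hD
  have hS := semi_pos (t := y) ⟨by linarith [hy.1], hy.2⟩
  have hS1 : semi y ≤ 1 := Real.sqrt_le_one.2 (by nlinarith [hy.1])
  have hS2 : semi y ^ 2 = 1 - y ^ 2 := semi_sq ⟨by linarith [hy.1], hy.2.le⟩
  have hX25 : 25 ≤ XP p y := by nlinarith
  set x := √((p : ℝ) + 2) * y with hxd
  have hxs : x ^ 2 = XP p y := by rw [hxd, mul_pow, sq_sqrt (by positivity), XP]
  have hx0 : 0 ≤ x := by have := hy.1; positivity
  have hxx : x1 ≤ x := (pow_le_pow_iff_left₀ (by linarith) hx0 two_ne_zero).1 (by linarith)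
  have hwide := (High.reach_wide (θ := 17 / 20) (by omega) hy hr hpt.reach (by norm_num)
    (Or.inl le_rfl)).trans (wide_five (show 5 ≤ x by linarith))
  obtain ⟨E, hE⟩ : ∃ E, E = 19 / 20 * x / semi y := ⟨_, rfl⟩
  have hE1 : 1 ≤ E := by rw [hE, one_le_div hS]; linarith
  have hwE : (r ^ p)⁻¹ ≤ E := by rw [hE, le_div_iff₀ hS]; exact hwide
  have hℓ : -((p : ℝ) * log r) ≤ log E := by
    rw [← Real.log_pow, ← Real.log_inv]
    exact Real.log_le_log (w_pos hpt) hwE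
  have hKm := km_ge hp hpt hk0 hk hD
  have hKm' : 99 / 100 * (22 / 5 * (1 / 4) * semi y ^ 2) ≤
      majC (6 / 5) D * (1 - y ^ 2 - (6 / 5 - 1) * y * max 0 (y - t)) := by
    refine le_trans ?_ hKm
    rw [hS2]
    have := mul_le_mul_of_nonneg_right hD.1 (show 0 ≤ 1 - y ^ 2 by rw [← hS2]; positivity)
    linarith
  have hKm0 := lt_of_lt_of_le (show 0 < 99 / 100 * (22 / 5 * (1 / 4) * semi y ^ 2) by positivity) hKm'
  rw [pot_eq hy hr]
  refine (density_crude p (by omega) (η := max 0 (y - t)) (K1 := 9 / 2) hy ht hr hℓ (Real.log_nonneg hE1)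
    (le_max_right _ _) (by linarith [hD.2]) (by linarith [hD.1]) (by norm_num) (hK2 hp hD)
    (k1_le hp hy ht hf hpot hX25) hKm0).trans ?_
  rw [Real.exp_log (by linarith)]
  have hy' : 1 / y = √((p : ℝ) + 2) / x := by
    rw [hxd]
    have := hy.1.ne'
    have := (Real.sqrt_pos.2 (show (0 : ℝ) < (p : ℝ) + 2 by positivity)).ne'
    field_simp
  have b1 : |majRe p (1 / 2 - D) D (6 / 5) (ellM p D e1 c2) c2 (A y) y| =
      1 / ((p : ℝ) + 1) * |RnR D e1 aX (epsP p) (XP p y)| := by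
    rw [majRe, maj_re (show 1 ≤ p by omega) hpot, abs_mul, abs_of_pos (eps_pos p), epsP]
  have b2 : |majCross p (1 / 2 - D) D (6 / 5) (W y / y) y| =
      |CnR D W0 (epsP p) (XP p y)| * (√((p : ℝ) + 2) / x) := by
    rw [← hy', ← maj_cross (show 1 ≤ p by omega) hy hpot, abs_mul, abs_of_pos hy.1, majCross]
    have := hy.1.ne'
    field_simp
  have b3 : |majLe p (1 / 2 - D) D (6 / 5) (dA y - ((p : ℝ) + 1) * y / (1 - y ^ 2) * A y) y| =
      1 / ((p : ℝ) + 1) * |LR D aX a1 (epsP p) (XP p y)| * (√((p : ℝ) + 2) / x) := by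
    have h := congrArg abs (maj_le hy hpot)
    rw [abs_mul, abs_mul, abs_of_pos hy.1, abs_of_pos (eps_pos p)] at h
    rw [← hy', majLe, show (1 : ℝ) / ((p : ℝ) + 1) = epsP p from rfl, ← h]
    have := hy.1.ne'
    field_simp
  have b4 : |((1 / 2 - D) + D * (6 / 5 : ℝ) ^ 2) * ((p : ℝ) + 4) +
      (dW y / y - W y / y ^ 2 - ((p : ℝ) + 1) * W y / (1 - y ^ 2))| =
      |QbR D W0 W1 (epsP p) (XP p y) 0| * (√((p : ℝ) + 2) / x) ^ 2 := by
    rw [← hy', ← maj_sq hy 0 hpot, mul_zero, sub_zero, abs_mul, abs_of_nonneg (sq_nonneg y)]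
    have := hy.1.ne'
    field_simp
  rw [b1, b2, b3, b4]
  have key := terms_le (α := α) (sa := sa) (w := w) (M := (p : ℝ) + 1) (Mm := Mm) (s := s)
    (hf.rn_le hp hX25).1 (abs_nonneg _) (hf.C_le hp hy).1 (abs_nonneg _)
    (by rw [hS2]; exact hf.L_le hy hX25) (abs_nonneg _)
    (by rw [hS2]; exact hf.Q_le hy hp hX25) (abs_nonneg _) hS hS1 hKm' (by linarith) hxs
    (by linarith [Nat.cast_nonneg (α := ℝ) p]) hM hs hs0 hE
    (scale_le (X1 := X1) (by linarith) hsq hxs hxx hn).1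
    (scale_le (X1 := X1) (by linarith) hsq hxs hxx hn).2.1
    (scale_le (X1 := X1) (by linarith) hsq hxs hxx hn).2.2
    (nonneg_of_mul_nonneg_left ((abs_nonneg _).trans hf.ha) (by linarith))
    ((abs_nonneg _).trans hf.ha1) ((abs_nonneg _).trans hf.hW)
  rw [show (p : ℝ) + 1 + 1 = (p : ℝ) + 2 by ring] at key
  have hM2 : (0 : ℝ) < ((p : ℝ) + 1) ^ 2 := by positivity
  rw [mul_comm (((p : ℝ) + 1) ^ 2), ← le_div_iff₀ hM2] at key
  have key2 := mul_le_mul_of_nonneg_left key (pow_nonneg hS.le (p - 1))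
  rw [show semi y ^ (p + 1) = semi y ^ (p - 1) * semi y ^ 2 by rw [← pow_add]; congr 1; omega]
  have e : epsP p ^ 2 = 1 / ((p : ℝ) + 1) ^ 2 := by rw [epsP, div_pow, one_pow]
  rw [e]
  generalize ((p : ℝ) + 1) ^ 2 = M2 at key2 ⊢
  generalize semi y ^ (p - 1) = P at key2 ⊢
  generalize semi y ^ 2 = S2 at key2 ⊢
  generalize |RnR D e1 aX (epsP p) (XP p y)| = uR at key2 ⊢
  generalize |CnR D W0 (epsP p) (XP p y)| * (√((p : ℝ) + 2) / x) = uC at key2 ⊢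
  generalize 1 / ((p : ℝ) + 1) * |LR D aX a1 (epsP p) (XP p y)| * (√((p : ℝ) + 2) / x) = uL at key2 ⊢
  generalize |QbR D W0 W1 (epsP p) (XP p y) 0| * (√((p : ℝ) + 2) / x) ^ 2 = uQ at key2 ⊢
  generalize (9 / 2 : ℝ) ^ 2 / (2 * (majC (6 / 5) D * (1 - y ^ 2 - (6 / 5 - 1) * y * max 0 (y - t)))) = uK at key2 ⊢
  generalize 1 / ((p : ℝ) + 1) * uR = uR' at key2 ⊢
  generalize (uR' + uC + 9 / 2) * E = uE at key2 ⊢
  generalize tailC α sa w Mm s x1 X1 * (XP p y / X1) ^ n = T at key2 ⊢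
  rw [show 1 / M2 * (P * T) = P * (T / M2) by ring]
  linarith

end Vale.Agent.P237.All.Transport.Mid
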