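import Vale.Agent.P237.All.Mid.Weight
import Vale.Agent.P237.All.Mid.Tail
import Vale.Agent.P237.All.Mid.Moment
import Vale.Agent.P237.All.Bounds

/-!
P237, cell `k` in `[4/5, 5/2]`: a certificate from a part whose boxes, sums and tail pass the tests.
-/

noncomputable section

open Real Set MeasureTheory intervalIntegral

namespace Vale.Agent.P237.All.Transport.Mid

/-! ### The coefficients beyond the last knot -/

/-- All knots lie below `N` and the second derivative ends at zero. -/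
def Spl.flat (P : Spl) (N : ℕ) : Bool :=
  P.kn.all (fun K => Nat.ble K.tau N) &&
    Sg.le (P.kn.foldr (fun (K : Knot) (s : Sg) => K.d.c.add s) ⟨0, 0⟩) ⟨0, 0⟩ &&
    Sg.le ⟨0, 0⟩ (P.kn.foldr (fun (K : Knot) (s : Sg) => K.d.c.add s) ⟨0, 0⟩) &&
    Sg.le (P.kn.foldr (fun (K : Knot) (s : Sg) => K.d.t.add s) ⟨0, 0⟩) ⟨0, 0⟩ &&
    Sg.le ⟨0, 0⟩ (P.kn.foldr (fun (K : Knot) (s : Sg) => K.d.t.add s) ⟨0, 0⟩)

/-- A parameter at an end of `T`. -/
def Par.at' (P : Par) (e : Bool) : Sg := cond e (P.c.add P.t) (P.c.sub P.t)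

/-- `2 U ^ 3` times the value at `N`. -/
def Spl.valAt (P : Spl) (N : ℕ) (e : Bool) : Sg :=
  P.kn.foldr (fun K s => ((K.d.at' e).smul (Nat.mul (Nat.sub N K.tau) (Nat.sub N K.tau))).add s)
    (((P.v0.at' e).smul (2 * (16777216 * 16777216))).add ((P.v1.at' e).smul (Nat.mul (2 * 16777216) N)))

/-- `U ^ 2` times the slope at `N`. -/
def Spl.derAt (P : Spl) (N : ℕ) (e : Bool) : Sg :=
  P.kn.foldr (fun K s => ((K.d.at' e).smul (Nat.sub N K.tau)).add s) ((P.v1.at' e).smul 16777216)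

/-- Both signs of a value stay below `M`. -/
def absLe (x : Sg) (M : ℕ) : Bool := Sg.le x (Sg.ofN M) && Sg.le x.neg' (Sg.ofN M)

/-- The bounds on the coefficients beyond the node `x1`. -/
def farOK (c : Cell) (x1 al sa w : ℕ) : Bool :=
  let N := nodeX x1
  c.sA.flat N && c.sW.flat N && Nat.ble sa al &&
  absLe (c.sA.valAt N false) (Nat.mul (Nat.mul al N) (2 * 16777216)) &&
  absLe (c.sA.valAt N true) (Nat.mul (Nat.mul al N) (2 * 16777216)) &&
  absLe (c.sA.derAt N false) (Nat.mul sa 16777216) && absLe (c.sA.derAt N true) (Nat.mul sa 16777216) &&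
  absLe (c.sW.valAt N false) (Nat.mul w (2 * (16777216 * 16777216))) &&
  absLe (c.sW.valAt N true) (Nat.mul w (2 * (16777216 * 16777216))) &&
  absLe (c.sW.derAt N false) 0 && absLe (c.sW.derAt N true) 0 &&
  absLe c.e1.c (Nat.sub 16777216 c.e1.t.abs') && Nat.ble c.e1.t.abs' 16777216

theorem absLe_sound {x : Sg} {M : ℕ} (h : absLe x M = true) : |x.v| ≤ M := by
  simp only [absLe, Bool.and_eq_true] at h
  have h1 := Sg.le_iff h.1
  have h2 := Sg.le_iff h.2
  simp only [Sg.ofN_v, Sg.neg_v] at h1 h2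
  exact abs_le.2 ⟨by linarith, h1⟩

theorem Par.at_v (P : Par) (b : ℝ) :
    P.val (2 * b - 1) * U = (1 - b) * (P.at' false).v + b * (P.at' true).v := by
  simp only [Par.val, Par.at', cond_true, cond_false, Sg.add_v, Sg.sub_v]
  rw [div_mul_cancel₀ _ U_ne]; ring

theorem knDer_at : ∀ (l : List Knot) (N : ℕ) (b : ℝ) (A B : Sg), (l.all fun K => Nat.ble K.tau N) = true →
    (1 - b) * (l.foldr (fun K s => ((K.d.at' false).smul (Nat.sub N K.tau)).add s) A).v +
      b * (l.foldr (fun K s => ((K.d.at' true).smul (Nat.sub N K.tau)).add s) B).v =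
      knDer l (2 * b - 1) (rn N) * U ^ 2 + ((1 - b) * A.v + b * B.v)
  | [], N, b, A, B, _ => by simp [knDer]
  | K :: l, N, b, A, B, h => by
    simp only [List.all_cons, Bool.and_eq_true] at h
    have hle : K.tau ≤ N := Nat.le_of_ble_eq_true h.1
    have e : max 0 (rn N - (K.tau : ℝ) / U) = ((N : ℝ) - K.tau) / U := by
      rw [show rn N = (N : ℝ) / U by rw [rn, cast_U], ← sub_div]
      exact max_eq_right (div_nonneg (sub_nonneg.2 (Nat.cast_le.2 hle)) U_pos.le)
    have hU := U_ne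
    have e2 : (1 - b) * (K.d.at' false).v + b * (K.d.at' true).v = K.d.val (2 * b - 1) * U := (K.d.at_v b).symm
    simp only [List.foldr_cons, Sg.add_v, Sg.smul_v, Nat.sub_eq, Nat.cast_sub hle, knDer, e]
    have ih := knDer_at l N b A B h.2
    simp only [Nat.sub_eq] at ih
    generalize knDer l (2 * b - 1) (rn N) = D at ih ⊢
    generalize K.d.val (2 * b - 1) = v at e2 ⊢
    field_simp
    linear_combination ih + ((N : ℝ) - K.tau) * e2

theorem knVal_at : ∀ (l : List Knot) (N : ℕ) (b : ℝ) (A B : Sg), (l.all fun K => Nat.ble K.tau N) = true →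
    (1 - b) * (l.foldr (fun K s => ((K.d.at' false).smul (Nat.mul (Nat.sub N K.tau) (Nat.sub N K.tau))).add s) A).v +
      b * (l.foldr (fun K s => ((K.d.at' true).smul (Nat.mul (Nat.sub N K.tau) (Nat.sub N K.tau))).add s) B).v =
      knVal l (2 * b - 1) (rn N) * (2 * U ^ 3) + ((1 - b) * A.v + b * B.v)
  | [], N, b, A, B, _ => by simp [knVal]
  | K :: l, N, b, A, B, h => by
    simp only [List.all_cons, Bool.and_eq_true] at h
    have hle : K.tau ≤ N := Nat.le_of_ble_eq_true h.1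
    have e : max 0 (rn N - (K.tau : ℝ) / U) = ((N : ℝ) - K.tau) / U := by
      rw [show rn N = (N : ℝ) / U by rw [rn, cast_U], ← sub_div]
      exact max_eq_right (div_nonneg (sub_nonneg.2 (Nat.cast_le.2 hle)) U_pos.le)
    have hU := U_ne
    have e2 : (1 - b) * (K.d.at' false).v + b * (K.d.at' true).v = K.d.val (2 * b - 1) * U := (K.d.at_v b).symm
    simp only [List.foldr_cons, Sg.add_v, Sg.smul_v, Nat.sub_eq, Nat.mul_eq, Nat.cast_mul, Nat.cast_sub hle,
      knVal, e]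
    have ih := knVal_at l N b A B h.2
    simp only [Nat.sub_eq, Nat.mul_eq] at ih
    generalize knVal l (2 * b - 1) (rn N) = D at ih ⊢
    generalize K.d.val (2 * b - 1) = v at e2 ⊢
    field_simp
    linear_combination ih + ((N : ℝ) - K.tau) ^ 2 * e2

theorem kn_beyond : ∀ (l : List Knot) (N : ℕ) (T X : ℝ), (l.all fun K => Nat.ble K.tau N) = true →
    rn N ≤ X →
    knVal l T X = knVal l T (rn N) + knDer l T (rn N) * (X - rn N) +
        ((l.foldr (fun (K : Knot) (s : Sg) => K.d.c.add s) ⟨0, 0⟩).v + (l.foldr (fun (K : Knot) (s : Sg) => K.d.t.add s) ⟨0, 0⟩).v * T) / U *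
          ((X - rn N) ^ 2 / 2) ∧
      knDer l T X = knDer l T (rn N) +
        ((l.foldr (fun (K : Knot) (s : Sg) => K.d.c.add s) ⟨0, 0⟩).v + (l.foldr (fun (K : Knot) (s : Sg) => K.d.t.add s) ⟨0, 0⟩).v * T) / U *
          (X - rn N)
  | [], N, T, X, _, _ => by simp [knVal, knDer, Sg.v]
  | K :: l, N, T, X, h, hX => by
    simp only [List.all_cons, Bool.and_eq_true] at h
    obtain ⟨i1, i2⟩ := kn_beyond l N T X h.2 hX
    have hle : (K.tau : ℝ) / U ≤ rn N := by
      rw [rn, cast_U]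
      exact div_le_div_of_nonneg_right (Nat.cast_le.2 (Nat.le_of_ble_eq_true h.1)) (by norm_num)
    simp only [knVal, knDer, List.foldr_cons, Sg.add_v, max_eq_right (sub_nonneg.2 hle),
      max_eq_right (sub_nonneg.2 (hle.trans hX)), i1, i2, Par.val]
    constructor <;> ring

theorem Spl.beyond {P : Spl} {N : ℕ} (h : P.flat N = true) {b X : ℝ} (hX : rn N ≤ X) :
    P.val (2 * b - 1) X * (2 * U ^ 3) = ((1 - b) * (P.valAt N false).v + b * (P.valAt N true).v) +
        P.der (2 * b - 1) X * (2 * U ^ 3) * (X - rn N) ∧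
      P.der (2 * b - 1) X * U ^ 2 = (1 - b) * (P.derAt N false).v + b * (P.derAt N true).v := by
  simp only [Spl.flat, Bool.and_eq_true] at h
  obtain ⟨⟨⟨⟨hk, c0⟩, c1⟩, t0⟩, t1⟩ := h
  obtain ⟨e1, e2⟩ := kn_beyond P.kn N (2 * b - 1) X hk hX
  have z0 := le_antisymm (Sg.le_iff c0) (Sg.le_iff c1)
  have z1 := le_antisymm (Sg.le_iff t0) (Sg.le_iff t1)
  rw [z0, z1] at e1 e2
  simp only [v_mk, Nat.cast_zero, sub_zero, zero_mul, add_zero, zero_div] at e1 e2
  constructor
  · simp only [Spl.valAt, Spl.val, Spl.der]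
    rw [knVal_at P.kn N b _ _ hk, e1, e2]
    simp only [Sg.add_v, Sg.smul_v, Nat.mul_eq, Nat.cast_mul, Nat.cast_ofNat, ← cast_U]
    have e : rn N * U = N := by rw [rn, cast_U, div_mul_cancel₀ _ (by norm_num : (16777216 : ℝ) ≠ 0)]
    linear_combination (2 * (U : ℝ) ^ 2) * (P.v0.at_v b) + (2 * (U : ℝ) * N) * (P.v1.at_v b) +
      (2 * (U : ℝ) ^ 2 * P.v1.val (2 * b - 1)) * e
  · simp only [Spl.derAt, Spl.der]
    rw [knDer_at P.kn N b _ _ hk, e2]
    simp only [Sg.smul_v, Nat.cast_ofNat, ← cast_U]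
    linear_combination (U : ℝ) * P.v1.at_v b

theorem mix_abs {b x y M : ℝ} (hb : b ∈ Icc (0 : ℝ) 1) (hx : |x| ≤ M) (hy : |y| ≤ M) :
    |(1 - b) * x + b * y| ≤ M := by
  refine (abs_add_le _ _).trans ?_
  rw [abs_mul, abs_mul, abs_of_nonneg (sub_nonneg.2 hb.2), abs_of_nonneg hb.1]
  have := mul_le_mul_of_nonneg_left hx (sub_nonneg.2 hb.2)
  have := mul_le_mul_of_nonneg_left hy hb.1
  linarith

/-- The bounds hold beyond the node. -/
theorem farOK_sound {c : Cell} {x1 al sa w : ℕ} (h : farOK c x1 al sa w = true) {p : ℕ} {b y : ℝ}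
    (hb : b ∈ Icc (0 : ℝ) 1) (hT : c.T p = 2 * b - 1)
    (hD : c.D.val (c.T p) ∈ Icc (1 / 4 : ℝ) (2 / 5)) (hX : rn (nodeX x1) ≤ XP p y) :
    Far (c.D.val (c.T p)) (c.e1.val (c.T p)) (c.sA.val (c.T p) (XP p y)) (c.sA.der (c.T p) (XP p y))
      (c.sW.val (c.T p) (XP p y)) (c.sW.der (c.T p) (XP p y)) (XP p y) (rn al) (rn sa) (rn w) := by
  simp only [farOK, Bool.and_eq_true, Nat.ble_eq] at h
  obtain ⟨⟨⟨⟨⟨⟨⟨⟨⟨⟨⟨⟨fA, fW⟩, hsa⟩, va0⟩, va1⟩, da0⟩, da1⟩, vw0⟩, vw1⟩, dw0⟩, dw1⟩, he⟩, het⟩ := h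
  rw [hT] at hD ⊢
  obtain ⟨A1, A2⟩ := c.sA.beyond fA hX (b := b)
  obtain ⟨W1, W2⟩ := c.sW.beyond fW hX (b := b)
  have hU := U_pos
  have mA := mix_abs hb (absLe_sound va0) (absLe_sound va1)
  have mA' := mix_abs hb (absLe_sound da0) (absLe_sound da1)
  have mW := mix_abs hb (absLe_sound vw0) (absLe_sound vw1)
  have mW' := mix_abs hb (absLe_sound dw0) (absLe_sound dw1)
  rw [← A2, abs_mul, abs_of_pos (pow_pos hU 2)] at mA'
  rw [← W2, abs_mul, abs_of_pos (pow_pos hU 2)] at mW'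
  simp only [Nat.mul_eq, Nat.cast_mul, Nat.cast_ofNat, Nat.cast_zero, ← cast_U] at mA mA' mW mW'
  set X := XP p y
  have ha1 : |c.sA.der (2 * b - 1) X| ≤ rn sa := by
    rw [rn, ← cast_U, le_div_iff₀ hU]
    exact le_of_mul_le_mul_right (by linarith) hU
  have hd0 : c.sW.der (2 * b - 1) X = 0 :=
    abs_eq_zero.1 (le_antisymm (nonpos_of_mul_nonpos_left mW' (pow_pos hU 2)) (abs_nonneg _))
  refine ⟨hD, ?_, ?_, ha1, ?_, hd0⟩
  · have h1 := absLe_sound he
    rw [Nat.sub_eq, Nat.cast_sub het] at h1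
    push_cast at h1
    have h2 := (AF.abs_mul_le (Sg.abs_le_abs' c.e1.t)
      (show |2 * b - 1| ≤ (1 : ℝ) from abs_le.2 ⟨by linarith [hb.1], by linarith [hb.2]⟩))
    rw [Par.val, abs_div, abs_of_pos hU, div_le_one hU, cast_U]
    refine (abs_add_le _ _).trans ?_
    linarith
  · have hle : |c.sA.val (2 * b - 1) X| * (2 * (U : ℝ) ^ 3) ≤
        (al : ℝ) * nodeX x1 * (2 * U) + rn sa * (2 * (U : ℝ) ^ 3) * (X - rn (nodeX x1)) := by
      rw [← abs_of_pos (show 0 < 2 * (U : ℝ) ^ 3 by positivity), ← abs_mul, A1]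
      refine (abs_add_le _ _).trans (add_le_add mA ?_)
      rw [abs_mul, abs_mul, abs_of_nonneg (sub_nonneg.2 hX),
        abs_of_pos (show 0 < 2 * (U : ℝ) ^ 3 by positivity)]
      gcongr
    have hs : rn sa ≤ rn al := rn_le hsa
    have h2 := mul_le_mul_of_nonneg_right (mul_le_mul_of_nonneg_right hs (show 0 ≤ 2 * (U : ℝ) ^ 3 by positivity))
      (sub_nonneg.2 hX)
    have e : (al : ℝ) * nodeX x1 * (2 * U) = rn al * rn (nodeX x1) * (2 * (U : ℝ) ^ 3) := by
      simp only [rn, ← cast_U]; field_simp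
    refine le_of_mul_le_mul_right ?_ (show 0 < 2 * (U : ℝ) ^ 3 by positivity)
    linarith
  · refine le_of_mul_le_mul_right ?_ (show 0 < 2 * (U : ℝ) ^ 3 by positivity)
    rw [← abs_of_pos (show 0 < 2 * (U : ℝ) ^ 3 by positivity), ← abs_mul, W1, hd0, zero_mul, zero_mul,
      add_zero, abs_of_pos (show 0 < 2 * (U : ℝ) ^ 3 by positivity)]
    refine mW.trans (le_of_eq ?_)
    simp only [rn, ← cast_U]; field_simp

/-! ### The bound along the nodes -/

/-- Nodes agree. -/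
def nodeEq (a b : Node) : Bool :=
  Nat.beq a.x b.x && Nat.beq a.l0 b.l0 && Nat.beq a.h0 b.h0 && Nat.beq a.l1 b.l1 && Nat.beq a.h1 b.h1

/-- Consecutive boxes share their node. -/
def chainOK : Node → List Box → Bool
  | _, [] => true
  | n, B :: l => nodeEq n B.n0 && Nat.blt B.n0.x B.n1.x && chainOK B.n1 l

/-- The last node. -/
def lastNode : Node → List Box → Node
  | n, [] => n
  | _, B :: l => lastNode B.n1 l

/-- The bound on `H`, continuous in `X`. -/
def plG (b l : ℝ) : Node → List Box → ℝ → ℝ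
  | n, [], _ => n.val b l
  | n, B :: rest, X =>
    n.val b l + (B.n1.val b l - n.val b l) *
        max 0 (min 1 ((X - rn (nodeX n.x)) / (rn (nodeX B.n1.x) - rn (nodeX n.x)))) +
      (plG b l B.n1 rest X - B.n1.val b l)

theorem nodeEq_sound {a b : Node} (h : nodeEq a b = true) : a = b := by
  cases a; cases b
  simp only [nodeEq, Bool.and_eq_true, Nat.beq_eq] at h
  simp [h.1.1.1.1, h.1.1.1.2, h.1.1.2, h.1.2, h.2]

theorem plG_continuous (b l : ℝ) : ∀ (L : List Box) (n : Node), Continuous (plG b l n L)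
  | [], n => by simp only [plG]; exact continuous_const
  | B :: L, n => by
    have := plG_continuous b l L B.n1
    simp only [plG]
    fun_prop

theorem rn_node_lt {a b : ℕ} (h : a < b) : rn (nodeX a) < rn (nodeX b) := by
  simp only [nodeX_rn]
  exact pow_lt_pow_left₀ (div_lt_div_of_pos_right (Nat.cast_lt.2 h) (by norm_num)) (by positivity) two_ne_zero

theorem chain_le : ∀ (L : List Box) (n : Node), chainOK n L = true → n.x ≤ (lastNode n L).x
  | [], n, _ => le_rfl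
  | B :: L, n, h => by
    simp only [chainOK, Bool.and_eq_true, Nat.blt_eq] at h
    rw [nodeEq_sound h.1.1]
    exact h.1.2.le.trans (chain_le L B.n1 h.2)

theorem plG_left {b l X : ℝ} : ∀ (L : List Box) (n : Node), chainOK n L = true → X ≤ rn (nodeX n.x) →
    plG b l n L X = n.val b l
  | [], n, _, _ => rfl
  | B :: L, n, h, hX => by
    simp only [chainOK, Bool.and_eq_true, Nat.blt_eq] at h
    have hn := nodeEq_sound h.1.1
    have hlt : rn (nodeX n.x) < rn (nodeX B.n1.x) := by rw [hn]; exact rn_node_lt h.1.2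
    rw [plG, plG_left L B.n1 h.2 (hX.trans hlt.le), sub_self, add_zero,
      max_eq_left (le_trans (min_le_right _ _) (div_nonpos_of_nonpos_of_nonneg (sub_nonpos.2 hX)
        (sub_nonneg.2 hlt.le))), mul_zero, add_zero]

theorem plG_right {b l X : ℝ} : ∀ (L : List Box) (n : Node), chainOK n L = true →
    rn (nodeX (lastNode n L).x) ≤ X → plG b l n L X = (lastNode n L).val b l
  | [], n, _, _ => rfl
  | B :: L, n, h, hX => by
    simp only [chainOK, Bool.and_eq_true, Nat.blt_eq] at h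
    have hn := nodeEq_sound h.1.1
    have hlt : rn (nodeX n.x) < rn (nodeX B.n1.x) := by rw [hn]; exact rn_node_lt h.1.2
    have hle : rn (nodeX B.n1.x) ≤ X :=
      le_trans (rn_le (Nat.mul_le_mul_left 4 (Nat.mul_le_mul (chain_le L B.n1 h.2) (chain_le L B.n1 h.2)))) hX
    rw [plG, plG_right L B.n1 h.2 hX, min_eq_left ((one_le_div (sub_pos.2 hlt)).2 (by linarith)),
      max_eq_right zero_le_one]
    simp only [lastNode]
    ring

theorem plG_box {b l X : ℝ} : ∀ (L : List Box) (n : Node), chainOK n L = true →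
    rn (nodeX n.x) ≤ X → X ≤ rn (nodeX (lastNode n L).x) → L ≠ [] →
    ∃ B ∈ L, ∃ a ∈ Icc (0 : ℝ) 1, X * 16777216 = (1 - a) * nodeX B.n0.x + a * nodeX B.n1.x ∧
      plG b l n L X = hVal B.n0 B.n1 a b l
  | [], _, _, _, _, h => absurd rfl h
  | B :: L, n, h, h0, h1, _ => by
    simp only [chainOK, Bool.and_eq_true, Nat.blt_eq] at h
    have hn := nodeEq_sound h.1.1
    have hlt : rn (nodeX n.x) < rn (nodeX B.n1.x) := by rw [hn]; exact rn_node_lt h.1.2
    by_cases hX : X ≤ rn (nodeX B.n1.x)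
    · refine ⟨B, by simp, (X - rn (nodeX n.x)) / (rn (nodeX B.n1.x) - rn (nodeX n.x)),
        ⟨div_nonneg (sub_nonneg.2 h0) (sub_nonneg.2 hlt.le), (div_le_one (sub_pos.2 hlt)).2 (by linarith)⟩, ?_, ?_⟩
      · have hd : rn (nodeX B.n1.x) - rn (nodeX n.x) ≠ 0 := (sub_pos.2 hlt).ne'
        rw [← hn]
        have e := div_mul_cancel₀ (X - rn (nodeX n.x)) hd
        generalize (X - rn (nodeX n.x)) / (rn (nodeX B.n1.x) - rn (nodeX n.x)) = a at e ⊢
        simp only [rn] at e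
        linarith
      · rw [plG, plG_left L B.n1 h.2 hX, sub_self, add_zero,
          min_eq_right ((div_le_one (sub_pos.2 hlt)).2 (by linarith)),
          max_eq_right (div_nonneg (sub_nonneg.2 h0) (sub_nonneg.2 hlt.le)), hVal_eq, ← hn]
        ring
    · push Not at hX
      have hne : L ≠ [] := by
        rintro rfl
        simp only [lastNode] at h1
        linarith
      obtain ⟨B', hB, a, ha, e1, e2⟩ := plG_box (b := b) (l := l) L B.n1 h.2 hX.le h1 hne
      refine ⟨B', List.mem_cons_of_mem _ hB, a, ha, e1, ?_⟩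
      rw [plG, min_eq_left ((one_le_div (sub_pos.2 hlt)).2 (by linarith)), max_eq_right zero_le_one, e2]
      ring

theorem plG_nonneg {b l : ℝ} (hb : b ∈ Icc (0 : ℝ) 1) (hl : l ∈ Icc (0 : ℝ) 1) {n : Node} {L : List Box}
    (h : chainOK n L = true) (X : ℝ) : 0 ≤ plG b l n L X := by
  rcases le_or_gt X (rn (nodeX n.x)) with h0 | h0
  · rw [plG_left L n h h0]; exact n.val_nonneg hb hl
  rcases le_or_gt (rn (nodeX (lastNode n L).x)) X with h1 | h1
  · rw [plG_right L n h h1]; exact (lastNode n L).val_nonneg hb hl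
  obtain ⟨B, -, a, ha, -, e⟩ := plG_box (b := b) (l := l) L n h h0.le h1.le (by
    rintro rfl; simp only [lastNode] at h1; linarith)
  rw [e, hVal_eq]
  exact add_nonneg (mul_nonneg (sub_nonneg.2 ha.2) (B.n0.val_nonneg hb hl))
    (mul_nonneg ha.1 (B.n1.val_nonneg hb hl))

/-! ### The integral test -/

/-- The three sums over the boxes. -/
def sums (c : Cell) (kk : Bool) : List Box → ℕ × ℕ × ℕ
  | [] => (0, 0, 0)
  | B :: L => forceN (iVal c B kk false false) fun a =>
    forceN (Nat.add (iVal c B kk false true) (iVal c B kk true false)) fun m =>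
    forceN (iVal c B kk true true) fun z =>
    (Nat.add a (sums c kk L).1, Nat.add m (sums c kk L).2.1, Nat.add z (sums c kk L).2.2)

/-- `g` at an end of `T`, at scale `U`. -/
def gAt (c : Cell) (e : Bool) : ℕ := ((Sg.ofN 8388608).sub (c.D.at' e)).posPart

/-- The mass factor at an end of `T`, times `4 (U + ec) ^ 2`. -/
def fAt (c : Cell) (e : Bool) : ℕ :=
  Nat.sub (Nat.mul (5 * 16777216)
      (cond e (Nat.sub (Nat.add 16777216 c.ec) c.et) (Nat.add (Nat.add 16777216 c.ec) c.et)))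
    ((Nat.add 16777216 c.ec) ^ 2)

/-- The sums stay below what is needed, at one end of `k`. -/
def sumTest (c : Cell) (tau K : ℕ) (kk : Bool) (L : List Box) : Bool :=
  let S := sums c kk L
  let m := Nat.mul 20000 ((Nat.add 16777216 c.ec) ^ 2)
  let q := Nat.mul K 12533
  Nat.blt (Nat.mul (Nat.add S.1 tau) m) (Nat.mul q (Nat.mul (gAt c false) (fAt c false))) &&
  Nat.blt (Nat.mul (Nat.add S.2.1 (Nat.mul 2 tau)) m)
    (Nat.mul q (Nat.add (Nat.mul (gAt c false) (fAt c true)) (Nat.mul (gAt c true) (fAt c false)))) &&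
  Nat.blt (Nat.mul (Nat.add S.2.2 tau) m) (Nat.mul q (Nat.mul (gAt c true) (fAt c true)))

/-- The tests of a part besides its boxes. -/
def sideOK (c : Cell) (n : Node) (L : List Box) (tau : ℕ) : Bool :=
  c.ok && eOK c && Nat.beq n.x 0 && chainOK n L && L.all (wBoxOK c) &&
  Nat.ble ((Nat.add 16777216 c.ec) ^ 2) (Nat.mul (5 * 16777216) (Nat.sub (Nat.add 16777216 c.ec) c.et)) &&
  Nat.ble (Nat.mul (nodeX (lastNode n L).x) c.E1) (Nat.mul 16777216 (Nat.add 16777216 c.E0)) &&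
  sumTest c tau c.K0 false L && sumTest c tau c.K1 true L

/-! ### The certificate -/

/-- The bound on `Pi` beside the zero order. -/
def piTail (p : ℕ) (X1 C : ℝ) (n : ℕ) (y : ℝ) : ℝ := semi y ^ (p - 1) * (C * (XP p y / X1) ^ n)

/-- The three sums mixed at `b`. -/
def bern (b : ℝ) (S : ℕ × ℕ × ℕ) : ℝ :=
  ((1 - b) ^ 2 * (S.1 : ℝ) + (1 - b) * b * (S.2.1 : ℝ) + b ^ 2 * (S.2.2 : ℝ)) / 16777216 ^ 2

theorem node_top {p N E0 E1 M : ℕ} (hN : (M : ℝ) = 16777216) (h0 : rn E0 ≤ epsP p)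
    (h1 : epsP p ≤ rn E1) (h : Nat.mul N E1 ≤ Nat.mul M (Nat.add M E0)) : rn N ≤ (p : ℝ) + 2 := by
  have hε := eps_pos p
  have h2 := (Nat.cast_le (α := ℝ)).2 h
  simp only [Nat.mul_eq, Nat.add_eq, Nat.cast_mul, Nat.cast_add, hN] at h2
  have e : (p : ℝ) + 2 = (1 + epsP p) / epsP p := by simp only [epsP]; field_simp; ring
  rw [e, le_div_iff₀ hε]
  have h3 := mul_le_mul_of_nonneg_left h1 (rn_nonneg N)
  simp only [rn] at h0 h3 ⊢
  linarith

theorem node_sqrt {p x : ℕ} (h : rn (nodeX x) ≤ (p : ℝ) + 2) : (x : ℝ) / 2048 ≤ √((p : ℝ) + 2) := by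
  rw [nodeX_rn] at h
  exact Real.le_sqrt_of_sq_le h

theorem last_ge : ∀ (L : List Box) (n : Node), chainOK n L = true → ∀ B ∈ L, B.n1.x ≤ (lastNode n L).x
  | [], _, _, B, hB => absurd hB (by simp)
  | B' :: L, n, h, B, hB => by
    simp only [chainOK, Bool.and_eq_true] at h
    rcases List.mem_cons.1 hB with rfl | hB
    · exact chain_le L B.n1 h.2
    · exact last_ge L B'.n1 h.2 B hB

theorem sums_sound {c : Cell} (het : c.et ≤ c.ec) {p : ℕ} {b l : ℝ} (hb : b ∈ Icc (0 : ℝ) 1)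
    (hl : l ∈ Icc (0 : ℝ) 1) (hε : epsP p * 16777216 = c.ec + c.et * (2 * b - 1)) {G : ℝ → ℝ}
    (hGc : Continuous G) : ∀ (L : List Box) (n : Node), chainOK n L = true →
      (L.all (wBoxOK c)) = true → rn (nodeX (lastNode n L).x) ≤ (p : ℝ) + 2 →
      (∀ y, 0 ≤ y → rn (nodeX n.x) ≤ XP p y → XP p y ≤ rn (nodeX (lastNode n L).x) →
        G y = plG b l n L (XP p y)) →
      √((p : ℝ) + 2) * ∫ y in (n.x : ℝ) / 2048 / √((p : ℝ) + 2)..((lastNode n L).x : ℝ) / 2048 / √((p : ℝ) + 2),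
        semi y ^ (p + 1) * G y ≤ mix l fun kk => bern b (sums c kk L)
  | [], n, _, _, _, _ => by simp [lastNode, mix, bern, sums]
  | B :: L, n, h, hw, htop, hG => by
    simp only [chainOK, Bool.and_eq_true, Nat.blt_eq] at h
    simp only [List.all_cons, Bool.and_eq_true] at hw
    have hn := nodeEq_sound h.1.1
    subst hn
    simp only [lastNode] at htop hG ⊢
    have hsc := semi_continuous
    set s := √((p : ℝ) + 2) with hs
    have hs0 : 0 < s := Real.sqrt_pos.2 (by positivity)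
    have hi : ∀ u v : ℝ, IntervalIntegrable (fun y => semi y ^ (p + 1) * G y) volume u v := fun u v =>
      (by fun_prop : Continuous fun y => semi y ^ (p + 1) * G y).intervalIntegrable _ _
    have hle := chain_le L B.n1 h.2
    have hlast : rn (nodeX B.n1.x) ≤ rn (nodeX (lastNode B.n1 L).x) :=
      rn_le (Nat.mul_le_mul_left 4 (Nat.mul_le_mul hle hle))
    have h01 := rn_node_lt h.1.2
    have hyX : ∀ (y : ℝ) (a : ℝ), a ∈ Icc (0 : ℝ) 1 →
        XP p y * 16777216 = (1 - a) * nodeX B.n0.x + a * nodeX B.n1.x →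
        rn (nodeX B.n0.x) ≤ XP p y ∧ XP p y ≤ rn (nodeX B.n1.x) := by
      intro y a ha he
      simp only [rn] at h01 ⊢
      rw [div_lt_div_iff_of_pos_right (by norm_num : (0 : ℝ) < 16777216)] at h01
      rw [div_le_iff₀ (by norm_num), le_div_iff₀ (by norm_num), he]
      have := mul_le_mul_of_nonneg_left h01.le ha.1
      have := mul_le_mul_of_nonneg_left h01.le (sub_nonneg.2 ha.2)
      constructor <;> linarith
    have hy2 : ∀ y, G |y| = G |y| := fun _ => rfl
    have hb1 := box_integral het hb hl hε hw.1 ((node_sqrt (le_trans hlast htop)))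
      (G := fun y => plG b l B.n0 (B :: L) (XP p y))
      (((plG_continuous b l (B :: L) B.n0)).comp (by unfold XP; fun_prop)) (fun y a ha he => by
        obtain ⟨x0, x1⟩ := hyX y a ha he
        have hd : rn (nodeX B.n1.x) - rn (nodeX B.n0.x) ≠ 0 := (sub_pos.2 h01).ne'
        have ea : (XP p y - rn (nodeX B.n0.x)) / (rn (nodeX B.n1.x) - rn (nodeX B.n0.x)) = a := by
          rw [div_eq_iff hd]; simp only [rn]; linarith
        rw [plG, plG_left L B.n1 h.2 x1, sub_self, add_zero, ea, min_eq_right ha.2, max_eq_right ha.1,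
          hVal_eq]
        ring)
    have hint : ∫ y in (B.n0.x : ℝ) / 2048 / s..(B.n1.x : ℝ) / 2048 / s, semi y ^ (p + 1) * G y =
        ∫ y in (B.n0.x : ℝ) / 2048 / s..(B.n1.x : ℝ) / 2048 / s,
          semi y ^ (p + 1) * plG b l B.n0 (B :: L) (XP p y) := by
      refine intervalIntegral.integral_congr fun y hy => ?_
      have hxx : (B.n0.x : ℝ) / 2048 / s ≤ (B.n1.x : ℝ) / 2048 / s :=
        div_le_div_of_nonneg_right (div_le_div_of_nonneg_right (Nat.cast_le.2 h.1.2.le) (by norm_num)) hs0.le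
      rw [uIcc_of_le hxx] at hy
      have e : XP p y = (s * y) ^ 2 := by rw [mul_pow, hs, sq_sqrt (by positivity), XP]
      have a1 := (div_le_iff₀ hs0).1 hy.1
      have a2 := (le_div_iff₀ hs0).1 hy.2
      have hy0 : 0 ≤ y := le_trans (by positivity) hy.1
      have c0 : rn (nodeX B.n0.x) ≤ XP p y := by
        rw [nodeX_rn, e]; exact pow_le_pow_left₀ (by positivity) (by linarith) 2
      have c1 : XP p y ≤ rn (nodeX B.n1.x) := by
        rw [nodeX_rn, e]; exact pow_le_pow_left₀ (by positivity) (by linarith) 2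
      simp only [hG y hy0 c0 (c1.trans hlast)]
    have ih := sums_sound het hb hl hε hGc L B.n1 h.2 hw.2 htop (fun y hy0 hy hy' => by
      rw [hG y hy0 (h01.le.trans hy) hy', plG,
        min_eq_left ((one_le_div (sub_pos.2 h01)).2 (by linarith)), max_eq_right zero_le_one]
      ring)
    rw [← intervalIntegral.integral_add_adjacent_intervals (hi _ _)
      (hi ((B.n1.x : ℝ) / 2048 / s) _), mul_add, hint]
    refine (add_le_add hb1 ih).trans (le_of_eq ?_)
    simp only [mix, bern, sums, forceN_eq, Nat.add_eq, Nat.cast_add]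
    ring

/-- What the budget gives. -/
theorem sumTest_sound {c : Cell} {tau K : ℕ} {kk : Bool} {L : List Box} (h : sumTest c tau K kk L = true)
    {b : ℝ} (hb : b ∈ Icc (0 : ℝ) 1) :
    bern b (sums c kk L) + (tau : ℝ) / 16777216 ^ 2 <
      2 * rn K * (12533 / 10000) * ((((1 - b) * (gAt c false : ℕ) + b * (gAt c true : ℕ))) / 16777216) *
        (((1 - b) * (fAt c false : ℕ) + b * (fAt c true : ℕ)) / (4 * (16777216 + (c.ec : ℝ)) ^ 2)) := by
  simp only [sumTest, Bool.and_eq_true, Nat.blt_eq] at h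
  obtain ⟨⟨h0, h1⟩, h2⟩ := h
  have a0 := (Nat.cast_lt (α := ℝ)).2 h0
  have a1 := (Nat.cast_lt (α := ℝ)).2 h1
  have a2 := (Nat.cast_lt (α := ℝ)).2 h2
  simp only [Nat.mul_eq, Nat.add_eq, Nat.cast_mul, Nat.cast_add, Nat.cast_pow, Nat.cast_ofNat] at a0 a1 a2
  set A := (16777216 : ℝ) + c.ec with hA
  have hA0 : 0 < A := by positivity
  have b0 := sub_nonneg.2 hb.2
  set g0 := (gAt c false : ℝ)
  set g1 := (gAt c true : ℝ)
  set f0 := (fAt c false : ℝ)
  set f1 := (fAt c true : ℝ)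
  set s0 := ((sums c kk L).1 : ℝ)
  set s1 := ((sums c kk L).2.1 : ℝ)
  set s2 := ((sums c kk L).2.2 : ℝ)
  set q := (K : ℝ) * 12533
  have main : ((1 - b) ^ 2 * s0 + (1 - b) * b * s1 + b ^ 2 * s2 + tau) * (20000 * A ^ 2) <
      q * (((1 - b) * g0 + b * g1) * ((1 - b) * f0 + b * f1)) := by
    have e1 := mul_le_mul_of_nonneg_left a1.le (mul_nonneg b0 hb.1)
    rcases le_total b (1 / 2) with hb2 | hb2
    · have e0 := mul_lt_mul_of_pos_left a0 (show 0 < (1 - b) ^ 2 by nlinarith)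
      have e2 := mul_le_mul_of_nonneg_left a2.le (sq_nonneg b)
      linarith
    · have e0 := mul_le_mul_of_nonneg_left a0.le (sq_nonneg (1 - b))
      have e2 := mul_lt_mul_of_pos_left a2 (show 0 < b ^ 2 by nlinarith)
      linarith
  have e : 2 * rn K * (12533 / 10000) * (((1 - b) * g0 + b * g1) / 16777216) *
      (((1 - b) * f0 + b * f1) / (4 * A ^ 2)) =
      q * (((1 - b) * g0 + b * g1) * ((1 - b) * f0 + b * f1)) / (20000 * A ^ 2) / 16777216 ^ 2 := by
    simp only [rn, q]; field_simp; ring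
  rw [e, bern, ← add_div]
  exact div_lt_div_of_pos_right ((lt_div_iff₀ (by positivity)).2 main) (by norm_num)

theorem fLo_le {c : Cell} (het : c.et ≤ c.ec) {p : ℕ} {b : ℝ} (hb : b ∈ Icc (0 : ℝ) 1)
    (hε : epsP p * 16777216 = c.ec + c.et * (2 * b - 1))
    (hok : ((Nat.add 16777216 c.ec) ^ 2 : ℕ) ≤ 5 * 16777216 * (Nat.sub (Nat.add 16777216 c.ec) c.et)) :
    0 ≤ ((1 - b) * (fAt c false : ℕ) + b * (fAt c true : ℕ)) / (4 * (16777216 + (c.ec : ℝ)) ^ 2) ∧
      ((1 - b) * (fAt c false : ℕ) + b * (fAt c true : ℕ)) / (4 * (16777216 + (c.ec : ℝ)) ^ 2) ≤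
      (1 - epsP p / 4) / (1 + epsP p) := by
  have b0 := sub_nonneg.2 hb.2
  refine ⟨div_nonneg (add_nonneg (mul_nonneg b0 (Nat.cast_nonneg _)) (mul_nonneg hb.1 (Nat.cast_nonneg _)))
    (by positivity), ?_⟩
  simp only [Nat.sub_eq, Nat.add_eq] at hok
  have hle : c.et ≤ 16777216 + c.ec := het.trans (Nat.le_add_left _ _)
  have hok' : (16777216 + c.ec) ^ 2 ≤ 5 * 16777216 * (16777216 + c.ec + c.et) :=
    hok.trans (Nat.mul_le_mul_left _ ((Nat.sub_le _ _).trans (Nat.le_add_right _ _)))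
  have hε0 := eps_pos p
  simp only [fAt, cond_true, cond_false, Nat.mul_eq, Nat.add_eq, Nat.sub_eq]
  rw [Nat.cast_sub hok', Nat.cast_sub hok]
  simp only [Nat.cast_mul, Nat.cast_add, Nat.cast_sub hle, Nat.cast_pow, Nat.cast_ofNat]
  set A := (16777216 : ℝ) + c.ec with hA
  have hA0 : 0 < A := by positivity
  set d := (c.et : ℝ) * (2 * b - 1) with hd
  have e : (1 + epsP p) * 16777216 = A + d := by rw [hA, hd]; linarith
  rw [show (1 - b) * (5 * 16777216 * (A + (c.et : ℝ)) - A ^ 2) + b * (5 * 16777216 * (A - c.et) - A ^ 2) =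
    5 * 16777216 * (A - d) - A ^ 2 by rw [hd]; ring]
  rw [div_le_div_iff₀ (by positivity) (by linarith)]
  have h := mul_le_mul_of_nonneg_left (show (A - d) * (A + d) ≤ A ^ 2 by nlinarith [sq_nonneg d])
    (show (0 : ℝ) ≤ 5 by norm_num)
  have e2 : (1 - epsP p / 4) * (4 * A ^ 2) * 16777216 = (5 * 16777216 - (A + d)) * A ^ 2 := by
    rw [← e]; ring
  have e3 : (5 * 16777216 * (A - d) - A ^ 2) * (1 + epsP p) * 16777216 =
      5 * 16777216 * ((A - d) * (A + d)) - A ^ 2 * (A + d) := by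
    linear_combination (5 * 16777216 * (A - d) - A ^ 2) * e
  nlinarith

theorem maj_int (p : ℕ) (D c2 : ℝ) :
    ∫ y in (0 : ℝ)..1, semi y ^ (p + 1) * majZero p (1 / 2 - D) D c2 y =
      -(1 / 2 - D) * (c2 - 1) * mass (p + 1) semi 1 := by
  have hsc := semi_continuous
  have hi : ∀ {f : ℝ → ℝ}, Continuous f → ∀ u v : ℝ, IntervalIntegrable f volume u v := fun h u v =>
    h.intervalIntegrable _ _
  have e : (fun y => semi y ^ (p + 1) * majZero p (1 / 2 - D) D c2 y) = fun y =>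
      (1 / 2 : ℝ) * (((p : ℝ) + 4) * (y ^ 2 * semi y ^ (p + 1)) - semi y ^ (p + 1)) -
        (1 / 2 - D) * (c2 - 1) * semi y ^ (p + 1) := by
    funext y; simp only [majZero]; ring
  rw [e, intervalIntegral.integral_sub (hi (by fun_prop) _ _) (hi (by fun_prop) _ _),
    intervalIntegral.integral_const_mul, intervalIntegral.integral_const_mul,
    intervalIntegral.integral_sub (hi (by fun_prop) _ _) (hi (by fun_prop) _ _),
    intervalIntegral.integral_const_mul, moment_two, ← mass_semi]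
  have : ((p + 1 : ℕ) : ℝ) + 3 ≠ 0 := by positivity
  push_cast at this ⊢
  field_simp
  ring

/-- A bound on the values at a node. -/
def Node.top (N : Node) : ℝ :=
  ((N.H false false : ℕ) + (N.H false true : ℕ) + (N.H true false : ℕ) + (N.H true true : ℕ) : ℝ) / 16777216

theorem Node.val_le_top (N : Node) {b l : ℝ} (hb : b ∈ Icc (0 : ℝ) 1) (hl : l ∈ Icc (0 : ℝ) 1) :
    N.val b l ≤ N.top := by
  refine div_le_div_of_nonneg_right ?_ (by norm_num)
  have w : ∀ u v x : ℝ, u ∈ Icc (0 : ℝ) 1 → v ∈ Icc (0 : ℝ) 1 → 0 ≤ x → u * (v * x) ≤ x :=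
    fun u v x hu hv hx => by
      have h1 := mul_le_mul hu.2 (mul_le_mul_of_nonneg_right hv.2 hx) (mul_nonneg hv.1 hx) zero_le_one
      linarith
  have hb' : 1 - b ∈ Icc (0 : ℝ) 1 := ⟨by linarith [hb.2], by linarith [hb.1]⟩
  have hl' : 1 - l ∈ Icc (0 : ℝ) 1 := ⟨by linarith [hl.2], by linarith [hl.1]⟩
  have h00 := w _ _ _ hb' hl' (Nat.cast_nonneg (N.H false false))
  have h01 := w _ _ _ hb' hl (Nat.cast_nonneg (N.H false true))
  have h10 := w _ _ _ hb hl' (Nat.cast_nonneg (N.H true false))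
  have h11 := w _ _ _ hb hl (Nat.cast_nonneg (N.H true true))
  linarith

theorem rest_le {p m : ℕ} {E X1 C Hm : ℝ} {x : ℕ} (hp : 29 ≤ p) (hE0 : 0 ≤ E) (hE : E ≤ epsP p)
    (hX1 : X1 = rn (nodeX x)) (hX0 : 0 < X1) (hC : 0 ≤ C) (hHm : 0 ≤ Hm)
    (htop : rn (nodeX x) ≤ (p : ℝ) + 2) {G : ℝ → ℝ} (hGc : Continuous G)
    (hG : ∀ y, X1 ≤ XP p y → 0 ≤ G y ∧ G y ≤ Hm) :
    √((p : ℝ) + 2) * (∫ y in (x : ℝ) / 2048 / √((p : ℝ) + 2)..1, semi y ^ (p + 1) * G y) +
        √((p : ℝ) + 2) * (∫ y in (0 : ℝ)..1, piTail p X1 C m y) ≤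
      (C + Hm) * (13 / 10 * momProd E m) / X1 ^ m := by
  have hsc := semi_continuous
  set s := √((p : ℝ) + 2) with hs
  have hs' : 0 < s := Real.sqrt_pos.2 (by positivity)
  set yN := (x : ℝ) / 2048 / s with hyN
  have hyN0 : 0 ≤ yN := by positivity
  have hyN1 : yN ≤ 1 := (div_le_one hs').2 (node_sqrt htop)
  have hi : ∀ {f : ℝ → ℝ}, Continuous f → ∀ u v : ℝ, IntervalIntegrable f volume u v := fun h u v =>
    h.intervalIntegrable _ _
  have hrest : ∫ y in yN..1, semi y ^ (p + 1) * G y ≤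
      ∫ y in (0 : ℝ)..1, piTail p X1 Hm m y := by
    have h0 : Continuous fun y => piTail p X1 Hm m y := by unfold piTail XP; fun_prop
    refine (integral_mono_on hyN1 (hi (hsc.pow _ |>.mul hGc) _ _) (hi h0 _ _) fun y hy => ?_).trans
      (integral_mono_interval hyN0 hyN1 le_rfl ?_ (hi h0 _ _))
    · have e : XP p y = (s * y) ^ 2 := by rw [mul_pow, hs, sq_sqrt (by positivity), XP]
      have a1 := (div_le_iff₀ hs').1 hy.1
      have hX : X1 ≤ XP p y := by
        rw [hX1, nodeX_rn, e]; exact pow_le_pow_left₀ (by positivity) (by linarith) 2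
      have h1 : 1 ≤ (XP p y / X1) ^ m := one_le_pow₀ ((one_le_div hX0).2 hX)
      have hS : semi y ^ (p + 1) ≤ semi y ^ (p - 1) :=
        pow_le_pow_of_le_one (Real.sqrt_nonneg _) (Real.sqrt_le_one.2 (by nlinarith)) (by omega)
      exact mul_le_mul hS ((hG y hX).2.trans (le_mul_of_one_le_right hHm h1)) (hG y hX).1
        (pow_nonneg (Real.sqrt_nonneg _) _)
    · refine ae_restrict_of_forall_mem measurableSet_Ioc fun y _ => ?_
      exact mul_nonneg (pow_nonneg (Real.sqrt_nonneg _) _)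
        (mul_nonneg hHm (pow_nonneg (div_nonneg (by unfold XP; positivity) hX0.le) _))
  have eT : ∀ v : ℝ, ∫ y in (0 : ℝ)..1, piTail p X1 v m y =
      v / X1 ^ m * ∫ y in (0 : ℝ)..1, XP p y ^ m * semi y ^ (p - 1) := by
    intro v
    rw [← intervalIntegral.integral_const_mul]
    refine intervalIntegral.integral_congr fun y _ => ?_
    simp only [piTail, div_pow]; ring
  have hmom := mul_le_mul_of_nonneg_left (moment_le hp hE0 hE m)
    (show 0 ≤ (C + Hm) / X1 ^ m by positivity)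
  rw [eT] at hrest ⊢
  have h2 := mul_le_mul_of_nonneg_left hrest hs'.le
  rw [show (C + Hm) * (13 / 10 * momProd E m) / X1 ^ m = (C + Hm) / X1 ^ m * (13 / 10 * momProd E m) by ring]
  rw [add_div, add_mul, add_mul] at hmom
  rw [add_div, add_mul]
  linarith

theorem mix_lt {c : Cell} {L : List Box} {tau : ℕ} {b l k : ℝ} (hb : b ∈ Icc (0 : ℝ) 1)
    (hl : l ∈ Icc (0 : ℝ) 1) (hkl : k * 16777216 = (1 - l) * c.K0 + l * c.K1)
    (hs0 : sumTest c tau c.K0 false L = true) (hs1 : sumTest c tau c.K1 true L = true) :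
    (mix l fun kk => bern b (sums c kk L)) + (tau : ℝ) / 16777216 ^ 2 <
      2 * k * (12533 / 10000) * (((1 - b) * (gAt c false : ℕ) + b * (gAt c true : ℕ)) / 16777216) *
        (((1 - b) * (fAt c false : ℕ) + b * (fAt c true : ℕ)) / (4 * (16777216 + (c.ec : ℝ)) ^ 2)) := by
  rw [show k = (1 - l) * rn c.K0 + l * rn c.K1 by simp only [rn]; linarith]
  have u0 := sumTest_sound hs0 hb
  have u1 := sumTest_sound hs1 hb
  simp only [mix]
  rcases le_total l (1 / 2) with h2 | h2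
  · have := mul_lt_mul_of_pos_left u0 (show 0 < 1 - l by linarith)
    have := mul_le_mul_of_nonneg_left u1.le hl.1
    linarith
  · have := mul_lt_mul_of_pos_left u1 (show 0 < l by linarith)
    have := mul_le_mul_of_nonneg_left u0.le (sub_nonneg.2 hl.2)
    linarith

theorem g_mix {c : Cell} (hpar : ∀ T : ℝ, |T| ≤ 1 → c.D.val T ≤ 2 / 5) (b : ℝ) :
    ((1 - b) * (gAt c false : ℕ) + b * (gAt c true : ℕ)) / 16777216 = (1 / 2 - c.D.val (2 * b - 1) : ℝ) := by
  have hm := hpar (-1) (by norm_num)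
  have hq := hpar 1 (by norm_num)
  simp only [Par.val, cast_U] at hm hq
  have g : ∀ e : Bool, ((gAt c e : ℕ) : ℝ) = 8388608 - (c.D.at' e).v := by
    intro e
    have hv : 0 ≤ ((Sg.ofN 8388608).sub (c.D.at' e)).v := by
      rw [Sg.sub_v, Sg.ofN_v]
      cases e <;> simp only [Par.at', cond_true, cond_false, Sg.add_v, Sg.sub_v]
      · have := (div_le_iff₀ (show (0 : ℝ) < 16777216 by norm_num)).1 hm
        push_cast; linarith
      · have := (div_le_iff₀ (show (0 : ℝ) < 16777216 by norm_num)).1 hq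
        push_cast; linarith
    rw [gAt, Sg.posPart_def, Nat.cast_sub (by
      have : (((Sg.ofN 8388608).sub (c.D.at' e)).neg : ℝ) ≤ ((Sg.ofN 8388608).sub (c.D.at' e)).pos := by
        simp only [Sg.v] at hv; linarith
      exact_mod_cast this)]
    have := Sg.sub_v (Sg.ofN 8388608) (c.D.at' e)
    simp only [Sg.v, Sg.ofN, Nat.cast_ofNat, Nat.cast_zero, sub_zero] at this ⊢
    exact this
  have hv := c.D.at_v b
  rw [cast_U] at hv
  rw [g false, g true, div_eq_iff (by norm_num)]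
  linarith

theorem pi_neg {c : Cell} {n : Node} {L : List Box} {tau m p : ℕ} {C X1 b l k D c2 : ℝ} (hp : 29 ≤ p)
    (het : c.et ≤ c.ec) (hb : b ∈ Icc (0 : ℝ) 1) (hl : l ∈ Icc (0 : ℝ) 1)
    (hε : epsP p * 16777216 = c.ec + c.et * (2 * b - 1)) (hεlo : rn c.E0 ≤ epsP p)
    (hn0 : n.x = 0) (hch : chainOK n L = true) (hw : L.all (wBoxOK c) = true)
    (htop : rn (nodeX (lastNode n L).x) ≤ (p : ℝ) + 2)
    (hs0 : sumTest c tau c.K0 false L = true) (hs1 : sumTest c tau c.K1 true L = true)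
    (hfac : ((Nat.add 16777216 c.ec) ^ 2 : ℕ) ≤ 5 * 16777216 * (Nat.sub (Nat.add 16777216 c.ec) c.et))
    (hC : 0 ≤ C) (hX1 : X1 = rn (nodeX (lastNode n L).x)) (hX0 : 0 < X1)
    (htau : (C + (lastNode n L).top) * (13 / 10 * momProd (rn c.E0) m) / X1 ^ m ≤ (tau : ℝ) / 16777216 ^ 2)
    (hk0 : 0 ≤ k) (hkl : k * 16777216 = (1 - l) * c.K0 + l * c.K1) (hD : D ≤ 1 / 2)
    (hg : ((1 - b) * (gAt c false : ℕ) + b * (gAt c true : ℕ)) / 16777216 = (1 / 2 - D : ℝ))
    (hc2 : 2 * k / (((p : ℝ) + 1) * ((p : ℝ) + 2)) ≤ c2 - 1) :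
    ∫ y in (0 : ℝ)..1, (semi y ^ (p + 1) * majZero p (1 / 2 - D) D c2 y +
      epsP p ^ 2 * (semi y ^ (p + 1) * plG b l n L (XP p y) + piTail p X1 C m y)) < 0 := by
  set s := √((p : ℝ) + 2) with hs
  have hs' : 0 < s := Real.sqrt_pos.2 (by positivity)
  set G := fun y : ℝ => plG b l n L (XP p y) with hG
  have hsc := semi_continuous
  have hGc : Continuous G := (plG_continuous b l L n).comp (by unfold XP; fun_prop)
  have hTc : Continuous fun y => piTail p X1 C m y := by unfold piTail XP; fun_prop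
  have hZc : Continuous fun y => semi y ^ (p + 1) * majZero p (1 / 2 - D) D c2 y := by
    unfold majZero; fun_prop
  have hi : ∀ {f : ℝ → ℝ}, Continuous f → ∀ u v : ℝ, IntervalIntegrable f volume u v := fun h u v =>
    h.intervalIntegrable _ _
  have hsum := sums_sound het hb hl hε hGc L n hch hw htop (fun y _ _ _ => rfl)
  rw [show (n.x : ℝ) / 2048 / √((p : ℝ) + 2) = 0 by simp [hn0], ← hs] at hsum
  have hrest := rest_le (m := m) hp (rn_nonneg _) hεlo hX1 hX0 hC
    (le_trans ((lastNode n L).val_nonneg hb hl) ((lastNode n L).val_le_top hb hl)) htop hGc fun y hy =>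
      ⟨plG_nonneg hb hl hch _, (plG_right L n hch (hX1 ▸ hy)).le.trans ((lastNode n L).val_le_top hb hl)⟩
  rw [← hs] at hrest
  have hmix := mix_lt hb hl hkl hs0 hs1
  rw [hg] at hmix
  obtain ⟨-, hf1⟩ := fLo_le het hb hε hfac
  have hg0 : 0 ≤ 1 / 2 - D := by linarith
  have hfin : 2 * k * (12533 / 10000) * (1 / 2 - D) *
      (((1 - b) * (fAt c false : ℕ) + b * (fAt c true : ℕ)) / (4 * (16777216 + (c.ec : ℝ)) ^ 2)) ≤
      2 * k * (1 / 2 - D) * (s * mass (p + 1) semi 1) / (1 + epsP p) := by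
    refine (mul_le_mul_of_nonneg_left hf1 (by positivity)).trans ?_
    rw [← mul_div_assoc]
    refine div_le_div_of_nonneg_right ?_ (by linarith [eps_pos p])
    have h2 := mul_le_mul_of_nonneg_left (mass_succ_ge hp) (show 0 ≤ 2 * k * (1 / 2 - D) by positivity)
    linarith
  have hsplit := intervalIntegral.integral_add_adjacent_intervals
    (hi (hsc.pow (p + 1) |>.mul hGc) 0 ((lastNode n L).x / 2048 / s))
    (hi (hsc.pow (p + 1) |>.mul hGc) ((lastNode n L).x / 2048 / s) 1)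
  have hsplit' : (∫ y in (0 : ℝ)..((lastNode n L).x / 2048 / s), semi y ^ (p + 1) * G y) +
      ∫ y in ((lastNode n L).x / 2048 / s : ℝ)..1, semi y ^ (p + 1) * G y =
      ∫ y in (0 : ℝ)..1, semi y ^ (p + 1) * G y := hsplit
  have hI : s * ((∫ y in (0 : ℝ)..1, semi y ^ (p + 1) * G y) + ∫ y in (0 : ℝ)..1, piTail p X1 C m y) <
      s * (2 * k * (1 / 2 - D) * mass (p + 1) semi 1 / (1 + epsP p)) := by
    rw [← hsplit']
    refine lt_of_le_of_lt ?_ (lt_of_lt_of_le hmix (hfin.trans (le_of_eq (by ring))))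
    linarith
  have hI' := mul_lt_mul_of_pos_left (lt_of_mul_lt_mul_left hI hs'.le) (pow_pos (eps_pos p) 2)
  have hc3 := mul_le_mul_of_nonneg_left hc2 (mul_nonneg hg0 (mass_one_pos isProfile_semi (p + 1)).le)
  rw [intervalIntegral.integral_add (hi hZc _ _)
    (hi (show Continuous fun y => epsP p ^ 2 * (semi y ^ (p + 1) * G y + piTail p X1 C m y) by fun_prop) _ _),
    maj_int, intervalIntegral.integral_const_mul,
    intervalIntegral.integral_add (hi (show Continuous fun y => semi y ^ (p + 1) * G y by fun_prop) _ _)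
      (hi hTc _ _)]
  have e : (1 / 2 - D) * mass (p + 1) semi 1 * (2 * k / (((p : ℝ) + 1) * ((p : ℝ) + 2))) =
      epsP p ^ 2 * (2 * k * (1 / 2 - D) * mass (p + 1) semi 1 / (1 + epsP p)) := by
    simp only [epsP]; field_simp; ring
  rw [e] at hc3
  linarith

/-- A part whose tests pass gives a certificate. -/
theorem hasCert_cell {c : Cell} {n : Node} {L : List Box} {tau m : ℕ} {C : ℝ}
    (hboxes : ∀ B ∈ L, boxOK c c.eEnv B = true) (hne : L ≠ []) (hside : sideOK c n L tau = true)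
    (hC : 0 ≤ C) {X1 : ℝ} (hX1 : X1 = rn (nodeX (lastNode n L).x)) (hX0 : 0 < X1)
    (htau : (C + (lastNode n L).top) * (13 / 10 * momProd (rn c.E0) m) / X1 ^ m ≤
      (tau : ℝ) / 16777216 ^ 2)
    {p : ℕ} (hp : 29 ≤ p) (hεlo : rn c.E0 ≤ epsP p) (hεhi : epsP p ≤ rn c.E1)
    (htail : ∀ k y t r lam c2 b, Pt p k y t r lam → 0 ≤ k → k ≤ 5 / 2 → b ∈ Icc (0 : ℝ) 1 →
      c.T p = 2 * b - 1 → X1 ≤ XP p y →
      c.total p c2 lam y t r ≤ semi y ^ (p + 1) * majZero p (1 / 2 - c.D.val (c.T p)) (c.D.val (c.T p)) c2 y +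
        epsP p ^ 2 * piTail p X1 C m y)
    (J : ℝ) (hJ0 : exp (rn c.K0 / ((p : ℝ) + 1)) * (2 * mass (p + 1) semi 1) ≤ J)
    (hJ1 : J ≤ exp (rn c.K1 / ((p : ℝ) + 1)) * (2 * mass (p + 1) semi 1)) : HasCert p J := by
  simp only [sideOK, Bool.and_eq_true, Nat.ble_eq, Nat.beq_eq] at hside
  obtain ⟨⟨⟨⟨⟨⟨⟨⟨hc, he⟩, hn0⟩, hch⟩, hw⟩, hfac⟩, htopN⟩, hs0⟩, hs1⟩ := hside
  obtain ⟨hec, het, het0, hE, hKK, hK, -, hpar⟩ := cell_ok hc
  have hE01 : (c.E0 : ℝ) = (c.ec : ℝ) - c.et ∧ (c.E1 : ℝ) = (c.ec : ℝ) + c.et := by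
    simp [Cell.E0, Cell.E1, Nat.cast_sub het]
  have het' : (0 : ℝ) < c.et := Nat.cast_pos.2 het0
  set b := (epsP p * 16777216 - c.E0) / (2 * (c.et : ℝ)) with hbd
  have hb : b ∈ Icc (0 : ℝ) 1 := by
    simp only [rn] at hεlo hεhi
    refine ⟨div_nonneg ?_ (by positivity), ?_⟩
    · linarith [(div_le_iff₀ (show (0 : ℝ) < 16777216 by norm_num)).1 hεlo]
    · rw [hbd, div_le_one (by positivity)]
      linarith [(le_div_iff₀ (show (0 : ℝ) < 16777216 by norm_num)).1 hεhi, hE01.1, hE01.2]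
  have hε : epsP p * 16777216 = c.ec + c.et * (2 * b - 1) := by
    rw [hbd, hE01.1]; field_simp; ring
  have hT : c.T p = 2 * b - 1 := by rw [Cell.T, hε]; field_simp; ring
  obtain ⟨hD, he1⟩ := hpar (2 * b - 1) (abs_le.2 ⟨by linarith [hb.1], by linarith [hb.2]⟩)
  rw [← hT] at hD he1
  set D := c.D.val (c.T p) with hDd
  have hP := mass_one_pos isProfile_semi (p + 1)
  have hp' : (29 : ℝ) ≤ p := by exact_mod_cast hp
  set Q := J / (2 * mass (p + 1) semi 1) with hQ
  have hQ0 : exp (rn c.K0 / ((p : ℝ) + 1)) ≤ Q := by rwa [hQ, le_div_iff₀ (by positivity)]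
  have hQ1 : Q ≤ exp (rn c.K1 / ((p : ℝ) + 1)) := by rwa [hQ, div_le_iff₀ (by positivity)]
  have hQp : 0 < Q := (exp_pos _).trans_le hQ0
  set k := ((p : ℝ) + 1) * log Q with hk
  have hk0 : rn c.K0 ≤ k := by
    rw [hk, ← div_le_iff₀' (by positivity)]; exact (Real.le_log_iff_exp_le hQp).2 hQ0
  have hk1 : k ≤ rn c.K1 := by
    rw [hk, ← le_div_iff₀' (by positivity)]; exact (Real.log_le_iff_le_exp hQp).2 hQ1
  have hk0' : 0 ≤ k := (rn_nonneg _).trans hk0
  have hk52 : k ≤ 5 / 2 := hk1.trans ((rn_le hK).trans (by norm_num [rn]))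
  obtain ⟨l, hl, hkl⟩ : ∃ l ∈ Icc (0 : ℝ) 1, k * 16777216 = (1 - l) * c.K0 + l * c.K1 := by
    simp only [rn] at hk0 hk1
    have a0 := (div_le_iff₀ (show (0 : ℝ) < 16777216 by norm_num)).1 hk0
    have a1 := (le_div_iff₀ (show (0 : ℝ) < 16777216 by norm_num)).1 hk1
    rcases eq_or_lt_of_le (show (c.K0 : ℝ) ≤ c.K1 by exact_mod_cast hKK) with e | hlt
    · exact ⟨0, ⟨le_rfl, zero_le_one⟩, by linarith⟩
    · refine ⟨(k * 16777216 - c.K0) / ((c.K1 : ℝ) - c.K0),
        ⟨div_nonneg (by linarith) (by linarith), (div_le_one (by linarith)).2 (by linarith)⟩, ?_⟩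
      have := div_mul_cancel₀ (k * 16777216 - c.K0) (sub_pos.2 hlt).ne'
      linarith
  set c2 := (J / ∫ s in (-1 : ℝ)..1, semi s ^ (p + 1)) ^ (2 / ((p : ℝ) + 2)) with hc2
  have hc2' : 2 * k / (((p : ℝ) + 1) * ((p : ℝ) + 2)) ≤ c2 - 1 := by
    rw [hc2, integral_even isProfile_semi (p + 1), ← hQ, Real.rpow_def_of_pos hQp]
    have e : 2 * k / (((p : ℝ) + 1) * ((p : ℝ) + 2)) = log Q * (2 / ((p : ℝ) + 2)) := by
      rw [hk]; field_simp
    linarith [Real.add_one_le_exp (log Q * (2 / ((p : ℝ) + 2)))]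
  have hc21 : 0 ≤ c2 - 1 := le_trans (by positivity) hc2'
  set G := fun y : ℝ => plG b l n L (XP p y) with hG
  set Pi := fun y : ℝ => semi y ^ (p + 1) * majZero p (1 / 2 - D) D c2 y +
    epsP p ^ 2 * (semi y ^ (p + 1) * G y + piTail p X1 C m y) with hPi
  have hsc := semi_continuous
  have hGc : Continuous G := (plG_continuous b l L n).comp (by unfold XP; fun_prop)
  have hTc : Continuous fun y => piTail p X1 C m y := by unfold piTail XP; fun_prop
  have hZc : Continuous fun y => semi y ^ (p + 1) * majZero p (1 / 2 - D) D c2 y := by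
    unfold majZero; fun_prop
  have hneg : ∫ y in (0 : ℝ)..1, Pi y < 0 := pi_neg hp het hb hl hε hεlo hn0 hch hw
    (node_top (M := 16777216) Nat.cast_ofNat hεlo hεhi htopN) hs0 hs1
    (by simpa only [Nat.mul_eq] using hfac) hC hX1 hX0 htau hk0' hkl (by linarith [hD.2])
    (by rw [hDd, hT]; exact g_mix (fun T hT => (hpar T hT).1.2) b) hc2'
  have hA : ∀ y, HasDerivAt (c.fA p) (c.fdA p y) y := fun y => by
    have hXd : HasDerivAt (XP p) (2 * ((p : ℝ) + 2) * y) y :=
      ((hasDerivAt_pow 2 y).const_mul ((p : ℝ) + 2)).congr_deriv (by push_cast; ring)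
    exact (((c.sA.hasDerivAt (c.T p) (XP p y)).comp y hXd).mul_const (epsP p)).const_add
      (1 - 22 / 5 * c.D.val (c.T p)) |>.congr_deriv (by simp only [Cell.fdA]; ring)
  have hW : ∀ y, HasDerivAt (c.fW p) (c.fdW p y) y := fun y => by
    have hXd : HasDerivAt (XP p) (2 * ((p : ℝ) + 2) * y) y :=
      ((hasDerivAt_pow 2 y).const_mul ((p : ℝ) + 2)).congr_deriv (by push_cast; ring)
    exact ((c.sW.hasDerivAt (c.T p) (XP p y)).comp y hXd).congr_deriv (by simp only [Cell.fdW]; ring)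
  refine ⟨0, 1 / 2 - D, D, le_rfl, by linarith [hD.2], by linarith [hD.1], ⟨{
    β := 6 / 5
    ell := ellM p D (c.e1.val (c.T p)) c2
    ell_nonneg := by
      have := mul_nonneg (show 0 ≤ 1 / 2 - D by linarith [hD.2]) hc21
      unfold ellM; linarith
    V := potF p (c.fA p) (c.fW p)
    Vy := potFY p (c.fA p) (c.fdA p) (c.fW p) (c.fdW p)
    Vt := potFT p (c.fA p) (c.fW p)
    Pi := Pi
    chain := fun Z Z' t _ hy hZ => potF_chain _ _ _ _ (fun y _ => hA y) (fun y _ => hW y) Z Z' t hy hZ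
    along := fun Z hZ h0 hα h1 => potF_along _ _
      (fun y _ => (hA y).continuousAt.continuousWithinAt)
      (fun y _ => (hW y).continuousAt.continuousWithinAt) Z hZ h0 hα h1
    V_zero := potF_zero _ _
    V_one := potF_one _ _
    Pi_cont := (hZc.add (continuous_const.mul ((hsc.pow _ |>.mul hGc).add hTc))).continuousOn
    Pi_neg := hneg
    point := ?_ }⟩⟩
  intro y hy t ht r lam hr hlam hlp hridge hreach _ hback hcap
  have hpow : lam ^ (p + 1) ≤ exp (k / ((p : ℝ) + 1)) := by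
    rw [hk, mul_div_cancel_left₀ _ (by positivity), Real.exp_log hQp, hQ, le_div_iff₀ (by positivity)]
    exact hlp
  have hpt : Pt p k y t r lam := ⟨hy, ht, hr, hlam, hpow, hridge, hback, hcap, hreach⟩
  rw [← hc2, add_assoc]
  change c.total p c2 lam y t r ≤ Pi y
  have hS : 0 ≤ semi y ^ (p + 1) := pow_nonneg (Real.sqrt_nonneg _) _
  have hT0 : 0 ≤ piTail p X1 C m y := mul_nonneg (pow_nonneg (Real.sqrt_nonneg _) _)
    (mul_nonneg hC (pow_nonneg (div_nonneg (XP_pos p hy.1).le hX0.le) _))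
  have hG0 : 0 ≤ G y := plG_nonneg hb hl hch _
  have hε2 := sq_nonneg (epsP p)
  rcases le_total (XP p y) X1 with hX | hX
  · have h0 : rn (nodeX n.x) ≤ XP p y := by
      rw [hn0]; simp [rn, nodeX, (XP_pos p hy.1).le]
    obtain ⟨B, hB, a, ha, ea, eG⟩ := plG_box (b := b) (l := l) L n hch h0 (hX1 ▸ hX) hne
    refine (boxOK_sound hc he (hboxes B hB) hp hpt ha hb hl hkl hε ea (c2 := c2)).trans ?_
    rw [hPi, ← hDd, mul_add]
    refine add_le_add le_rfl ?_
    rw [mul_left_comm]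
    refine mul_le_mul_of_nonneg_left ?_ hε2
    rw [show G y = hVal B.n0 B.n1 a b l from eG]
    linarith
  · refine (htail k y t r lam c2 b hpt hk0' hk52 hb hT hX).trans ?_
    simp only [hPi]
    refine add_le_add le_rfl (mul_le_mul_of_nonneg_left ?_ hε2)
    linarith [mul_nonneg hS hG0]

end Vale.Agent.P237.All.Transport.Mid
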