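import Vale.Agent.P237.All.Mid.Spline

/-!
P237, cell `k` in `[4/5, 5/2]`: the checker of a box in `(X, ε)`, over naturals
(`notes/P237h6/mid-cell-02Dec.md`).  Everything is at the scale `U` unless said otherwise.
-/

noncomputable section

namespace Vale.Agent.P237.All.Transport.Mid

/-- A quotient rounded up. -/
def cdiv (a d : ℕ) : ℕ := Nat.div (Nat.sub (Nat.add a d) 1) d

theorem cdiv_def (a d : ℕ) : cdiv a d = (a + d - 1) / d := rfl

/-- The larger. -/
def nmax (a b : ℕ) : ℕ := cond (Nat.ble a b) b a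

/-- The smaller. -/
def nmin (a b : ℕ) : ℕ := cond (Nat.ble a b) a b

/-- A value at each corner. -/
structure C4 where
  ll : Sg
  hl : Sg
  lh : Sg
  hh : Sg

/-- The value at a corner; the first parameter is `X`, the second `ε`. -/
def C4.get (f : C4) (a b : Bool) : Sg := cond a (cond b f.hh f.hl) (cond b f.lh f.ll)

/-- Evaluates the four values. -/
def C4.force {α : Type} (f : C4) (k : C4 → α) : α :=
  f.ll.force fun a => f.hl.force fun b => f.lh.force fun c => f.hh.force fun d => k ⟨a, b, c, d⟩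

/-- The upper values of a form. -/
def AF.hi4 (f : AF) : C4 :=
  ⟨f.hi false false, f.hi true false, f.hi false true, f.hi true true⟩

/-- The lower values of a form. -/
def AF.lo4 (f : AF) : C4 :=
  ⟨f.lo false false, f.lo true false, f.lo false true, f.lo true true⟩

/-- A value at each end of `ε`. -/
structure C2 where
  l : Sg
  h : Sg

/-- The value at an end. -/
def C2.get (f : C2) (b : Bool) : Sg := cond b f.h f.l

/-- Evaluates both values. -/
def C2.force {α : Type} (f : C2) (k : C2 → α) : α :=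
  f.l.force fun a => f.h.force fun b => k ⟨a, b⟩

/-- The data of a cell: `k` in `[K0, K1]`, `ε` in `[ec - et, ec + et]`. -/
structure Cell where
  K0 : ℕ
  K1 : ℕ
  ec : ℕ
  et : ℕ
  D : Par
  e1 : Par
  sA : Spl
  sW : Spl
  gam : ℕ

/-- The lower end of `ε`. -/
def Cell.E0 (c : Cell) : ℕ := Nat.sub c.ec c.et

/-- The upper end of `ε`. -/
def Cell.E1 (c : Cell) : ℕ := Nat.add c.ec c.et

/-- The constants of a cell. -/
def Cell.ok (c : Cell) : Bool :=
  Nat.blt 0 c.ec && Nat.ble c.et c.ec && Nat.blt 0 c.et && Nat.ble c.E1 559241 &&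
  Nat.blt 0 c.K0 && Nat.ble c.K0 c.K1 && Nat.ble c.K1 41943040 &&
  Nat.ble (2 * 16777216 * 16777216 * 16777216)
    (Nat.mul c.gam (Nat.sub (2 * 16777216 * 16777216 + 2 * 16777216 * c.E0) (c.K1 * c.E1))) &&
  Sg.le (Sg.ofN 4194304) (c.D.c.sub (Sg.ofN c.D.t.abs')) &&
  Sg.le (c.D.c.add (Sg.ofN c.D.t.abs')) (Sg.ofN 6710886) &&
  Sg.le (Sg.ofN c.e1.t.abs') (c.e1.c.add (Sg.ofN (25 * 16777216)))

/-- The bound on `-(y (t - y))`. -/
def Cell.z (c : Cell) : ℕ :=
  cdiv (Nat.mul (Nat.mul c.K1 c.gam) (Nat.mul c.E1 c.E1)) (16777216 * 16777216 * 16777216)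

/-- The forms that depend on `ε` only. -/
structure EEnv where
  eps : AF
  i1 : AF
  im : AF
  iA : AF
  ip : AF
  omh : AF
  D : AF
  c : AF
  e0 : AF
  e1 : AF
  cr0 : AF
  qg : AF
  lg : AF
  rn0 : AF
  rn1 : AF
  eD : AF

/-- One. -/
def afOne : AF := AF.const (Sg.ofN 16777216)

/-- Whether the inverses exist. -/
def eOK (c : Cell) : Bool :=
  let e := AF.linT (Sg.ofN c.ec) (Sg.ofN c.et)
  Nat.blt 0 ((afOne.add e).low.posPart) && Nat.blt 0 ((afOne.sub e).low.posPart)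

/-- Computes the forms that depend on `ε` only. -/
def withEEnv {α : Type} (c : Cell) (k : EEnv → α) : α :=
  (AF.linT (Sg.ofN c.ec) (Sg.ofN c.et)).force fun eps =>
  (afOne.add eps).inv.force fun i1 =>
  (afOne.sub eps).inv.force fun im =>
  (eps.mul i1).force fun iA =>
  (eps.mul im).force fun ip =>
  ((afOne.sub eps).scale 1 2).force fun omh =>
  c.D.af.force fun D =>
  (D.scale 22 5).force fun cc =>
  (afOne.sub cc).force fun e0 =>
  c.e1.af.force fun e1 =>
  ((e0.add (iA.mul ((afOne.scale 2 1).sub (D.scale 88 25)))).sub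
    ((D.scale 22 25).mul i1)).force fun cr =>
  (ip.mul cr).force fun cr0 =>
  (((afOne.scale 1 2).add (D.scale 11 25)).mul (afOne.add (iA.scale 2 1))).force fun qg =>
  (i1.mul ((afOne.scale 2 1).sub cc)).force fun lg =>
  ((((e0.add e1).sub ((afOne.scale 1 2).sub D))).add (D.scale 17 5)).force fun rn0 =>
  (((afOne.scale 1 2).add cc).add ((afOne.sub (cc.scale 2 1)).mul iA)).force fun rn1 =>
  (D.scale 132 25).force fun eD =>
  k ⟨eps, i1, im, iA, ip, omh, D, cc, e0, e1, cr0, qg, lg, rn0, rn1, eD⟩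

/-- The forms and corner values of a box. -/
structure BEnv where
  RnH : C4
  RnL : C4
  LH : C4
  LL : C4
  CH : C4
  CL : C4
  QH : C4
  EA : C4
  KpL : C4
  KwH : C4
  hxm : AF
  e2xm : AF
  eps : AF

/-- The form of `X` on `[X0, X1]`, given by the nodes `x0 < x1` in units of `2 ^ -11`. -/
def xAF (x0 x1 : ℕ) : AF :=
  ⟨Sg.ofN (Nat.mul 2 (Nat.add (Nat.mul x0 x0) (Nat.mul x1 x1))),
    Sg.ofN (Nat.mul 2 (Nat.sub (Nat.mul x1 x1) (Nat.mul x0 x0))), ⟨0, 0⟩, 0⟩

/-- `X` at a node. -/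
def nodeX (x : ℕ) : ℕ := Nat.mul 4 (Nat.mul x x)

/-- Whether the box forms exist. -/
def bOK (c : Cell) (e : EEnv) (x0 x1 : ℕ) : Bool :=
  Nat.blt x0 x1 && knClear c.sA.kn (nodeX x0) (nodeX x1) && knClear c.sW.kn (nodeX x0) (nodeX x1) &&
  Nat.blt 0 ((afOne.add e.eps).sub (e.eps.mul (xAF x0 x1))).low.posPart

/-- Computes the forms and corner values of a box. -/
def withBEnv {α : Type} (c : Cell) (e : EEnv) (x0 x1 : ℕ) (k : BEnv → α) : α :=
  (xAF x0 x1).force fun X =>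
  ((afOne.add e.eps).sub (e.eps.mul X)).inv.force fun MA =>
  (X.mul e.iA).force fun XA =>
  (X.mul MA).force fun XM =>
  (c.sA.af X (nodeX x0)).force fun a =>
  (c.sA.daf X (nodeX x0)).force fun a1 =>
  (c.sW.af X (nodeX x0)).force fun W =>
  (c.sW.daf X (nodeX x0)).force fun W1 =>
  (a.sub (e.im.mul (e.rn0.add (X.mul e.rn1)))).force fun Rn =>
  (X.mul (((a1.scale 2 1).add (MA.mul ((e.e0.mul (afOne.sub X)).sub a))).add e.lg)).force fun L =>
  ((W.scale 2 1).sub (X.mul e.cr0)).force fun C =>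
  ((X.mul ((W1.scale 2 1).add e.qg)).sub (W.mul (afOne.add XM))).force fun Q =>
  (e.eD.mul XA).force fun EA =>
  (e.c.mul (((afOne.sub XA)).sub (AF.const (Sg.ofN (cdiv c.z 5))))).force fun Kp =>
  (((afOne.add ((a.sub Rn).mul e.eps)).sub (e.c.mul XA)).add (AF.const (Sg.ofN c.z))).force fun Kw =>
  (e.omh.mul XM).force fun hxm =>
  ((e.eps.mul e.eps).mul XM).force fun e2xm =>
  Rn.hi4.force fun RnH => Rn.lo4.force fun RnL => L.hi4.force fun LH => L.lo4.force fun LL =>
  C.hi4.force fun CH => C.lo4.force fun CL => Q.hi4.force fun QH => EA.lo4.force fun EAl =>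
  Kp.lo4.force fun KpL => Kw.hi4.force fun KwH =>
  k ⟨RnH, RnL, LH, LL, CH, CL, QH, EAl, KpL, KwH, hxm, e2xm, e.eps⟩

/-- Squares rounded up, `n` times. -/
def sqUp (S : ℕ) : ℕ → ℕ → ℕ
  | 0, r => r
  | n + 1, r => forceN r fun r' => sqUp S n (cdiv (Nat.mul r' r') S)

/-- An upper bound on the exponential at `v ≤ 4096`. -/
def expUp (v : ℕ) : ℕ :=
  forceN (cdiv v 4096) fun u => sqUp 16777216 12 (Nat.add (Nat.add 16777216 u) (cdiv (Nat.mul u u) 16777216))

/-- The bound `1.25332 (1 + E / 3)`. -/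
def massUp (E : ℕ) : ℕ := cdiv (Nat.mul 125332 (Nat.add (3 * 16777216) E)) 300000

/-- The bound on `lam`. -/
def lamUp (c : Cell) : ℕ :=
  Nat.add 16777216 (cdiv (Nat.mul (Nat.mul 2 c.K1) (Nat.mul c.E1 c.E1)) (16777216 * 16777216))

/-- The bound on `1 / (p + 2)`. -/
def tUp (c : Cell) : ℕ := cdiv (Nat.mul c.E1 16777216) (Nat.add 16777216 c.E1)

/-- The bound on `1 / (p + 2)` from below. -/
def tLo (c : Cell) : ℕ := Nat.div (Nat.mul c.E0 16777216) (Nat.add 16777216 c.E0)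

/-- The bound on `mills` at a node. -/
def millsUp (x : ℕ) : ℕ :=
  Nat.add (Nat.mul x 8192)
    (cdiv (90 * 16777216 * 16777216) (Nat.add (Nat.mul 50 (Nat.mul x 8192)) (111 * 16777216)))

/-- `X / 2 (1 + X t / (2 (1 - X t)))` from above. -/
def expArg (t X : ℕ) : ℕ :=
  cdiv (Nat.mul X (Nat.sub (2 * 16777216 * 16777216) (Nat.mul X t)))
    (Nat.mul 4 (Nat.sub (16777216 * 16777216) (Nat.mul X t)))

/-- `E / (1 + E)` from above. -/
def iUp (E : ℕ) : ℕ := cdiv (Nat.mul E 16777216) (Nat.add 16777216 E)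

/-- `E / (1 + E)` from below. -/
def iLo (E : ℕ) : ℕ := Nat.div (Nat.mul E 16777216) (Nat.add 16777216 E)

/-- The cap on `σ` at the point itself. -/
def capS (c : Cell) (x1 : ℕ) : ℕ :=
  cdiv (Nat.mul c.K1 (Nat.add (Nat.mul 2 c.E1)
    (cdiv (Nat.mul (Nat.mul (lamUp c) c.gam) (Nat.mul (Nat.mul (massUp c.E1) (millsUp x1))
      (expUp (expArg (tUp c) (nodeX x1))))) (16777216 * 16777216 * 16777216 * 16777216)))) 16777216

/-- The largest `X` of the comparison point. -/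
def xuTop (x0 x1 xu : ℕ) : ℕ :=
  cdiv (Nat.mul (nodeX xu) (Nat.mul x1 x1)) (Nat.mul x0 x0)

/-- The exponent at the comparison point. -/
def expArgW (F0 F1 X : ℕ) : ℕ :=
  cdiv (Nat.mul (Nat.sub 16777216 (iLo F0)) (expArg (iUp F1) X)) 16777216

/-- An upper bound on `1 / √(1 - v)`: a mean, improved once. -/
def rsqUp (v : ℕ) : ℕ :=
  forceN (Nat.add 16777216 (cdiv (Nat.mul v 16777216) (Nat.mul 2 (Nat.sub 16777216 v)))) fun s =>
    cdiv (Nat.add (Nat.mul (Nat.mul s s) (Nat.sub 16777216 v))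
      (16777216 * 16777216 * 16777216)) (Nat.mul 2 (Nat.mul s (Nat.sub 16777216 v)))

/-- The bound on `1 / semi` at a node. -/
def syAt (x1 F1 : ℕ) : ℕ := rsqUp (cdiv (Nat.mul (nodeX x1) (iUp F1)) 16777216)

/-- The cap on `w` from the comparison point, for `ε` in `[F0, F1]`. -/
def capW (c : Cell) (x0 x1 xu F0 F1 : ℕ) : ℕ :=
  forceN (syAt x1 F1) fun sy =>
  forceN (xuTop x0 x1 xu) fun X1 =>
  forceN (cdiv (Nat.mul (Nat.mul (millsUp x1) (Nat.mul c.K1 c.gam))
      (Nat.mul F1 (Nat.mul (massUp c.E1) (expUp (expArgW F0 F1 X1)))))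
      (16777216 * 16777216 * 16777216 * 16777216 * 16777216)) fun A =>
  forceN (cdiv (Nat.mul (Nat.mul (millsUp x0) (Nat.add X1 (2 * 16777216))) (16777216 * 16777216))
      (Nat.mul (Nat.mul xu 8192)
        (Nat.add (Nat.mul X1 (Nat.sub 16777216 (iUp F1))) (3 * 16777216 * 16777216)))) fun F =>
  nmax 16777216
    (cdiv (Nat.mul (Nat.mul (lamUp c) sy) (Nat.add A
      (cdiv (Nat.mul (Nat.sub 16777216 (Nat.div (Nat.mul (nodeX xu) (iLo F0)) (2 * 16777216))) F) 16777216)))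
      (16777216 * 16777216))

/-- The ends of the subranges of `ε`. -/
def subEps (c : Cell) (i : ℕ) : ℕ := Nat.add c.E0 (Nat.div (Nat.mul (Nat.mul 2 c.et) i) 8)

/-- The cap on `σ` from the comparison point, over the first `n` subranges. -/
def scapUp (c : Cell) (x0 x1 xu : ℕ) : ℕ → ℕ
  | 0 => 0
  | n + 1 =>
    forceN (scapUp c x0 x1 xu n) fun r =>
      nmax r (cdiv (Nat.mul (Nat.sub (capW c x0 x1 xu (subEps c n) (subEps c (Nat.add n 1))) 16777216)
        16777216) (subEps c n))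

/-- Whether the caps are valid. -/
def capOK (c : Cell) (x0 x1 xu : ℕ) : Bool :=
  Nat.blt (Nat.mul (nodeX x1) (tUp c)) (16777216 * 16777216) &&
  Nat.ble (expArg (tUp c) (nodeX x1)) (4096 * 16777216) &&
  (Nat.beq xu 0 || (Nat.ble xu x0 && Nat.blt (Nat.mul (xuTop x0 x1 xu) (tUp c)) (16777216 * 16777216) &&
    Nat.ble (expArg (tUp c) (xuTop x0 x1 xu)) (4096 * 16777216) &&
    Nat.blt (cdiv (Nat.mul (nodeX x1) (tUp c)) 16777216) 16777216))

/-- A value between consecutive ranges of `σ`: `w` itself or `σ`. -/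
structure Bp where
  isW : Bool
  val : Sg

/-- The least `w` above a point. -/
def Bp.wLo (c : Cell) (b : Bp) : ℕ :=
  cond b.isW b.val.posPart
    (Nat.sub (Nat.add 16777216 (Nat.div (Nat.mul b.val.posPart c.E0) 16777216))
      (cdiv (Nat.mul b.val.negPart c.E1) 16777216))

/-- The largest `w` below a point. -/
def Bp.wHi (c : Cell) (b : Bp) : ℕ :=
  cond b.isW b.val.posPart
    (Nat.sub (Nat.add 16777216 (cdiv (Nat.mul b.val.posPart c.E1) 16777216))
      (Nat.div (Nat.mul b.val.negPart c.E0) 16777216))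

/-- Whether `σ` above a point is bounded below. -/
def Bp.loFin (c : Cell) (b : Bp) : Bool :=
  !b.isW || Nat.ble 16777216 b.val.posPart || Nat.blt 0 c.E0

/-- Whether `σ` below a point is bounded above. -/
def Bp.hiFin (c : Cell) (b : Bp) : Bool :=
  !b.isW || Nat.ble b.val.posPart 16777216 || Nat.blt 0 c.E0

/-- The bound of `σ` from below above a point. -/
def Bp.sLo (c : Cell) (b : Bp) : C2 :=
  cond b.isW
    ⟨⟨Nat.div (Nat.mul (Nat.mul (Nat.sub b.val.posPart 16777216) 16777216) (Nat.add c.ec c.et)) (Nat.mul c.ec c.ec),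
        cdiv (Nat.mul (Nat.sub 16777216 b.val.posPart) 16777216) c.E0⟩,
      ⟨Nat.div (Nat.mul (Nat.mul (Nat.sub b.val.posPart 16777216) 16777216) (Nat.sub c.ec c.et)) (Nat.mul c.ec c.ec),
        cdiv (Nat.mul (Nat.sub 16777216 b.val.posPart) 16777216) c.E1⟩⟩
    ⟨b.val, b.val⟩

/-- The bound of `σ` from above below a point. -/
def Bp.sHi (c : Cell) (b : Bp) : C2 :=
  cond b.isW
    ⟨⟨cdiv (Nat.mul (Nat.sub b.val.posPart 16777216) 16777216) c.E0,
        Nat.div (Nat.mul (Nat.mul (Nat.sub 16777216 b.val.posPart) 16777216) (Nat.add c.ec c.et)) (Nat.mul c.ec c.ec)⟩,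
      ⟨cdiv (Nat.mul (Nat.sub b.val.posPart 16777216) 16777216) c.E1,
        Nat.div (Nat.mul (Nat.mul (Nat.sub 16777216 b.val.posPart) 16777216) (Nat.sub c.ec c.et)) (Nat.mul c.ec c.ec)⟩⟩
    ⟨b.val, b.val⟩

/-- The larger of two values. -/
def sMax (x y : Sg) : Sg := cond (Sg.le x y) y x

/-- The smaller of two values. -/
def sMin (x y : Sg) : Sg := cond (Sg.le x y) x y

/-- A range of `w`, with its constants. -/
structure WEnv where
  neg : Bool
  wl : ℕ
  wh : ℕ
  sloF : Bool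
  slo : C2
  s0 : Sg
  shiF : Bool
  shi : C2
  s1 : Sg
  psi : ℕ
  kap : C4
  inv : ℕ
  off : C2

/-- The series of the logarithm at `a / b`, cleared. -/
def serNum (a b : ℕ) : ℕ :=
  forceN (Nat.mul a a) fun a2 => forceN (Nat.mul b b) fun b2 =>
  Nat.mul a (Nat.add (Nat.mul 210 (Nat.mul b2 (Nat.mul b2 b2)))
    (Nat.mul a2 (Nat.add (Nat.mul 70 (Nat.mul b2 b2))
      (Nat.mul a2 (Nat.add (Nat.mul 42 b2) (Nat.mul 30 a2))))))

/-- The exact test of a line below the series of the logarithm. -/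
def lineOK (inv off w : ℕ) : Bool :=
  forceN (Nat.sub w 16777216) fun a => forceN (Nat.add w 16777216) fun b =>
  Nat.ble
    (Nat.mul (Nat.add (Nat.mul inv a) (Nat.mul off 16777216))
      (Nat.mul 105 (Nat.mul b (Nat.mul (Nat.mul b b) (Nat.mul (Nat.mul b b) (Nat.mul b b))))))
    (Nat.mul (16777216 * 16777216) (serNum a b))

/-- `ip` from below. -/
def ipLo (c : Cell) : ℕ := Nat.div (Nat.mul c.E0 16777216) (Nat.sub 16777216 c.E0)

/-- `ip` from above. -/
def ipUp (c : Cell) : ℕ := cdiv (Nat.mul c.E1 16777216) (Nat.sub 16777216 c.E1)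

/-- The curvature at a corner. -/
def kapAt (kp kw : Sg) (dd tw wl wh : ℕ) : Sg :=
  ((kp.mul (Sg.ofN (Nat.add 16777216 dd))).sub (Sg.ofN (Nat.mul kw.posPart tw))).norm.force fun br =>
    ⟨Nat.div br.pos wh, cdiv br.neg wl⟩

/-- Whether a curvature at a corner exists. -/
def kapOK (kp kw : Sg) (dd tw wl : ℕ) : Bool :=
  Sg.le ⟨0, 0⟩ kp && (Nat.blt 0 wl || Sg.le (Sg.ofN (Nat.mul kw.posPart tw)) (kp.mul (Sg.ofN (Nat.add 16777216 dd))))

/-- A piece in `υ`: its upper end and the packed multipliers. -/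
structure VP where
  top : Bool
  ridge : Bool
  hi : Sg
  mu : ℕ

/-- A range of `w`: its upper end, the line below the logarithm and the pieces in `υ`. -/
structure WP where
  bp : Bp
  inv : ℕ
  off : ℕ
  vs : List VP

/-- The extra of the deficit. -/
def ddOf (c : Cell) (neg : Bool) (wh : ℕ) : ℕ :=
  cond neg (ipLo c) (Nat.div (Nat.mul (ipLo c) 16777216) wh)

/-- The share of the excess; `su` bounds the root of `w` below one. -/
def twOf (c : Cell) (neg : Bool) (wh su : ℕ) : ℕ :=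
  Nat.add (cond neg (cdiv (Nat.mul su 16777216) (Nat.add su 16777216))
    (cdiv (Nat.mul wh 16777216) (Nat.add wh 16777216))) (cdiv (ipUp c) 2)

/-- The share of the quadratic deficit. -/
def psiOf (c : Cell) (neg : Bool) (wh : ℕ) : ℕ :=
  cond neg 16777216 (Nat.sub 16777216
    (cdiv (Nat.mul (Nat.sub wh 16777216) (cdiv (16777216 * 16777216) (Nat.sub 16777216 c.E1))) 16777216))

/-- The sign of a range, its ends in `w`, and whether they are usable. -/
def withW {α : Type} (c : Cell) (E : BEnv) (scap wcap : ℕ) (lo : Bp) (W : WP) (k : Bool → WEnv → α) : α :=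
  forceN (lo.wLo c) fun wl => forceN (W.bp.wHi c) fun wh0 =>
  let neg := Nat.ble wh0 16777216
  forceN (cond neg wh0 (nmax 16777216 (nmin wh0 wcap))) fun wh =>
  forceN (ddOf c neg wh) fun dd => forceN (twOf c neg wh W.inv) fun tw =>
  (lo.sLo c).force fun slo =>
  (W.bp.sHi c).force fun shi0 =>
  let useCap := !neg && (!W.bp.hiFin c || (Sg.le (Sg.ofN scap) shi0.l && Sg.le (Sg.ofN scap) shi0.h))
  (cond useCap (C2.mk (Sg.ofN scap) (Sg.ofN scap)) shi0).force fun shi =>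
  (sMin slo.l slo.h).force fun s0 =>
  (cond (neg || useCap) (sMax shi.l shi.h) (sMin (sMax shi.l shi.h) (Sg.ofN scap))).force fun s1 =>
  forceN (psiOf c neg wh) fun psi =>
  (C4.mk (kapAt E.KpL.ll E.KwH.ll dd tw wl wh) (kapAt E.KpL.hl E.KwH.hl dd tw wl wh)
    (kapAt E.KpL.lh E.KwH.lh dd tw wl wh) (kapAt E.KpL.hh E.KwH.hh dd tw wl wh)).force fun kap =>
  (C2.mk (Sg.ofN (Nat.div (Nat.mul (Nat.mul W.off 16777216) (Nat.add c.ec c.et)) (Nat.mul c.ec c.ec)))
    (Sg.ofN (Nat.div (Nat.mul (Nat.mul W.off 16777216) (Nat.sub c.ec c.et)) (Nat.mul c.ec c.ec)))).force fun off =>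
  k ((neg || Nat.ble 16777216 wl) && Nat.blt 0 wh &&
      kapOK E.KpL.ll E.KwH.ll dd tw wl && kapOK E.KpL.hl E.KwH.hl dd tw wl &&
      kapOK E.KpL.lh E.KwH.lh dd tw wl && kapOK E.KpL.hh E.KwH.hh dd tw wl &&
      cond neg (Nat.ble (Nat.mul wh 16777216) (Nat.mul W.inv W.inv))
        (lineOK W.inv W.off (nmax 16777216 wl) && lineOK W.inv W.off wh))
    ⟨neg, wl, wh, lo.loFin c, slo, s0, !neg || W.bp.hiFin c, shi, s1, psi, kap, W.inv, off⟩

/-- The bounds on `H = k G` at a node, for both ends of `ε` and of `k`. -/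
structure Node where
  x : ℕ
  l0 : ℕ
  h0 : ℕ
  l1 : ℕ
  h1 : ℕ

/-- The bound at an end of `ε` and `k`. -/
def Node.H (n : Node) (b kk : Bool) : ℕ := cond kk (cond b n.h1 n.l1) (cond b n.h0 n.l0)

/-- A range of `υ`. -/
structure VEnv where
  neg : Bool
  loF : Bool
  v0 : Sg
  hiF : Bool
  v1 : Sg
  ridge : Bool
  P0 : C4
  P1 : C4

/-- The corner values of the exponent of the ridge at `v`. -/
def withP {α : Type} (E : BEnv) (v : Sg) (k : Bool → C4 → α) : α :=
  ((afOne.scale 2 1).add ((AF.const v).mul E.eps)).force fun lin =>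
  ((AF.const v).mul lin).force fun m =>
  (m.mul E.hxm).force fun hq =>
  (m.mul E.e2xm).force fun u =>
  (sMax (sMax (u.hi false false) (u.hi true false)) (sMax (u.hi false true) (u.hi true true))).force fun um =>
  forceN (nmax 16777216 (cdiv (16777216 * 16777216) (Nat.sub 16777216 um.posPart))) fun rec' =>
  (hq.mul (afOne.add (u.scale rec' (2 * 16777216)))).force fun pp => pp.hi4.force fun P =>
  k (Nat.blt um.posPart 16777216) P

/-- The weight of a slot in the packed multipliers. -/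
def slot (mu i : ℕ) : ℕ := Nat.mul 16 (Nat.mod (Nat.shiftRight mu (Nat.mul 32 i)) 4294967296)

/-- A field of the multipliers. -/
def field (mu j : ℕ) : C4 :=
  ⟨Sg.ofN (slot mu (4 * j)), Sg.ofN (slot mu (4 * j + 1)), Sg.ofN (slot mu (4 * j + 2)),
    Sg.ofN (slot mu (4 * j + 3))⟩

/-- The multipliers of a piece. -/
structure Mult where
  band : C4
  ridge : C4
  lo : C4
  hi : C4
  vlo : C4
  vhi : C4
  qs : C4
  qv : C4
  b00 : C4
  b01 : C4
  b10 : C4
  b11 : C4

/-- Reads the multipliers. -/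
def withMult {α : Type} (mu : ℕ) (k : Mult → α) : α :=
  (field mu 0).force fun band => (field mu 1).force fun ridge => (field mu 2).force fun lo =>
  (field mu 3).force fun hi => (field mu 4).force fun vlo => (field mu 5).force fun vhi =>
  (field mu 6).force fun qs => (field mu 7).force fun qv => (field mu 8).force fun b00 =>
  (field mu 9).force fun b01 => (field mu 10).force fun b10 => (field mu 11).force fun b11 =>
  k ⟨band, ridge, lo, hi, vlo, vhi, qs, qv, b00, b01, b10, b11⟩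

/-- All four values vanish. -/
def C4.isZero (f : C4) : Bool :=
  Nat.beq (Nat.add (Nat.add f.ll.pos f.hl.pos) (Nat.add f.lh.pos f.hh.pos)) 0

/-- The multipliers only use constraints that exist. -/
def multOK (W : WEnv) (V : VEnv) (bandF : Bool) (M : Mult) : Bool :=
  (bandF || M.band.isZero) && (V.ridge || M.ridge.isZero) &&
  (W.sloF || (M.lo.isZero && M.qs.isZero && M.b00.isZero && M.b01.isZero)) &&
  (W.shiF || (M.hi.isZero && M.qs.isZero && M.b10.isZero && M.b11.isZero)) &&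
  (V.loF || (M.vlo.isZero && M.qv.isZero && M.b00.isZero && M.b10.isZero)) &&
  (V.hiF || (M.vhi.isZero && M.qv.isZero && M.b01.isZero && M.b11.isZero))

/-- The constants of the band and of the ridge at an end of `k`. -/
structure KEnv where
  band : C4
  ridge : C2

/-- Computes the constants at an end of `k`. -/
def withK {α : Type} (c : Cell) (x0 x1 K : ℕ) (k : KEnv → α) : α :=
  forceN (cdiv (Nat.mul K c.gam) (nodeX x0)) fun A0 => forceN (cdiv (Nat.mul K c.gam) (nodeX x1)) fun A1 =>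
  forceN (Nat.div (Nat.mul (Nat.mul K c.gam) c.E0) (Nat.mul 16777216 (Nat.add 16777216 c.E0))) fun B0 =>
  forceN (Nat.div (Nat.mul (Nat.mul K c.gam) c.E1) (Nat.mul 16777216 (Nat.add 16777216 c.E1))) fun B1 =>
  forceN (cdiv (Nat.mul K (Nat.sub 16777216 c.E0)) 16777216) fun R0 =>
  forceN (cdiv (Nat.mul K (Nat.sub 16777216 c.E1)) 16777216) fun R1 =>
  k ⟨⟨⟨A0, B0⟩, ⟨A1, B0⟩, ⟨A0, B1⟩, ⟨A1, B1⟩⟩, ⟨Sg.ofN R0, Sg.ofN R1⟩⟩

/-- The products of two values, the negative part. -/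
def negMul (x y : Sg) : ℕ := (x.mul y).negPart

/-- The loss of interpolating a product along both edges. -/
def covLoss (m : C4) (gs gt : Sg) : ℕ :=
  Nat.add (nmax (negMul (m.hl.sub m.ll) gs) (negMul (m.hh.sub m.lh) gs))
    (nmax (negMul (m.lh.sub m.ll) gt) (negMul (m.hh.sub m.hl) gt))

/-- The loss of interpolation at an end of `k`, at the scale `U ^ 3`. -/
def penalty (W : WEnv) (V : VEnv) (K : KEnv) (M : Mult) : ℕ :=
  let dv := V.v1.sub V.v0
  let dt := (K.ridge.h.sub W.off.h).sub (K.ridge.l.sub W.off.l)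
  let p0 := covLoss M.ridge (dv.mul (V.P0.hl.sub V.P0.ll)) (dv.mul (dt.add (V.P0.lh.sub V.P0.ll)))
  let p1 := covLoss M.ridge (dv.mul (V.P1.hl.sub V.P1.ll)) (dv.mul (dt.add (V.P1.lh.sub V.P1.ll)))
  cdiv (Nat.add (Nat.mul 16777216 (Nat.add (Nat.add (covLoss M.lo ⟨0, 0⟩ (W.slo.l.sub W.slo.h))
    (covLoss M.hi ⟨0, 0⟩ (W.shi.h.sub W.shi.l)))
    (covLoss M.band (K.band.hl.sub K.band.ll) (K.band.lh.sub K.band.ll))))
    (cond M.ridge.isZero 0 (nmax p0 p1))) 4

/-- The quadratic at a corner, at the scale `U ^ 3`, without the parts that depend on `k`. -/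
structure Poly where
  c : Sg
  a : Sg
  b : Sg
  A : Sg
  B : Sg
  C : Sg

/-- `U` as a multiplier. -/
def sU : Sg := Sg.ofN 16777216

/-- `U ^ 2` as a multiplier. -/
def sUU : Sg := Sg.ofN (16777216 * 16777216)

/-- The quadratic at a corner. -/
def polyAt (E : BEnv) (W : WEnv) (V : VEnv) (M : Mult) (a b : Bool) : Poly :=
  let rn := cond W.neg (E.RnL.get a b) (E.RnH.get a b)
  let l := cond V.neg (E.LL.get a b) (E.LH.get a b)
  let cn := cond (Bool.xor W.neg V.neg) (E.CL.get a b) (E.CH.get a b)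
  let lo := M.lo.get a b
  let hi := M.hi.get a b
  let rg := M.ridge.get a b
  let dv := V.v1.sub V.v0
  let qs := M.qs.get a b
  let qv := M.qv.get a b
  let b00 := M.b00.get a b
  let b01 := M.b01.get a b
  let b10 := M.b10.get a b
  let b11 := M.b11.get a b
  ⟨((((((hi.mul (W.shi.get b)).sub (lo.mul (W.slo.get b))).add
        (((M.vhi.get a b).mul V.v1).sub ((M.vlo.get a b).mul V.v0))).mul sU).add
      (rg.mul (((V.P0.get a b).mul V.v1).sub (((V.P1.get a b).mul V.v0).add (dv.mul (W.off.get b)))))).sub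
      (((qs.mul W.s0).mul W.s1).add ((qv.mul V.v0).mul V.v1))).add
      ((((b00.mul W.s0).mul V.v0).add ((b11.mul W.s1).mul V.v1)).sub
        (((b01.mul W.s0).mul V.v1).add ((b10.mul W.s1).mul V.v0))),
    (((rn.add (lo.sub hi)).mul sUU).sub (rg.mul (dv.mul (Sg.ofN W.inv)))).add
      ((((qs.mul (W.s0.add W.s1)).add (b01.mul V.v1)).add (b10.mul V.v0)).sub
        ((b00.mul V.v0).add (b11.mul V.v1)) |>.mul sU),
    ((((l.add (M.band.get a b)).add ((M.vlo.get a b).sub (M.vhi.get a b))).mul sUU).add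
      ((rg.mul ((V.P1.get a b).sub (V.P0.get a b))).mul sU)).add
      ((((qv.mul (V.v0.add V.v1)).add (b01.mul W.s0)).add (b10.mul W.s1)).sub
        ((b00.mul W.s0).add (b11.mul W.s1)) |>.mul sU),
    ((W.kap.get a b).add qs).neg'.mul sUU,
    ((cn.add (b00.add b11)).sub (b01.add b10)).mul sUU,
    (((E.QH.get a b).mul sU).sub ((Sg.ofN W.psi).mul (E.EA.get a b))).mul sU |>.sub (qv.mul sUU)⟩

/-- The constant of the quadratic at an end of `k`. -/
def constAt (pc : Sg) (V : VEnv) (K : KEnv) (M : Mult) (a b : Bool) : Sg :=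
  pc.add ((((M.band.get a b).mul (K.band.get a b)).mul sU).add
    ((M.ridge.get a b).mul ((V.v1.sub V.v0).mul (K.ridge.get b))))

/-- The quadratic stays below the bounds at a corner. -/
def cornerOK (E : BEnv) (W : WEnv) (V : VEnv) (k0 k1 : KEnv) (d0 d1 : ℕ) (M : Mult)
    (H : Bool → ℕ) (a b : Bool) : Bool :=
  let P := polyAt E W V M a b
  P.c.norm.force fun pc => P.a.norm.force fun pa => P.b.norm.force fun pb => P.A.norm.force fun pA =>
  P.B.norm.force fun pB => P.C.norm.force fun pC =>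
  (((pA.mul pC).smul 4).sub (pB.mul pB)).norm.force fun det =>
  ((((pB.mul pa).mul pb).sub (((pC.mul pa).mul pa).add ((pA.mul pb).mul pb)))).norm.force fun N =>
  ((constAt pc V k0 M a b).add ((Sg.ofN d0).sub (Sg.ofN (Nat.mul (H false) (16777216 * 16777216))))).norm.force fun c0 =>
  ((constAt pc V k1 M a b).add ((Sg.ofN d1).sub (Sg.ofN (Nat.mul (H true) (16777216 * 16777216))))).norm.force fun c1 =>
  Sg.lt pA ⟨0, 0⟩ && Sg.lt ⟨0, 0⟩ det &&
    Sg.le ((c0.mul det).add N) ⟨0, 0⟩ && Sg.le ((c1.mul det).add N) ⟨0, 0⟩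

/-- One piece. -/
def pieceOK (E : BEnv) (W : WEnv) (V : VEnv) (bandF : Bool) (k0 k1 : KEnv) (n0 n1 : Node) (mu : ℕ) :
    Bool :=
  withMult mu fun M =>
  forceN (penalty W V k0 M) fun d0 => forceN (penalty W V k1 M) fun d1 =>
  multOK W V bandF M &&
  cornerOK E W V k0 k1 d0 d1 M (fun kk => n0.H false kk) false false &&
  cornerOK E W V k0 k1 d0 d1 M (fun kk => n1.H false kk) true false &&
  cornerOK E W V k0 k1 d0 d1 M (fun kk => n0.H true kk) false true &&
  cornerOK E W V k0 k1 d0 d1 M (fun kk => n1.H true kk) true true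

/-- The first point where `υ` can no longer be. -/
def topOK (c : Cell) (x0 : ℕ) (hi : Sg) : Bool :=
  Nat.ble ((16777216 * 16777216 * 16777216 * 16777216 * 16777216) * (Nat.add 16777216 c.E0))
    (Nat.mul (Nat.mul (Nat.add (16777216 * 16777216) (Nat.mul hi.posPart c.E0))
      (Nat.add (16777216 * 16777216) (Nat.mul hi.posPart c.E0))) (Nat.mul (nodeX x0) c.E0))

/-- What the pieces of a range share. -/
structure Ctx where
  E : BEnv
  W : WEnv
  bandF : Bool
  k0 : KEnv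
  k1 : KEnv
  n0 : Node
  n1 : Node

/-- One piece, with its ridge. -/
def vpOK (X : Ctx) (loF : Bool) (lo : Sg) (v : VP) : Bool :=
  let hiF := !v.top
  let neg := hiF && Sg.le v.hi ⟨0, 0⟩
  (neg || (loF && Sg.le ⟨0, 0⟩ lo)) &&
  cond v.ridge
    (loF && hiF && !X.W.neg && Sg.lt lo v.hi && withP X.E lo fun ok0 P0 => withP X.E v.hi fun ok1 P1 =>
      ok0 && ok1 && pieceOK X.E X.W ⟨neg, loF, lo, hiF, v.hi, true, P0, P1⟩ X.bandF X.k0 X.k1 X.n0 X.n1 v.mu)
    (pieceOK X.E X.W ⟨neg, loF, lo, hiF, v.hi, false, ⟨⟨0, 0⟩, ⟨0, 0⟩, ⟨0, 0⟩, ⟨0, 0⟩⟩,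
      ⟨⟨0, 0⟩, ⟨0, 0⟩, ⟨0, 0⟩, ⟨0, 0⟩⟩⟩ X.bandF X.k0 X.k1 X.n0 X.n1 v.mu)

/-- The pieces cover the range of `υ`. -/
def vsOK (c : Cell) (X : Ctx) : Bool → Sg → List VP → Bool
  | _, _, [] => false
  | loF, lo, [v] =>
    (v.top || (Sg.le ⟨0, 0⟩ v.hi && topOK c X.n0.x v.hi)) && vpOK X loF lo v
  | loF, lo, v :: rest => !v.top && vpOK X loF lo v && vsOK c X true v.hi rest

/-- A box: the hints of the caps, the bound behind `y` and the ranges of `w`. -/
structure Box where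
  n0 : Node
  n1 : Node
  xu : ℕ
  scap : ℕ
  wcap : ℕ
  vF : Bool
  vLo : ℕ
  ws : List WP

/-- The ranges cover `w`. -/
def wsOK (c : Cell) (E : BEnv) (B : Box) (k0 k1 : KEnv) (scap wcap : ℕ) : Bp → List WP → Bool
  | _, [] => false
  | lo, [W] =>
    cond W.bp.isW (Nat.ble wcap W.bp.val.posPart) (Sg.le (Sg.ofN scap) W.bp.val) &&
    withW c E scap wcap lo W fun ok WE => ok &&
      vsOK c ⟨E, WE, Nat.blt 0 B.n0.x, k0, k1, B.n0, B.n1⟩ B.vF ⟨0, B.vLo⟩ W.vs
  | lo, W :: rest =>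
    (withW c E scap wcap lo W fun ok WE => ok &&
      vsOK c ⟨E, WE, Nat.blt 0 B.n0.x, k0, k1, B.n0, B.n1⟩ B.vF ⟨0, B.vLo⟩ W.vs) &&
    wsOK c E B k0 k1 scap wcap W.bp rest

/-- One box. -/
def boxOK (c : Cell) (e : EEnv) (B : Box) : Bool :=
  capOK c B.n0.x B.n1.x B.xu && bOK c e B.n0.x B.n1.x &&
  (!B.vF || (Nat.blt 0 B.n0.x && Nat.ble (cdiv (Nat.mul c.K1 c.gam) (nodeX B.n0.x)) B.vLo) ||
    (Nat.blt 0 c.E0 && Nat.ble (cdiv (16777216 * 16777216) c.E0) B.vLo)) &&
  forceN (capS c B.n1.x) fun s1 =>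
  forceN (cond (Nat.beq c.E0 0 || Nat.beq B.xu 0) s1 (nmin s1 (scapUp c B.n0.x B.n1.x B.xu 8))) fun scap =>
  forceN (cond (Nat.beq B.xu 0) (Nat.add 16777216 (cdiv (Nat.mul scap c.E1) 16777216))
    (nmin (Nat.add 16777216 (cdiv (Nat.mul scap c.E1) 16777216))
      (capW c B.n0.x B.n1.x B.xu c.E0 c.E1))) fun wcap =>
  Nat.ble scap B.scap && Nat.ble wcap B.wcap &&
  withK c B.n0.x B.n1.x c.K0 fun k0 => withK c B.n0.x B.n1.x c.K1 fun k1 =>
  withBEnv c e B.n0.x B.n1.x fun E =>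
  wsOK c E B k0 k1 B.scap B.wcap ⟨true, ⟨0, 0⟩⟩ B.ws

/-- A list of boxes. -/
def boxesOK (c : Cell) (l : List Box) : Bool :=
  c.ok && eOK c && withEEnv c fun e => l.all fun B => boxOK c e B

end Vale.Agent.P237.All.Transport.Mid
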