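import Vale.Agent.P237.All.Mid.BoxSound

/-!
P237, cell `k` in `[4/5, 5/2]`: the ranges of a box cover, and the bound on a box.
-/

noncomputable section

open Real Set

namespace Vale.Agent.P237.All.Transport.Mid

variable {c : Cell} {E : BEnv} {x0 x1 : ℕ} {p : ℕ} {k y t r lam a b l : ℝ}

/-- The constants at an end of `k`. -/
def kEnv (c : Cell) (x0 x1 K : ℕ) : KEnv := withK c x0 x1 K id

theorem withK_eq {α : Type} (x0 x1 K : ℕ) (f : KEnv → α) : withK c x0 x1 K f = f (kEnv c x0 x1 K) := by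
  simp only [kEnv, withK, forceN_eq, id]

theorem kEnv_aff (x0 x1 K : ℕ) : (kEnv c x0 x1 K).Aff := by
  simp only [KEnv.Aff, kEnv, withK, forceN_eq, id, v_mk]; ring

theorem cast_bool_mul (x : ℕ) : (nodeX x : ℝ) = 4 * ((x : ℝ) * x) := by
  simp [nodeX]

theorem Loc.X_bounds (h : Loc c E x0 x1 p k y t r lam a b l) (hx : x0 ≤ x1) :
    XP p y ∈ Icc (rn (nodeX x0)) (rn (nodeX x1)) := by
  have h01 : (nodeX x0 : ℝ) ≤ nodeX x1 := by
    rw [cast_bool_mul, cast_bool_mul]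
    have : (x0 : ℝ) ≤ x1 := Nat.cast_le.2 hx
    gcongr
  simp only [rn, mem_Icc]
  rw [div_le_iff₀ (by norm_num), le_div_iff₀ (by norm_num), h.hX]
  have a0 := mul_le_mul_of_nonneg_left h01 h.ha.1
  have a1 := mul_le_mul_of_nonneg_left h01 (sub_nonneg.2 h.ha.2)
  constructor <;> linarith

theorem cdiv_nodeX {N x : ℕ} (hx : 0 < x) : (N : ℝ) / nodeX x ≤ (cdiv N (nodeX x) : ℕ) :=
  cdiv_ge _ (by simp only [nodeX, Nat.mul_eq]; positivity)

theorem bandB_le (K g E : ℕ) {N : ℕ} (hN : (N : ℝ) = 16777216) :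
    ((Nat.div (Nat.mul (Nat.mul K g) E) (Nat.mul N (Nat.add N E)) : ℕ) : ℝ) ≤
      rn K * rn g * (rn E / (1 + rn E)) * 16777216 := by
  refine (cast_div_le _ _).trans (le_of_eq ?_)
  simp only [Nat.mul_eq, Nat.add_eq, rn]
  push_cast
  rw [hN]
  have : (16777216 : ℝ) + (E : ℝ) ≠ 0 := by positivity
  field_simp

theorem iA_chord {e0 e1 ε b : ℝ} (he0 : 0 ≤ e0) (he : e0 ≤ e1) (hb : b ∈ Icc (0 : ℝ) 1)
    (h : ε = (1 - b) * e0 + b * e1) :
    (1 - b) * (e0 / (1 + e0)) + b * (e1 / (1 + e1)) ≤ iA ε := by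
  have he1 : 0 ≤ e1 := he0.trans he
  have hε : 0 ≤ ε := by
    rw [h]; exact add_nonneg (mul_nonneg (sub_nonneg.2 hb.2) he0) (mul_nonneg hb.1 he1)
  have c := chord_ge (ε := 1 + ε) (e0 := (1 + e0) * 16777216) (e1 := (1 + e1) * 16777216) (by positivity)
    (by linarith) hb (by rw [h]; ring)
  have e2 : ((1 - b) / ((1 + e0) * 16777216) + b / ((1 + e1) * 16777216)) * 16777216 =
      (1 - b) / (1 + e0) + b / (1 + e1) := by field_simp
  rw [e2] at c
  have e3 : ∀ x : ℝ, 0 ≤ x → x / (1 + x) = 1 - 1 / (1 + x) := by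
    intro x hx; field_simp; ring
  rw [iA, e3 ε hε, e3 e0 he0, e3 e1 he1]
  have e4 : (1 - b) * (1 - 1 / (1 + e0)) + b * (1 - 1 / (1 + e1)) =
      1 - ((1 - b) / (1 + e0) + b / (1 + e1)) := by ring
  linarith

theorem Loc.band_mix (h : Loc c E x0 x1 p k y t r lam a b l) (h0 : 0 < x0) (hx : x0 ≤ x1) :
    0 ≤ mix l fun kk => bandG (cond kk (kEnv c x0 x1 c.K1) (kEnv c x0 x1 c.K0)) a b
      (ups p y t * 16777216) := by
  obtain ⟨hb, -⟩ := band h.cp.pt h.cp.k0 h.cp.k2 h.cp.gamma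
  have hn0 : (0 : ℝ) < nodeX x0 := by
    rw [cast_bool_mul]; have : (0 : ℝ) < x0 := Nat.cast_pos.2 h0; positivity
  have hn : (nodeX x0 : ℝ) ≤ nodeX x1 := by
    rw [cast_bool_mul, cast_bool_mul]
    have : (x0 : ℝ) ≤ x1 := Nat.cast_le.2 hx
    gcongr
  have hX := chord_ge hn0 hn h.ha h.hX
  have hE : rn c.E0 ≤ rn c.E1 := rn_le (Nat.le_trans (Nat.sub_le _ _) (Nat.le_add_right _ _))
  have hε : epsP p = (1 - b) * rn c.E0 + b * rn c.E1 := by
    have := h.eps_chord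
    simp only [rn]; linarith
  have hA := iA_chord (rn_nonneg c.E0) hE h.hb hε
  have hg := h.cp.k0
  have hR := rn_nonneg c.gam
  have hk : k = (1 - l) * rn c.K0 + l * rn c.K1 := by
    have := h.hk
    simp only [rn]; linarith
  have hb' : -ups p y t ≤ k * rn c.gam * (((1 - a) / nodeX x0 + a / nodeX x1) * 16777216 -
      ((1 - b) * (rn c.E0 / (1 + rn c.E0)) + b * (rn c.E1 / (1 + rn c.E1)))) :=
    hb.trans (mul_le_mul_of_nonneg_left (sub_le_sub hX hA) (mul_nonneg hg hR))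
  have key : ∀ K : ℕ, rn K * rn c.gam * (((1 - a) / nodeX x0 + a / nodeX x1) * 16777216 -
      ((1 - b) * (rn c.E0 / (1 + rn c.E0)) + b * (rn c.E1 / (1 + rn c.E1)))) * 16777216 ≤
      (kEnv c x0 x1 K).band.ll.v + a * ((kEnv c x0 x1 K).band.hl.v - (kEnv c x0 x1 K).band.ll.v) +
        b * ((kEnv c x0 x1 K).band.lh.v - (kEnv c x0 x1 K).band.ll.v) := by
    intro K
    simp only [kEnv, withK, forceN_eq, id, v_mk]
    have A0 := mul_le_mul_of_nonneg_left (cdiv_nodeX (N := Nat.mul K c.gam) h0) (sub_nonneg.2 h.ha.2)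
    have A1 := mul_le_mul_of_nonneg_left (cdiv_nodeX (N := Nat.mul K c.gam) (h0.trans_le hx)) h.ha.1
    have B0 := mul_le_mul_of_nonneg_left (bandB_le K c.gam c.E0 (N := 16777216) Nat.cast_ofNat)
      (sub_nonneg.2 h.hb.2)
    have B1 := mul_le_mul_of_nonneg_left (bandB_le K c.gam c.E1 (N := 16777216) Nat.cast_ofNat) h.hb.1
    simp only [Nat.mul_eq, Nat.cast_mul] at A0 A1
    simp only [Nat.mul_eq, Nat.add_eq] at B0 B1 ⊢
    refine le_trans (le_of_eq ?_) (show (1 - a) * ((K : ℝ) * c.gam / nodeX x0) +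
        a * ((K : ℝ) * c.gam / nodeX x1) -
        ((1 - b) * (rn K * rn c.gam * (rn c.E0 / (1 + rn c.E0)) * 16777216) +
          b * (rn K * rn c.gam * (rn c.E1 / (1 + rn c.E1)) * 16777216)) ≤ _ by linarith)
    simp only [rn]; ring
  have k0 := mul_le_mul_of_nonneg_left (key c.K0) (sub_nonneg.2 h.hl.2)
  have k1 := mul_le_mul_of_nonneg_left (key c.K1) h.hl.1
  rw [hk] at hb'
  simp only [mix, bandG, cond_true, cond_false]
  linarith

theorem Loc.R_mix (h : Loc c E x0 x1 p k y t r lam a b l) :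
    k * (1 - epsP p) * 16777216 ≤
      mix l fun kk => int2 b (cond kk (kEnv c x0 x1 c.K1) (kEnv c x0 x1 c.K0)).ridge := by
  have hE1 : c.E1 ≤ 559241 := h.cp.hE
  have key : ∀ K E' : ℕ, E' ≤ 559241 → ∀ N : ℕ, (N : ℝ) = 16777216 → 559241 ≤ N →
      rn K * (1 - rn E') * 16777216 ≤ ((cdiv (Nat.mul K (Nat.sub N E')) N : ℕ) : ℝ) := by
    intro K E' hE' N hN hN'
    refine le_trans (le_of_eq ?_) (cdiv_ge _ (by omega))
    simp only [Nat.mul_eq, Nat.sub_eq, rn]
    rw [Nat.cast_mul, Nat.cast_sub (hE'.trans hN'), hN]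
    ring
  have hE0 : c.E0 ≤ 559241 := le_trans (Nat.le_trans (Nat.sub_le _ _) (Nat.le_add_right _ _)) hE1
  have p00 := key c.K0 c.E0 hE0 16777216 Nat.cast_ofNat (by norm_num)
  have p01 := key c.K0 c.E1 hE1 16777216 Nat.cast_ofNat (by norm_num)
  have p10 := key c.K1 c.E0 hE0 16777216 Nat.cast_ofNat (by norm_num)
  have p11 := key c.K1 c.E1 hE1 16777216 Nat.cast_ofNat (by norm_num)
  have e0 := int2_mono h.hb p00 p01
  have e1 := int2_mono h.hb p10 p11
  have m0 := mul_le_mul_of_nonneg_left e0 (sub_nonneg.2 h.hl.2)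
  have m1 := mul_le_mul_of_nonneg_left e1 h.hl.1
  simp only [mix, cond_true, cond_false, int2, kEnv, withK, forceN_eq, id, Sg.ofN_v]
  refine le_trans (le_of_eq ?_) (add_le_add m0 m1)
  rw [show k = (1 - l) * rn c.K0 + l * rn c.K1 by have := h.hk; simp only [rn]; linarith,
    show epsP p = (1 - b) * rn c.E0 + b * rn c.E1 by have := h.eps_chord; simp only [rn]; linarith]
  ring

/-- The exponent of the ridge at `v`, with whether it exists. -/
def pEnv (E : BEnv) (v : Sg) : Bool × C4 := withP E v fun ok P => (ok, P)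

theorem withP_eq {α : Type} (E : BEnv) (v : Sg) (f : Bool → C4 → α) :
    withP E v f = f (pEnv E v).1 (pEnv E v).2 := by
  simp only [pEnv, withP, AF.force_eq, Sg.force_eq, forceN_eq, C4.force_eq]

theorem pEnv_aff (E : BEnv) (v : Sg) :
    (pEnv E v).2.hh.v = (pEnv E v).2.hl.v + (pEnv E v).2.lh.v - (pEnv E v).2.ll.v := by
  simp only [pEnv, withP, AF.force_eq, Sg.force_eq, forceN_eq, C4.force_eq, AF.hi4, AF.hi, Sg.norm_v,
    Sg.add_v, Sg.neg_v, cond_true, cond_false]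
  ring

theorem recip_ge {N P : ℕ} (hN : (N : ℝ) = 16777216) (hP : P < N) {u : ℝ} (hu : u * 16777216 ≤ P) :
    1 ≤ rn (nmax N (cdiv (N * N) (Nat.sub N P))) ∧
      1 ≤ rn (nmax N (cdiv (N * N) (Nat.sub N P))) * (1 - u) := by
  set R := nmax N (cdiv (N * N) (Nat.sub N P))
  have h1 : 1 ≤ rn R := by
    rw [rn, le_div_iff₀ (by norm_num), one_mul, ← hN]
    exact nmax_ge_left _ _
  refine ⟨h1, ?_⟩
  have hP' : (P : ℝ) < 16777216 := by rw [← hN]; exact Nat.cast_lt.2 hP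
  have h2 : 16777216 * 16777216 / (16777216 - (P : ℝ)) ≤ (R : ℝ) := by
    refine le_trans ?_ (nmax_ge_right _ _)
    refine le_trans (le_of_eq ?_) (cdiv_ge _ (Nat.sub_pos_of_lt hP))
    simp only [Nat.sub_eq]
    rw [Nat.cast_mul, Nat.cast_sub hP.le, hN]
  rw [div_le_iff₀ (by linarith)] at h2
  have h3 := mul_le_mul_of_nonneg_left hu (Nat.cast_nonneg (α := ℝ) R)
  simp only [rn]
  linarith

theorem Loc.withP_sound (h : Loc c E x0 x1 p k y t r lam a b l) {v : Sg} (hok : (pEnv E v).1 = true) :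
    -1 < y * (1 + v.v / 16777216 * epsP p) ∧ y * (1 + v.v / 16777216 * epsP p) < 1 ∧
      phi p y (v.v / 16777216) ≤ interp a b (fun i j => ((pEnv E v).2.get i j).v) / 16777216 := by
  have ha := h.ha
  have hb := h.hb
  have hS : |2 * a - 1| ≤ 1 := abs_le.2 ⟨by linarith [ha.1], by linarith [ha.2]⟩
  have hT : |2 * b - 1| ≤ 1 := abs_le.2 ⟨by linarith [hb.1], by linarith [hb.2]⟩
  have hv : (AF.const v).Has (2 * a - 1) (2 * b - 1) (v.v / 16777216) :=
    AF.has_const (by rw [cast_U]; ring)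
  have hlin := (has_one.scale hS hT 2 Nat.one_pos).add (hv.mul h.env.eps hS hT)
  have hm := hv.mul hlin hS hT
  have hq := hm.mul h.env.hxm hS hT
  have hu := hm.mul h.env.e2xm hS hT
  simp only [pEnv, withP, AF.force_eq, Sg.force_eq, forceN_eq, C4.force_eq] at hok ⊢
  simp only [Nat.blt_eq] at hok
  set m : AF := (AF.const v).mul ((afOne.scale 2 1).add ((AF.const v).mul E.eps))
  set uf : AF := m.mul E.e2xm
  set um := sMax (sMax (uf.hi false false) (uf.hi true false)) (sMax (uf.hi false true) (uf.hi true true))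
  obtain ⟨u0, hu0⟩ : ∃ u0 : ℝ, u0 = v.v / 16777216 * (1 * ((2 : ℕ) / (1 : ℕ) : ℝ) +
      v.v / 16777216 * epsP p) * (epsP p ^ 2 * (XP p y * MA (epsP p) (XP p y))) := ⟨_, rfl⟩
  rw [← hu0] at hu
  have hum : u0 * 16777216 ≤ um.posPart := by
    refine le_trans ?_ (Sg.le_posPart um)
    rw [← cast_U]
    refine le_trans hu.le_hi (le_trans (interp_mono ha hb (G := fun _ _ => um.v) fun i j => ?_)
      (le_of_eq (interp_const _)))
    obtain ⟨l1, l2⟩ := sMax_ge (sMax (uf.hi false false) (uf.hi true false))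
      (sMax (uf.hi false true) (uf.hi true true))
    obtain ⟨q1, q2⟩ := sMax_ge (uf.hi false false) (uf.hi true false)
    obtain ⟨q3, q4⟩ := sMax_ge (uf.hi false true) (uf.hi true true)
    cases i <;> cases j
    · exact q1.trans l1
    · exact q3.trans l2
    · exact q2.trans l1
    · exact q4.trans l2
  obtain ⟨r1, r2⟩ := recip_ge (N := 16777216) Nat.cast_ofNat hok hum
  have hu1 : u0 < 1 := by
    have : (um.posPart : ℝ) < 16777216 := by exact_mod_cast hok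
    linarith
  set rec := nmax 16777216 (cdiv (16777216 * 16777216) (Nat.sub 16777216 um.posPart))
  have hpp := (hq.mul (has_one.add (hu.scale hS hT rec (d := 2 * 16777216) (by norm_num))) hS hT).le_hi
  obtain ⟨g0, g1, g2⟩ := phi_le h.cp.pt.hy (v := v.v / 16777216) rfl (u := u0)
    (rec := rn rec) (by rw [hu0]; push_cast; ring) hu1 r1 r2
  refine ⟨g0, g1, g2.trans ?_⟩
  rw [le_div_iff₀ (by norm_num)]
  refine le_trans (le_of_eq ?_) (hpp.trans (interp_mono ha hb fun i j => ?_))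
  · rw [cast_U]; simp only [rn]; push_cast; ring
  · rw [AF.hi4_get]

theorem Loc.ridge_mix (h : Loc c E x0 x1 p k y t r lam a b l) {W : WEnv} {c2 : ℝ}
    (hW : WR c W p c2 lam y t r a b) (hneg : W.neg = false) {lo hi : Sg} (hlt : lo.v < hi.v)
    (hl : lo.v ≤ ups p y t * 16777216) (hh : ups p y t * 16777216 ≤ hi.v)
    (ok0 : (pEnv E lo).1 = true) (ok1 : (pEnv E hi).1 = true) (neg loF hiF : Bool) :
    0 ≤ mix l fun kk => ridgeG W ⟨neg, loF, lo, hiF, hi, true, (pEnv E lo).2, (pEnv E hi).2⟩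
      (cond kk (kEnv c x0 x1 c.K1) (kEnv c x0 x1 c.K0)) a b (sig p r) (ups p y t * 16777216) := by
  have s0 := h.withP_sound ok0
  have s1 := h.withP_sound ok1
  have a0 := pEnv_aff E lo
  have a1 := pEnv_aff E hi
  generalize (pEnv E lo).2 = P0 at s0 a0 ⊢
  generalize (pEnv E hi).2 = P1 at s1 a1 ⊢
  have hU : (0 : ℝ) < 16777216 := by norm_num
  have hs := ridge_secant h.cp.pt (div_lt_div_of_pos_right hlt hU)
    ⟨(div_le_iff₀ hU).2 hl, (le_div_iff₀ hU).2 hh⟩ s0 s1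
  have hline := mul_le_mul_of_nonneg_left (hW.line hneg) (sub_nonneg.2 hlt.le)
  have hR := mul_le_mul_of_nonneg_left h.R_mix (sub_nonneg.2 hlt.le)
  have hs' := mul_le_mul_of_nonneg_left hs (mul_nonneg hU.le hU.le)
  have e0 : interp a b (fun i j => (P0.get i j).v) =
      P0.ll.v + a * (P0.hl.v - P0.ll.v) + b * (P0.lh.v - P0.ll.v) := by
    simp only [interp, C4.get, cond_true, cond_false, a0]; ring
  have e1 : interp a b (fun i j => (P1.get i j).v) =
      P1.ll.v + a * (P1.hl.v - P1.ll.v) + b * (P1.lh.v - P1.ll.v) := by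
    simp only [interp, C4.get, cond_true, cond_false, a1]; ring
  rw [e0, e1] at hs'
  simp only [mix, cond_true, cond_false, int2] at hR hline ⊢
  simp only [ridgeG, ridge0, ridgeS, ridgeT]
  linarith

/-- What a range of a box gives. -/
def Good (n0 n1 : Node) (W : WEnv) (D e1 aX a1 W0 W1 ε X a b l σ υ : ℝ) : Prop :=
  quad (RnR D e1 aX ε X) (LR D aX a1 ε X) (CnR D W0 ε X)
      (interp a b (fun i j => (W.kap.get i j).v) / 16777216) (QbR D W0 W1 ε X (rn W.psi)) σ υ ≤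
    hVal n0 n1 a b l

theorem Loc.top_sound (h : Loc c E x0 x1 p k y t r lam a b l) (hx : x0 ≤ x1) {hi : Sg}
    (h0 : Sg.le ⟨0, 0⟩ hi = true) (hok : topOK c x0 hi = true) :
    ups p y t * 16777216 ≤ hi.v := by
  have hv : 0 ≤ hi.v := by have := Sg.le_iff h0; simpa [v_mk] using this
  have hpos : (hi.posPart : ℝ) = hi.v := by
    rw [Sg.posPart_def, Sg.v]
    have hle : hi.neg ≤ hi.pos := by
      have : (hi.neg : ℝ) ≤ hi.pos := by simp only [Sg.v] at hv; linarith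
      exact_mod_cast this
    rw [Nat.cast_sub hle]
  rw [← le_div_iff₀ (by norm_num)] 
  refine ups_lt h.cp.pt (div_nonneg hv (by norm_num)) ?_
  simp only [topOK, Nat.ble_eq] at hok
  have key : ∀ N E0 nx P : ℕ, (N : ℝ) = 16777216 →
      N * N * N * N * N * Nat.add N E0 ≤
        Nat.mul (Nat.mul (Nat.add (N * N) (Nat.mul P E0)) (Nat.add (N * N) (Nat.mul P E0))) (Nat.mul nx E0) →
      1 ≤ (1 + (P : ℝ) / 16777216 * rn E0) ^ 2 * (rn nx * (rn E0 / (1 + rn E0))) := by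
    intro N E0 nx P hN hle
    have h2 := (Nat.cast_le (α := ℝ)).2 hle
    simp only [Nat.mul_eq, Nat.add_eq, Nat.cast_mul, Nat.cast_add, hN] at h2
    have : (0 : ℝ) ≤ E0 := Nat.cast_nonneg _
    simp only [rn]
    rw [show (1 + (P : ℝ) / 16777216 * ((E0 : ℝ) / 16777216)) ^ 2 * ((nx : ℝ) / 16777216 *
        ((E0 : ℝ) / 16777216 / (1 + (E0 : ℝ) / 16777216))) =
        ((16777216 * 16777216 + (P : ℝ) * E0) * (16777216 * 16777216 + (P : ℝ) * E0)) * ((nx : ℝ) * E0) /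
          (16777216 * 16777216 * 16777216 * 16777216 * 16777216 * (16777216 + (E0 : ℝ))) by field_simp,
      one_le_div (by positivity)]
    exact h2
  have hk := key 16777216 c.E0 (nodeX x0) hi.posPart Nat.cast_ofNat (by simpa only [Nat.mul_eq] using hok)
  rw [hpos] at hk
  have hε := h.cp.hε.1
  have hX := (h.X_bounds hx).1
  have hE := rn_nonneg c.E0
  have hi' : rn c.E0 / (1 + rn c.E0) ≤ iA (epsP p) := by
    rw [iA, div_le_div_iff₀ (by linarith) (by linarith [eps_pos p])]; linarith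
  refine hk.trans (mul_le_mul (pow_le_pow_left₀ (by positivity)
    (add_le_add le_rfl (mul_le_mul_of_nonneg_left hε (by positivity))) 2)
    (mul_le_mul hX hi' (by positivity) ((rn_nonneg _).trans hX))
    (mul_nonneg (rn_nonneg _) (by positivity)) (sq_nonneg _))

theorem Loc.vp_sound (h : Loc c E x0 x1 p k y t r lam a b l) (hx : x0 ≤ x1) {W : WEnv} {c2 : ℝ}
    (hW : WR c W p c2 lam y t r a b) {n0 n1 : Node} (hn : n0.x = x0) {loF : Bool} {lo : Sg} {v : VP}
    (hlo : loF = true → lo.v ≤ ups p y t * 16777216)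
    (hhi : v.top = false → ups p y t * 16777216 ≤ v.hi.v)
    (hok : vpOK ⟨E, W, Nat.blt 0 n0.x, kEnv c x0 x1 c.K0, kEnv c x0 x1 c.K1, n0, n1⟩ loF lo v = true) :
    Good n0 n1 W (c.D.val (c.T p)) (c.e1.val (c.T p)) (c.sA.val (c.T p) (XP p y))
      (c.sA.der (c.T p) (XP p y)) (c.sW.val (c.T p) (XP p y)) (c.sW.der (c.T p) (XP p y)) (epsP p)
      (XP p y) a b l (sig p r) (ups p y t) := by
  simp only [vpOK, Bool.and_eq_true, Bool.or_eq_true] at hok
  obtain ⟨hsign, hpiece⟩ := hok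
  have hband : Nat.blt 0 n0.x = true → 0 ≤ mix l fun kk =>
      bandG (cond kk (kEnv c x0 x1 c.K1) (kEnv c x0 x1 c.K0)) a b (ups p y t * 16777216) := by
    intro hb
    rw [Nat.blt_eq, hn] at hb
    exact h.band_mix hb hx
  set neg := !v.top && Sg.le v.hi ⟨0, 0⟩ with hneg
  have hneg0 : neg = true → ups p y t ≤ 0 := by
    intro hn'
    rw [hneg, Bool.and_eq_true, Bool.not_eq_true'] at hn'
    have h1 := hhi hn'.1
    have h2 := Sg.le_iff hn'.2
    simp only [v_mk, Nat.cast_zero, sub_zero] at h2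
    linarith
  have hpos0 : neg = false → 0 ≤ ups p y t := by
    intro hn'
    rcases hsign with h1 | h1
    · rw [hneg] at hn'; simp [h1.1, h1.2] at hn'
    · obtain ⟨h2, h3⟩ := h1
      have h4 := hlo h2
      have h5 := Sg.le_iff h3
      simp only [v_mk, Nat.cast_zero, sub_zero] at h5
      linarith
  have hiF : (!v.top) = true → ups p y t * 16777216 ≤ v.hi.v := fun h' => hhi (by simpa using h')
  have z : (0 : ℝ) = 0 + 0 - 0 := by ring
  cases hr : v.ridge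
  · rw [hr, cond_false] at hpiece
    refine piece_sound (c := c) h.ha h.hb h.hl h.env hW ?_ (kEnv_aff _ _ _) (kEnv_aff _ _ _) hband hpiece
    exact ⟨hneg0, hpos0, hlo, hiF, fun hh => absurd hh (by simp), fun hh => absurd hh (by simp),
      by simp [v_mk], by simp [v_mk]⟩
  · rw [hr, cond_true] at hpiece
    simp only [withP_eq, Bool.and_eq_true, Bool.not_eq_true'] at hpiece
    obtain ⟨⟨⟨⟨hl1, ht⟩, hwn⟩, hlt⟩, ⟨ok0, ok1⟩, hp⟩ := hpiece
    have l1 := hlo hl1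
    have l2 := hhi ht
    have l0 := Sg.lt_iff hlt
    refine piece_sound (c := c) h.ha h.hb h.hl h.env hW ?_ (kEnv_aff _ _ _) (kEnv_aff _ _ _) hband hp
    exact ⟨hneg0, hpos0, hlo, hiF, fun _ => ⟨l0, l1, l2⟩,
      fun _ => h.ridge_mix hW hwn l0 l1 l2 ok0 ok1 _ _ _, pEnv_aff _ _, pEnv_aff _ _⟩

theorem Loc.vs_sound (h : Loc c E x0 x1 p k y t r lam a b l) (hx : x0 ≤ x1) {W : WEnv} {c2 : ℝ}
    (hW : WR c W p c2 lam y t r a b) {n0 n1 : Node} (hn : n0.x = x0) :
    ∀ (vs : List VP) (loF : Bool) (lo : Sg), (loF = true → lo.v ≤ ups p y t * 16777216) →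
    vsOK c ⟨E, W, Nat.blt 0 n0.x, kEnv c x0 x1 c.K0, kEnv c x0 x1 c.K1, n0, n1⟩ loF lo vs = true →
    Good n0 n1 W (c.D.val (c.T p)) (c.e1.val (c.T p)) (c.sA.val (c.T p) (XP p y))
      (c.sA.der (c.T p) (XP p y)) (c.sW.val (c.T p) (XP p y)) (c.sW.der (c.T p) (XP p y)) (epsP p)
      (XP p y) a b l (sig p r) (ups p y t)
  | [], _, _, _, hok => by simp [vsOK] at hok
  | [v], loF, lo, hlo, hok => by
    simp only [vsOK, Bool.and_eq_true, Bool.or_eq_true] at hok
    refine h.vp_sound hx hW hn hlo (fun ht => ?_) hok.2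
    rcases hok.1 with h1 | ⟨h1, h2⟩
    · rw [ht] at h1; exact absurd h1 (by simp)
    · rw [hn] at h2; exact h.top_sound hx h1 h2
  | v :: w :: rest, loF, lo, hlo, hok => by
    simp only [vsOK, Bool.and_eq_true, Bool.not_eq_true'] at hok
    rcases le_total (ups p y t * 16777216) v.hi.v with h1 | h1
    · exact h.vp_sound hx hW hn hlo (fun _ => h1) hok.1.2
    · exact Loc.vs_sound h hx hW hn (w :: rest) true v.hi (fun _ => h1) hok.2

theorem Loc.ws_sound (h : Loc c E x0 x1 p k y t r lam a b l) (hx : x0 ≤ x1) {c2 : ℝ} {B : Box}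
    (hn : B.n0.x = x0) {scap wcap : ℕ} (hs : sig p r * 16777216 ≤ scap)
    (hw : (r ^ p)⁻¹ * 16777216 ≤ wcap) (hv : B.vF = true → (Sg.mk 0 B.vLo).v ≤ ups p y t * 16777216) :
    ∀ (ws : List WP) (lo : Bp), Above lo (r ^ p)⁻¹ (sig p r) →
    wsOK c E B (kEnv c x0 x1 c.K0) (kEnv c x0 x1 c.K1) scap wcap lo ws = true →
    c.total p c2 lam y t r ≤ semi y ^ (p + 1) *
      (majZero p (1 / 2 - c.D.val (c.T p)) (c.D.val (c.T p)) c2 y + epsP p ^ 2 * hVal B.n0 B.n1 a b l) := by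
  have go : ∀ (lo : Bp) (W : WP), Above lo (r ^ p)⁻¹ (sig p r) → Below W.bp (r ^ p)⁻¹ (sig p r) →
      (withW c E scap wcap lo W fun ok WE => ok &&
        vsOK c ⟨E, WE, Nat.blt 0 B.n0.x, kEnv c x0 x1 c.K0, kEnv c x0 x1 c.K1, B.n0, B.n1⟩
          B.vF ⟨0, B.vLo⟩ W.vs) = true →
      c.total p c2 lam y t r ≤ semi y ^ (p + 1) *
        (majZero p (1 / 2 - c.D.val (c.T p)) (c.D.val (c.T p)) c2 y +
          epsP p ^ 2 * hVal B.n0 B.n1 a b l) := by
    intro lo W hlo hhi hok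
    rw [withW_eq, Bool.and_eq_true] at hok
    have hW := h.range (c2 := c2) hs (hw.trans (le_max_right _ _)) hlo hhi hok.1
    refine hW.major.trans (mul_le_mul_of_nonneg_left (add_le_add le_rfl
      (mul_le_mul_of_nonneg_left (h.vs_sound hx hW hn _ _ _ hv hok.2) (sq_nonneg _))) ?_)
    exact pow_nonneg (Real.sqrt_nonneg _) _
  intro ws
  induction ws with
  | nil => intro lo _ hok; simp [wsOK] at hok
  | cons W rest ih =>
    intro lo hlo hok
    cases rest with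
    | nil =>
      simp only [wsOK, Bool.and_eq_true] at hok
      refine go lo W hlo ?_ hok.2
      have h1 := hok.1
      unfold Below
      cases hW : W.bp.isW
      · rw [hW, cond_false] at h1
        rw [cond_false]
        have := Sg.le_iff h1
        rw [Sg.ofN_v] at this
        exact hs.trans this
      · rw [hW, cond_true, Nat.ble_eq] at h1
        rw [cond_true]
        exact hw.trans (Nat.cast_le.2 h1)
    | cons W' rest' =>
      simp only [wsOK, Bool.and_eq_true] at hok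
      rcases below_or_above W.bp (w := (r ^ p)⁻¹) (sig p r) with hb | hb
      · exact go lo W hlo hb hok.1
      · exact ih W.bp hb hok.2

/-- The conditions on a cell. -/
theorem cell_ok {c : Cell} (h : c.ok = true) :
    0 < c.ec ∧ c.et ≤ c.ec ∧ 0 < c.et ∧ c.E1 ≤ 559241 ∧ c.K0 ≤ c.K1 ∧ c.K1 ≤ 41943040 ∧
      2 * 16777216 * 16777216 * 16777216 ≤
        c.gam * (2 * 16777216 * 16777216 + 2 * 16777216 * c.E0 - c.K1 * c.E1) ∧
      ∀ T : ℝ, |T| ≤ 1 → c.D.val T ∈ Icc (1 / 4 : ℝ) (2 / 5) ∧ -25 ≤ c.e1.val T := by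
  simp only [Cell.ok, Bool.and_eq_true, Nat.blt_eq, Nat.ble_eq, Nat.mul_eq, Nat.sub_eq] at h
  obtain ⟨⟨⟨⟨⟨⟨⟨⟨⟨⟨h1, h2⟩, h3⟩, h4⟩, -⟩, h6⟩, h7⟩, h8⟩, h9⟩, h10⟩, h11⟩ := h
  refine ⟨h1, h2, h3, h4, h6, h7, h8, fun T hT => ?_⟩
  have h9' := Sg.le_iff h9
  have h10' := Sg.le_iff h10
  have h11' := Sg.le_iff h11
  simp only [Sg.sub_v, Sg.add_v, Sg.ofN_v, Nat.cast_ofNat, Nat.cast_mul] at h9' h10' h11'
  have hD := abs_le.1 ((AF.abs_mul_le (Sg.abs_le_abs' c.D.t) hT).trans (le_of_eq (mul_one _)))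
  have he := abs_le.1 ((AF.abs_mul_le (Sg.abs_le_abs' c.e1.t) hT).trans (le_of_eq (mul_one _)))
  simp only [Par.val, cast_U, mem_Icc]
  refine ⟨⟨?_, ?_⟩, ?_⟩
  · rw [le_div_iff₀ (by norm_num)]; linarith
  · rw [div_le_iff₀ (by norm_num)]; linarith
  · rw [le_div_iff₀ (by norm_num)]; linarith

theorem w_of_sig {p : ℕ} {r : ℝ} {scap E1 N : ℕ} (hN : (N : ℝ) = 16777216) (hE : epsP p ≤ rn E1)
    (hs : sig p r * 16777216 ≤ scap) :
    (r ^ p)⁻¹ * 16777216 ≤ (Nat.add N (cdiv (Nat.mul scap E1) N) : ℕ) := by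
  have hN0 : 0 < N := by
    rcases Nat.eq_zero_or_pos N with h | h
    · rw [h, Nat.cast_zero] at hN; norm_num at hN
    · exact h
  have h1 := cdiv_ge (Nat.mul scap E1) hN0
  simp only [Nat.mul_eq, Nat.cast_mul, hN] at h1
  have hε := eps_pos p
  have e : (r ^ p)⁻¹ = 1 + epsP p * sig p r := by
    have := hε.ne'; rw [sig]; field_simp; ring
  have h2 := mul_le_mul_of_nonneg_left hs hε.le
  have h3 := mul_le_mul_of_nonneg_right hE (Nat.cast_nonneg (α := ℝ) scap)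
  simp only [rn] at h3
  simp only [Nat.add_eq, Nat.cast_add, hN, Nat.mul_eq]
  rw [e]
  linarith

theorem vlo_a {N x K g V : ℕ} (hx : 0 < x) (hle : cdiv (Nat.mul K g) (nodeX x) ≤ V) {k v X : ℝ}
    (hk : k ≤ rn K) (hk0 : 0 ≤ k) (hX : rn (nodeX x) ≤ X) {i : ℝ} (hi : 0 ≤ i)
    (hb : -v ≤ k * rn g * (1 / X - i)) (hN : N = 16777216) : -(V : ℝ) ≤ v * N := by
  subst hN
  have hn : (0 : ℝ) < nodeX x := by
    rw [cast_bool_mul]; have : (0 : ℝ) < x := Nat.cast_pos.2 hx; positivity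
  have h1 : -v ≤ rn K * rn g * (1 / rn (nodeX x)) := by
    refine hb.trans ?_
    have hX0 : 0 < X := lt_of_lt_of_le (div_pos hn (by norm_num)) hX
    refine le_trans (mul_le_mul_of_nonneg_left (sub_le_self _ hi) (mul_nonneg hk0 (rn_nonneg _))) ?_
    exact mul_le_mul (mul_le_mul_of_nonneg_right hk (rn_nonneg _))
      (one_div_le_one_div_of_le (div_pos hn (by norm_num)) hX) (by positivity)
      (mul_nonneg (rn_nonneg _) (rn_nonneg _))
  have h2 := (cdiv_nodeX (N := Nat.mul K g) hx).trans (Nat.cast_le.2 hle)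
  rw [Nat.mul_eq, Nat.cast_mul] at h2
  have h3 : rn K * rn g * (1 / rn (nodeX x)) * 16777216 = (K : ℝ) * g / nodeX x := by
    simp only [rn]; field_simp
  have h4 := mul_le_mul_of_nonneg_right h1 (by norm_num : (0 : ℝ) ≤ 16777216)
  rw [Nat.cast_ofNat]
  linarith

theorem vlo_b {N E0 V : ℕ} (hN : (N : ℝ) = 16777216) (hE : 0 < E0) (hle : cdiv (N * N) E0 ≤ V) {ε v : ℝ}
    (hε : rn E0 ≤ ε) (hb : -(1 / ε) ≤ v) : -(V : ℝ) ≤ v * 16777216 := by
  have h1 : 1 / ε ≤ 1 / rn E0 := one_div_le_one_div_of_le (div_pos (Nat.cast_pos.2 hE) (by norm_num)) hε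
  have h2 := (cdiv_ge (N * N) hE).trans (Nat.cast_le.2 hle)
  rw [Nat.cast_mul, hN] at h2
  have h3 : 1 / rn E0 * 16777216 = 16777216 * 16777216 / (E0 : ℝ) := by simp only [rn]; field_simp
  linarith

/-- The bound on a box. -/
theorem boxOK_sound {c : Cell} (hc : c.ok = true) (he : eOK c = true) {B : Box}
    (hok : boxOK c c.eEnv B = true) {p : ℕ} (hp : 29 ≤ p) {k y t r lam a b l c2 : ℝ}
    (hpt : Pt p k y t r lam) (ha : a ∈ Icc (0 : ℝ) 1) (hb : b ∈ Icc (0 : ℝ) 1) (hl : l ∈ Icc (0 : ℝ) 1)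
    (hk : k * 16777216 = (1 - l) * c.K0 + l * c.K1)
    (hε : epsP p * 16777216 = c.ec + c.et * (2 * b - 1))
    (hX : XP p y * 16777216 = (1 - a) * nodeX B.n0.x + a * nodeX B.n1.x) :
    c.total p c2 lam y t r ≤ semi y ^ (p + 1) *
      (majZero p (1 / 2 - c.D.val (c.T p)) (c.D.val (c.T p)) c2 y + epsP p ^ 2 * hVal B.n0 B.n1 a b l) := by
  obtain ⟨hec, het, het0, hE, hKK, hK, hgam, hpar⟩ := cell_ok hc
  have hT : c.T p = 2 * b - 1 := by
    have : (c.et : ℝ) ≠ 0 := (Nat.cast_pos.2 het0).ne'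
    rw [Cell.T, hε]; field_simp; ring
  have hTabs : |2 * b - 1| ≤ 1 := abs_le.2 ⟨by linarith [hb.1], by linarith [hb.2]⟩
  simp only [boxOK, withK_eq, withBEnv_eq, forceN_eq, Bool.and_eq_true] at hok
  obtain ⟨⟨⟨hcap, hbox⟩, hvlo⟩, ⟨hscap, hwcap⟩, hws⟩ := hok
  have hlt : B.n0.x < B.n1.x := by
    simp only [bOK, Bool.and_eq_true, Nat.blt_eq] at hbox
    exact hbox.1.1.1
  have hE01 : (c.E0 : ℝ) = (c.ec : ℝ) - c.et ∧ (c.E1 : ℝ) = (c.ec : ℝ) + c.et := by
    simp [Cell.E0, Cell.E1, Nat.cast_sub het]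
  have cp : CellPt c p k y t r lam := by
    refine ⟨hpt, ?_, ?_, hE, hK, hgam⟩
    · have h01 : (c.K0 : ℝ) ≤ c.K1 := Nat.cast_le.2 hKK
      have a0 := mul_le_mul_of_nonneg_left h01 hl.1
      have a1 := mul_le_mul_of_nonneg_left h01 (sub_nonneg.2 hl.2)
      simp only [rn, mem_Icc]
      rw [div_le_iff₀ (by norm_num), le_div_iff₀ (by norm_num)]
      constructor <;> linarith
    · have a0 := mul_le_mul_of_nonneg_left hTabs (Nat.cast_nonneg (α := ℝ) c.et)
      simp only [rn, mem_Icc]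
      rw [div_le_iff₀ (by norm_num), le_div_iff₀ (by norm_num), hE01.1, hE01.2]
      have a2 := mul_le_mul_of_nonneg_left hb.2 (Nat.cast_nonneg (α := ℝ) c.et)
      have a3 := mul_le_mul_of_nonneg_left hb.1 (Nat.cast_nonneg (α := ℝ) c.et)
      constructor <;> linarith
  have hXf : XP p y * (U : ℕ) = 2 * ((B.n0.x : ℝ) * B.n0.x + B.n1.x * B.n1.x) +
      2 * ((B.n1.x : ℝ) * B.n1.x - B.n0.x * B.n0.x) * (2 * a - 1) := by
    rw [cast_U, hX, cast_bool_mul, cast_bool_mul]; ring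
  have hh := eEnv_has he (S := 2 * a - 1) (T := 2 * b - 1) (ε := epsP p)
    (abs_le.2 ⟨by linarith [ha.1], by linarith [ha.2]⟩) hTabs (by rw [cast_U]; exact hε)
  have henv := bEnv_has hbox ha hb hh (by linarith [(hpar _ hTabs).1.1]) hXf
  rw [← hT] at henv
  have L : Loc c (boxEnv c c.eEnv B.n0.x B.n1.x) B.n0.x B.n1.x p k y t r lam a b l :=
    ⟨cp, hp, hT ▸ (hpar _ hTabs).1, het, hec, ha, hb, hl, hk, hε, hX, henv⟩
  have hXb := L.X_bounds hlt.le
  simp only [capOK, Bool.and_eq_true, Bool.or_eq_true, Nat.blt_eq, Nat.ble_eq, Nat.beq_eq,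
    Nat.mul_eq] at hcap
  obtain ⟨⟨g1, g2⟩, g3⟩ := hcap
  rw [Nat.ble_eq] at hscap hwcap
  have hs1 := cp.capS_sound hXb.2 g1 g2
  have hxu : B.xu ≠ 0 → 0 < B.xu ∧ B.xu ≤ B.n0.x := by
    intro hne
    rcases g3 with g | g
    · exact absurd g hne
    · exact ⟨Nat.pos_of_ne_zero hne, g.1.1.1⟩
  have hs : sig p r * 16777216 ≤ (B.scap : ℕ) := by
    refine le_trans ?_ (Nat.cast_le.2 hscap)
    have hs1' : sig p r * 16777216 ≤ (capS c B.n1.x : ℕ) := by
      simp only [rn] at hs1; linarith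
    cases hz : (Nat.beq c.E0 0 || Nat.beq B.xu 0)
    · rw [cond_false]
      simp only [Bool.or_eq_false_iff] at hz
      have e0 : c.E0 ≠ 0 := fun h => by simp [h] at hz
      have e1 : B.xu ≠ 0 := fun h => by simp [h] at hz
      obtain ⟨u0, u1⟩ := hxu e1
      rcases g3 with g | ⟨⟨⟨-, g4⟩, g5⟩, g6⟩
      · exact absurd g e1
      have hs2 := cp.scapUp_sound (Nat.pos_of_ne_zero e0) het u0 u1 hXb g4 g5 g6
      refine le_nmin hs1' ?_
      simp only [rn] at hs2; linarith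
    · rw [cond_true]; exact hs1'
  have hw : (r ^ p)⁻¹ * 16777216 ≤ (B.wcap : ℕ) := by
    have hs0 : sig p r * 16777216 ≤ (cond (Nat.beq c.E0 0 || Nat.beq B.xu 0) (capS c B.n1.x)
        (nmin (capS c B.n1.x) (scapUp c B.n0.x B.n1.x B.xu 8)) : ℕ) := by
      have hs1' : sig p r * 16777216 ≤ (capS c B.n1.x : ℕ) := by simp only [rn] at hs1; linarith
      cases hz : (Nat.beq c.E0 0 || Nat.beq B.xu 0)
      · rw [cond_false]
        simp only [Bool.or_eq_false_iff] at hz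
        have e0 : c.E0 ≠ 0 := fun h => by simp [h] at hz
        have e1 : B.xu ≠ 0 := fun h => by simp [h] at hz
        obtain ⟨u0, u1⟩ := hxu e1
        rcases g3 with g | ⟨⟨⟨-, g4⟩, g5⟩, g6⟩
        · exact absurd g e1
        have hs2 := cp.scapUp_sound (Nat.pos_of_ne_zero e0) het u0 u1 hXb g4 g5 g6
        refine le_nmin hs1' ?_
        simp only [rn] at hs2; linarith
      · rw [cond_true]; exact hs1'
    have hwS := w_of_sig (N := 16777216) Nat.cast_ofNat cp.hε.2 hs0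
    refine le_trans ?_ (Nat.cast_le.2 hwcap)
    cases hz : Nat.beq B.xu 0
    · rw [cond_false]
      have e1 : B.xu ≠ 0 := fun h => by simp [h] at hz
      rw [hz] at hwS
      rcases g3 with g | ⟨⟨⟨-, g4⟩, g5⟩, g6⟩
      · exact absurd g e1
      obtain ⟨u0, u1⟩ := hxu e1
      have h2 := cp.capW_sound cp.hε.1 cp.hε.2 le_rfl u0 u1 hXb g4 g5 g6
      refine le_nmin hwS ?_
      simp only [rn] at h2; linarith
    · rw [cond_true]; rw [hz] at hwS; exact hwS
  have hv : B.vF = true → (Sg.mk 0 B.vLo).v ≤ ups p y t * 16777216 := by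
    intro hF
    simp only [hF, Bool.not_true, Bool.false_or, Bool.or_eq_true, Bool.and_eq_true, Nat.blt_eq,
      Nat.ble_eq] at hvlo
    rw [v_mk, Nat.cast_zero, zero_sub]
    rcases hvlo with ⟨h0, h1⟩ | ⟨h0, h1⟩
    · obtain ⟨hb1, -⟩ := band cp.pt cp.k0 cp.k2 cp.gamma
      have hi : 0 ≤ iA (epsP p) := by rw [eps_iA]; positivity
      have h := vlo_a (N := 16777216) h0 h1 cp.hk.2 cp.k0 hXb.1 hi hb1 rfl
      rwa [Nat.cast_ofNat] at h
    · exact vlo_b Nat.cast_ofNat h0 h1 cp.hε.1 (ups_gt cp.pt)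
  refine L.ws_sound hlt.le rfl hs hw hv _ _ ?_ hws
  show cond true _ _
  rw [cond_true]
  simpa [Sg.posPart_def] using mul_nonneg (w_pos hpt).le (by norm_num : (0 : ℝ) ≤ 16777216)

end Vale.Agent.P237.All.Transport.Mid
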