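import Vale.Agent.P237.All.Mid.CapSound

/-!
P237, cell `k` in `[4/5, 5/2]`: interpolation, the maximum of a quadratic, and the forms of a cell and
of a box.
-/

noncomputable section

open Real Set

namespace Vale.Agent.P237.All.Transport.Mid

/-! ### Interpolation -/

variable {a b : ℝ} {F G : Bool → Bool → ℝ}

theorem interp_mono (ha : a ∈ Icc (0 : ℝ) 1) (hb : b ∈ Icc (0 : ℝ) 1) (h : ∀ i j, F i j ≤ G i j) :
    interp a b F ≤ interp a b G := by
  have a0 := ha.1
  have a1 := sub_nonneg.2 ha.2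
  have b0 := hb.1
  have b1 := sub_nonneg.2 hb.2
  simp only [interp]
  gcongr <;> exact h _ _

theorem interp_const (v : ℝ) : interp a b (fun _ _ => v) = v := by simp only [interp]; ring

theorem interp_add : interp a b (fun i j => F i j + G i j) = interp a b F + interp a b G := by
  simp only [interp]; ring

theorem interp_sub : interp a b (fun i j => F i j - G i j) = interp a b F - interp a b G := by
  simp only [interp]; ring

theorem interp_mul_const (v : ℝ) : interp a b (fun i j => F i j * v) = interp a b F * v := by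
  simp only [interp]; ring

theorem interp_const_mul (v : ℝ) : interp a b (fun i j => v * F i j) = v * interp a b F := by
  simp only [interp]; ring

theorem interp_nonneg (ha : a ∈ Icc (0 : ℝ) 1) (hb : b ∈ Icc (0 : ℝ) 1) (h : ∀ i j, 0 ≤ F i j) :
    0 ≤ interp a b F := by
  rw [← interp_const (a := a) (b := b) 0]; exact interp_mono ha hb h

/-- Interpolating a product loses at most a quarter of the slopes. -/
theorem interp_cov {m : Bool → Bool → ℝ} {g0 gs gt Ls Lt : ℝ} (ha : a ∈ Icc (0 : ℝ) 1)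
    (hb : b ∈ Icc (0 : ℝ) 1) (hLs : 0 ≤ Ls) (hLt : 0 ≤ Lt)
    (s0 : -((m true false - m false false) * gs) ≤ Ls) (s1 : -((m true true - m false true) * gs) ≤ Ls)
    (t0 : -((m false true - m false false) * gt) ≤ Lt) (t1 : -((m true true - m true false) * gt) ≤ Lt) :
    interp a b m * (g0 + a * gs + b * gt) ≤
      interp a b (fun i j => m i j * (g0 + (cond i 1 0) * gs + (cond j 1 0) * gt)) + (Ls + Lt) / 4 := by
  have a1 := sub_nonneg.2 ha.2
  have b1 := sub_nonneg.2 hb.2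
  have hs := add_le_add (mul_le_mul_of_nonneg_left s0 b1) (mul_le_mul_of_nonneg_left s1 hb.1)
  have ht := add_le_add (mul_le_mul_of_nonneg_left t0 a1) (mul_le_mul_of_nonneg_left t1 ha.1)
  have qa : a * (1 - a) ≤ 1 / 4 := by nlinarith only [sq_nonneg (a - 1 / 2)]
  have qb : b * (1 - b) ≤ 1 / 4 := by nlinarith only [sq_nonneg (b - 1 / 2)]
  have e1 := mul_le_mul_of_nonneg_left hs (mul_nonneg ha.1 a1)
  have e2 := mul_le_mul_of_nonneg_left ht (mul_nonneg hb.1 b1)
  have e3 := mul_le_mul_of_nonneg_right qa hLs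
  have e4 := mul_le_mul_of_nonneg_right qb hLt
  simp only [interp, cond_true, cond_false]
  linarith

/-- The largest value of a quadratic in two variables. -/
theorem quad2_nonpos {c u v A B C : ℝ} (hA : A < 0) (hdet : 0 < 4 * (A * C) - B * B)
    (h : c * (4 * (A * C) - B * B) + (B * u * v - (C * u * u + A * v * v)) ≤ 0) (x y : ℝ) :
    c + u * x + v * y + A * x ^ 2 + B * (x * y) + C * y ^ 2 ≤ 0 := by
  set D := 4 * (A * C) - B * B with hD
  have key : 4 * A * D * (c + u * x + v * y + A * x ^ 2 + B * (x * y) + C * y ^ 2) =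
      4 * A * (c * D + (B * u * v - (C * u * u + A * v * v))) + D * (2 * A * x + B * y + u) ^ 2 +
        (D * y + (2 * A * v - B * u)) ^ 2 := by
    rw [hD]; ring
  have h1 : 0 ≤ 4 * A * (c * D + (B * u * v - (C * u * u + A * v * v))) :=
    mul_nonneg_of_nonpos_of_nonpos (by linarith) h
  have h2 : 0 ≤ 4 * A * D * (c + u * x + v * y + A * x ^ 2 + B * (x * y) + C * y ^ 2) := by
    rw [key]; positivity
  have h3 : 4 * A * D < 0 := mul_neg_of_neg_of_pos (by linarith) hdet
  by_contra hc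
  push Not at hc
  nlinarith only [mul_neg_of_neg_of_pos h3 hc, h2]

/-! ### The forms -/

theorem AF.hi4_get (f : AF) (i j : Bool) : f.hi4.get i j = f.hi i j := by
  cases i <;> cases j <;> rfl

theorem AF.lo4_get (f : AF) (i j : Bool) : f.lo4.get i j = f.lo i j := by
  cases i <;> cases j <;> rfl

theorem C4.force_eq {α : Type} (f : C4) (k : C4 → α) : f.force k = k f := by
  simp [C4.force, Sg.force_eq]

theorem C2.force_eq {α : Type} (f : C2) (k : C2 → α) : f.force k = k f := by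
  simp [C2.force, Sg.force_eq]

theorem has_one {S T : ℝ} : afOne.Has S T 1 := AF.has_const (by simp [U])

theorem has_nat {S T : ℝ} (n : ℕ) : (AF.const (Sg.ofN n)).Has S T (rn n) :=
  AF.has_const (by simp [rn, U])

/-- The environment of a cell. -/
def Cell.eEnv (c : Cell) : EEnv := withEEnv c id

theorem withEEnv_eq {α : Type} (c : Cell) (k : EEnv → α) : withEEnv c k = k c.eEnv := by
  simp only [Cell.eEnv, withEEnv, AF.force_eq, id]

/-- The environment of a box. -/
def boxEnv (c : Cell) (e : EEnv) (x0 x1 : ℕ) : BEnv := withBEnv c e x0 x1 id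

theorem withBEnv_eq {α : Type} (c : Cell) (e : EEnv) (x0 x1 : ℕ) (k : BEnv → α) :
    withBEnv c e x0 x1 k = k (boxEnv c e x0 x1) := by
  simp only [boxEnv, withBEnv, AF.force_eq, C4.force_eq, id]

/-- The values that the forms of a cell hold. -/
structure EHas (e : EEnv) (S T D e1 ε : ℝ) : Prop where
  eps : e.eps.Has S T ε
  im : e.im.Has S T (1 / (1 - ε))
  iA : e.iA.Has S T (iA ε)
  omh : e.omh.Has S T ((1 - ε) / 2)
  c : e.c.Has S T (22 / 5 * D)
  e0 : e.e0.Has S T (1 - 22 / 5 * D)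
  cr0 : e.cr0.Has S T (ε / (1 - ε) *
    (1 - 22 / 5 * D + Mid.iA ε * (2 - 88 / 25 * D) - 22 / 25 * D * (1 / (1 + ε))))
  qg : e.qg.Has S T ((1 / 2 + 11 / 25 * D) * (1 + 2 * Mid.iA ε))
  lg : e.lg.Has S T (1 / (1 + ε) * (2 - 22 / 5 * D))
  rn0 : e.rn0.Has S T (1 - 22 / 5 * D + e1 - (1 / 2 - D) + 17 / 5 * D)
  rn1 : e.rn1.Has S T (1 / 2 + 22 / 5 * D + (1 - 44 / 5 * D) * Mid.iA ε)
  eD : e.eD.Has S T (132 / 25 * D)

theorem posPart_pos_low {f : AF} {S T v : ℝ} (h : f.Has S T v) (hS : |S| ≤ 1) (hT : |T| ≤ 1)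
    (hp : 0 < f.low.posPart) : 0 < v := by
  have h1 := h.low_le hS hT
  have h2 : (0 : ℝ) < f.low.v := by
    rw [Sg.posPart_def] at hp
    simp only [Sg.v, sub_pos]
    exact_mod_cast (Nat.sub_pos_iff_lt.1 hp)
  exact pos_of_mul_pos_left (h2.trans_le h1) U_pos.le

theorem eEnv_has {c : Cell} (hok : eOK c = true) {S T ε : ℝ} (hS : |S| ≤ 1) (hT : |T| ≤ 1)
    (hε : ε * U = c.ec + c.et * T) : EHas c.eEnv S T (c.D.val T) (c.e1.val T) ε := by
  simp only [eOK, Bool.and_eq_true, Nat.blt_eq] at hok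
  have he : (AF.linT (Sg.ofN c.ec) (Sg.ofN c.et)).Has S T ε := AF.has_linT (by simp [hε])
  have h1 := (has_one.add he).inv hS hT hok.1
  have hm := (has_one.sub he).inv hS hT hok.2
  have hiA := he.mul h1 hS hT
  have hD := c.D.has S T
  have hc := hD.scale hS hT 22 (d := 5) (by norm_num)
  have hc0 := has_one.sub hc
  have h2 : ∀ {f : AF} {v : ℝ} (n : ℕ) {d : ℕ}, f.Has S T v → 0 < d → (f.scale n d).Has S T (v * (n / d)) :=
    fun n _ h hd => h.scale hS hT n hd
  have hiA' : ε * (1 + ε)⁻¹ = Mid.iA ε := by rw [Mid.iA, div_eq_mul_inv]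
  have hp := posPart_pos_low (has_one.add he) hS hT hok.1
  constructor <;> simp only [Cell.eEnv, withEEnv, AF.force_eq, id]
  · exact he
  · convert hm using 1; rw [one_div]
  · convert hiA using 1; exact hiA'.symm
  · convert h2 1 (has_one.sub he) (show 0 < 2 by norm_num) using 1; push_cast; ring
  · convert hc using 1; push_cast; ring
  · convert hc0 using 1; push_cast; ring
  · convert (he.mul hm hS hT).mul ((hc0.add (hiA.mul ((h2 2 has_one Nat.one_pos).sub
      (h2 88 hD (show 0 < 25 by norm_num))) hS hT)).sub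
      ((h2 22 hD (show 0 < 25 by norm_num)).mul h1 hS hT)) hS hT using 1
    rw [hiA']; push_cast; ring
  · convert ((h2 1 has_one two_pos).add (h2 11 hD (show 0 < 25 by norm_num))).mul
      (has_one.add (h2 2 hiA Nat.one_pos)) hS hT using 1
    rw [hiA']; push_cast; ring
  · convert h1.mul ((h2 2 has_one Nat.one_pos).sub hc) hS hT using 1
    push_cast; ring
  · convert ((hc0.add (c.e1.has S T)).sub ((h2 1 has_one two_pos).sub hD)).add
      (h2 17 hD (show 0 < 5 by norm_num)) using 1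
    push_cast; ring
  · convert ((h2 1 has_one two_pos).add hc).add
      ((has_one.sub (h2 2 hc Nat.one_pos)).mul hiA hS hT) using 1
    rw [hiA']; push_cast; ring
  · convert h2 132 hD (show 0 < 25 by norm_num) using 1
    push_cast; ring

/-- The values that the corners of a box bound. -/
structure BHas (E : BEnv) (a b D e1 aX a1 W W1 ε X z : ℝ) : Prop where
  RnH : RnR D e1 aX ε X * 16777216 ≤ interp a b fun i j => (E.RnH.get i j).v
  RnL : interp a b (fun i j => (E.RnL.get i j).v) ≤ RnR D e1 aX ε X * 16777216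
  LH : LR D aX a1 ε X * 16777216 ≤ interp a b fun i j => (E.LH.get i j).v
  LL : interp a b (fun i j => (E.LL.get i j).v) ≤ LR D aX a1 ε X * 16777216
  CH : CnR D W ε X * 16777216 ≤ interp a b fun i j => (E.CH.get i j).v
  CL : interp a b (fun i j => (E.CL.get i j).v) ≤ CnR D W ε X * 16777216
  QH : QbR D W W1 ε X 0 * 16777216 ≤ interp a b fun i j => (E.QH.get i j).v
  EA : interp a b (fun i j => (E.EA.get i j).v) ≤ 132 / 25 * D * (X * Mid.iA ε) * 16777216
  KpL : interp a b (fun i j => (E.KpL.get i j).v) ≤ KpR D ε X z * 16777216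
  KwH : KwR D aX (RnR D e1 aX ε X) ε X z * 16777216 ≤ interp a b fun i j => (E.KwH.get i j).v
  eps : E.eps.Has (2 * a - 1) (2 * b - 1) ε
  hxm : E.hxm.Has (2 * a - 1) (2 * b - 1) ((1 - ε) / 2 * (X * MA ε X))
  e2xm : E.e2xm.Has (2 * a - 1) (2 * b - 1) (ε ^ 2 * (X * MA ε X))

theorem xAF_has {x0 x1 : ℕ} (hx : x0 ≤ x1) {S T X : ℝ}
    (hX : X * U = 2 * ((x0 : ℝ) * x0 + x1 * x1) + 2 * ((x1 : ℝ) * x1 - x0 * x0) * S) :
    (xAF x0 x1).Has S T X := by
  have hle : x0 * x0 ≤ x1 * x1 := Nat.mul_le_mul hx hx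
  simp only [AF.Has, xAF, Nat.mul_eq, Nat.add_eq, Nat.sub_eq, Sg.ofN_v, Sg.v]
  push_cast [Nat.cast_sub hle]
  rw [hX]
  simp [Sg.ofN, Nat.cast_sub hle]

theorem bEnv_has {c : Cell} {e : EEnv} {x0 x1 : ℕ} (hok : bOK c e x0 x1 = true) {a b D e1 ε X : ℝ}
    (ha : a ∈ Icc (0 : ℝ) 1) (hb : b ∈ Icc (0 : ℝ) 1) (he : EHas e (2 * a - 1) (2 * b - 1) D e1 ε)
    (hD : 0 ≤ D) (hX : X * U = 2 * ((x0 : ℝ) * x0 + x1 * x1) + 2 * ((x1 : ℝ) * x1 - x0 * x0) * (2 * a - 1)) :
    BHas (boxEnv c e x0 x1) a b D e1 (c.sA.val (2 * b - 1) X) (c.sA.der (2 * b - 1) X)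
      (c.sW.val (2 * b - 1) X) (c.sW.der (2 * b - 1) X) ε X (rn c.z) := by
  set S := 2 * a - 1 with hSd
  set T := 2 * b - 1 with hTd
  have hS : |S| ≤ 1 := abs_le.2 ⟨by linarith [ha.1], by linarith [ha.2]⟩
  have hT : |T| ≤ 1 := abs_le.2 ⟨by linarith [hb.1], by linarith [hb.2]⟩
  simp only [bOK, Bool.and_eq_true, Nat.blt_eq] at hok
  obtain ⟨⟨⟨hlt, hkA⟩, hkW⟩, hMA⟩ := hok
  have hx := xAF_has hlt.le (T := T) hX
  have hmem : X ∈ Icc ((nodeX x0 : ℕ) / (U : ℝ)) ((nodeX x1 : ℕ) / (U : ℝ)) := by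
    simp only [nodeX, Nat.mul_eq]
    push_cast
    have h01 : (x0 : ℝ) * x0 ≤ (x1 : ℝ) * x1 := by
      have : (x0 : ℝ) ≤ x1 := Nat.cast_le.2 hlt.le
      gcongr
    constructor
    · rw [div_le_iff₀ U_pos, hX]
      linarith [mul_le_mul_of_nonneg_left (show (-1 : ℝ) ≤ S by linarith [ha.1]) (sub_nonneg.2 h01)]
    · rw [le_div_iff₀ U_pos, hX]
      linarith [mul_le_mul_of_nonneg_left (show S ≤ 1 by linarith [ha.2]) (sub_nonneg.2 h01)]
  obtain ⟨hA, hA'⟩ := c.sA.af_has hkA hx hmem hS hT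
  obtain ⟨hW, hW'⟩ := c.sW.af_has hkW hx hmem hS hT
  have hM := ((has_one.add he.eps).sub (he.eps.mul hx hS hT)).inv hS hT hMA
  have hMe : (1 + ε - ε * X)⁻¹ = MA ε X := by rw [MA, one_div]
  rw [hMe] at hM
  have hXA := hx.mul he.iA hS hT
  have hXM := hx.mul hM hS hT
  have hRn : ((c.sA.af (xAF x0 x1) (nodeX x0)).sub
      (e.im.mul (e.rn0.add ((xAF x0 x1).mul e.rn1)))).Has S T (RnR D e1 (c.sA.val T X) ε X) := by
    convert hA.sub (he.im.mul (he.rn0.add (hx.mul he.rn1 hS hT)) hS hT) using 1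
    rw [RnR]
  have hL : ((xAF x0 x1).mul ((((c.sA.daf (xAF x0 x1) (nodeX x0)).scale 2 1).add
      (((afOne.add e.eps).sub (e.eps.mul (xAF x0 x1))).inv.mul
        ((e.e0.mul (afOne.sub (xAF x0 x1))).sub (c.sA.af (xAF x0 x1) (nodeX x0))))).add e.lg)).Has S T
      (LR D (c.sA.val T X) (c.sA.der T X) ε X) := by
    convert hx.mul (((hA'.scale hS hT 2 Nat.one_pos).add
      (hM.mul ((he.e0.mul (has_one.sub hx) hS hT).sub hA) hS hT)).add he.lg) hS hT using 1
    simp only [LR]; push_cast; ring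
  have hC : (((c.sW.af (xAF x0 x1) (nodeX x0)).scale 2 1).sub ((xAF x0 x1).mul e.cr0)).Has S T
      (CnR D (c.sW.val T X) ε X) := by
    convert (hW.scale hS hT 2 Nat.one_pos).sub (hx.mul he.cr0 hS hT) using 1
    simp only [CnR]; push_cast; ring
  have hQ : (((xAF x0 x1).mul (((c.sW.daf (xAF x0 x1) (nodeX x0)).scale 2 1).add e.qg)).sub
      ((c.sW.af (xAF x0 x1) (nodeX x0)).mul (afOne.add ((xAF x0 x1).mul
        ((afOne.add e.eps).sub (e.eps.mul (xAF x0 x1))).inv)))).Has S T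
      (QbR D (c.sW.val T X) (c.sW.der T X) ε X 0) := by
    convert (hx.mul ((hW'.scale hS hT 2 Nat.one_pos).add he.qg) hS hT).sub
      (hW.mul (has_one.add hXM) hS hT) using 1
    simp only [QbR]; push_cast; ring
  have hEA := he.eD.mul hXA hS hT
  have hKp := he.c.mul ((has_one.sub hXA).sub (has_nat (cdiv c.z 5))) hS hT
  have hKw : (((afOne.add (((c.sA.af (xAF x0 x1) (nodeX x0)).sub ((c.sA.af (xAF x0 x1) (nodeX x0)).sub
      (e.im.mul (e.rn0.add ((xAF x0 x1).mul e.rn1))))).mul e.eps)).sub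
      (e.c.mul ((xAF x0 x1).mul e.iA))).add (AF.const (Sg.ofN c.z))).Has S T
      (KwR D (c.sA.val T X) (RnR D e1 (c.sA.val T X) ε X) ε X (rn c.z)) := by
    convert ((has_one.add ((hA.sub hRn).mul he.eps hS hT)).sub (he.c.mul hXA hS hT)).add (has_nat c.z)
      using 1
    rw [KwR]
  constructor <;> simp only [boxEnv, withBEnv, AF.force_eq, C4.force_eq, id, AF.hi4_get, AF.lo4_get, ← cast_U]
  · exact hRn.le_hi
  · exact hRn.lo_le
  · exact hL.le_hi
  · exact hL.lo_le
  · exact hC.le_hi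
  · exact hC.lo_le
  · exact hQ.le_hi
  · exact hEA.lo_le
  · refine hKp.lo_le.trans (mul_le_mul_of_nonneg_right ?_ U_pos.le)
    refine mul_le_mul_of_nonneg_left (sub_le_sub_left ?_ _) (by positivity)
    refine le_trans (le_of_eq ?_) (rn_cdiv c.z (d := 5) (by norm_num))
    simp only [rn]; push_cast; ring
  · exact hKw.le_hi
  · exact he.eps
  · exact he.omh.mul hXM hS hT
  · convert (he.eps.mul he.eps hS hT).mul hXM hS hT using 1; ring

end Vale.Agent.P237.All.Transport.Mid
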