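import Vale.Agent.P237.All.Mid.Cell

/-!
P237, cell `k` in `[4/5, 5/2]`: a certificate from a part with the crude tail.
-/

noncomputable section

open Real Set MeasureTheory

namespace Vale.Agent.P237.All.Transport.Mid

theorem boxesOK_box {c : Cell} {L : List Box} (h : boxesOK c L = true) :
    ∀ B ∈ L, boxOK c c.eEnv B = true := by
  simp only [boxesOK, withEEnv_eq, Bool.and_eq_true, List.all_eq_true] at h
  exact h.2

theorem boxes_join {c : Cell} : ∀ (Ls : List (List Box)), (∀ L ∈ Ls, boxesOK c L = true) →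
    ∀ B ∈ Ls.flatten, boxOK c c.eEnv B = true := by
  intro Ls h B hB
  obtain ⟨L, hL, hBL⟩ := List.mem_flatten.1 hB
  exact boxesOK_box (h L hL) B hBL

/-- The numerator of the moment product. -/
def momN (E : ℕ) : ℕ → ℕ
  | 0 => 1
  | n + 1 => Nat.mul (momN E n) (Nat.mul (2 * n + 1) (Nat.add 16777216 E))

/-- Its denominator. -/
def momD (E : ℕ) : ℕ → ℕ
  | 0 => 1
  | n + 1 => Nat.mul (momD E n) (Nat.add (Nat.add 16777216 E) (Nat.mul (2 * n) E))

theorem momD_pos (E : ℕ) : ∀ n, 0 < momD E n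
  | 0 => Nat.one_pos
  | n + 1 => Nat.mul_pos (momD_pos E n) (Nat.add_pos_left (Nat.add_pos_left (by norm_num) _) _)

theorem momProd_eq (E : ℕ) : ∀ n, momProd (rn E) n = (momN E n : ℝ) / momD E n
  | 0 => by simp [momProd, momN, momD]
  | n + 1 => by
    have h := momD_pos E n
    have h' : (0 : ℝ) < momD E n := Nat.cast_pos.2 h
    rw [momProd, momProd_eq E n]
    simp only [momN, momD, Nat.mul_eq, Nat.add_eq, Nat.cast_mul, Nat.cast_add, Nat.cast_one, Nat.cast_ofNat, rn]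
    field_simp

/-- The data of a tail. -/
structure TailDat where
  al : ℕ
  sa : ℕ
  w : ℕ
  s : ℕ
  n : ℕ
  tau : ℕ

/-- The constant of the tail, as a rational. -/
def tailQ (al sa w E0 s x : ℕ) : ℚ :=
  let a : ℚ := al / 16777216
  let b : ℚ := sa / 16777216
  let v : ℚ := w / 16777216
  let M : ℚ := 16777216 / E0
  let x1 : ℚ := x / 2048
  let X1 : ℚ := x1 ^ 2
  M * (19 / 20) * (a + 5 / 2) * (X1 ^ 2 / x1) +
    M ^ 2 * (19 / 20 * (2 * v + 6 / 5) * s + 19 / 20 * (9 / 2) * x1 + 10) +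
    M * (a + 4 / 5 + (2 * b + 3) / 25) * s * (X1 ^ 2 / x1) +
    M ^ 2 * ((26 / 25 * v + 73 / 100) * (M + 1))

/-- The tests on the tail of a part. -/
def tailOK (c : Cell) (N : Node) (d : TailDat) : Bool :=
  farOK c N.x d.al d.sa d.w && Nat.ble 10240 N.x && Nat.blt 0 c.E0 && Nat.ble 2 d.n &&
  Nat.ble (Nat.add 16777216 c.E0) (Nat.mul c.E0 (Nat.mul d.s d.s))

/-- The budget covers the tail. -/
def TauOK (c : Cell) (N : Node) (d : TailDat) : Prop :=
  (tailQ d.al d.sa d.w c.E0 d.s N.x +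
      ((N.H false false : ℕ) + (N.H false true : ℕ) + (N.H true false : ℕ) + (N.H true true : ℕ)) / 16777216) *
      (13 / 10 * ((momN c.E0 d.n : ℚ) / momD c.E0 d.n)) / (((N.x : ℚ) / 2048) ^ 2) ^ d.n ≤
    (d.tau : ℚ) / 16777216 ^ 2

/-- A part with the crude tail gives a certificate. -/
theorem hasCert_crude {c : Cell} {n N : Node} {L : List Box} {d : TailDat}
    (hboxes : ∀ B ∈ L, boxOK c c.eEnv B = true) (hside : sideOK c n L d.tau = true)
    (hlast : nodeEq (lastNode n L) N = true) (htl : tailOK c N d = true) (htau : TauOK c N d)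
    {p : ℕ} (hp : 29 ≤ p) (hεlo : rn c.E0 ≤ epsP p) (hεhi : epsP p ≤ rn c.E1) (J : ℝ)
    (hJ0 : exp (rn c.K0 / ((p : ℝ) + 1)) * (2 * mass (p + 1) semi 1) ≤ J)
    (hJ1 : J ≤ exp (rn c.K1 / ((p : ℝ) + 1)) * (2 * mass (p + 1) semi 1)) : HasCert p J := by
  have hN := nodeEq_sound hlast
  simp only [tailOK, Bool.and_eq_true, Nat.blt_eq, Nat.ble_eq, Nat.mul_eq, Nat.add_eq] at htl
  obtain ⟨⟨⟨⟨hfar, hx⟩, hE⟩, hn⟩, hs⟩ := htl
  have hne : L ≠ [] := by
    rintro rfl
    simp only [sideOK, Bool.and_eq_true, Nat.beq_eq] at hside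
    have h0 := hside.1.1.1.1.1.1.2
    rw [lastNode] at hN
    rw [← hN, h0] at hx
    exact absurd hx (by norm_num)
  have hE' : (0 : ℝ) < c.E0 := Nat.cast_pos.2 hE
  set Mm : ℝ := 16777216 / c.E0 with hMm
  set x1 : ℝ := (N.x : ℝ) / 2048 with hx1d
  have hx1 : 5 ≤ x1 := by
    rw [hx1d, le_div_iff₀ (by norm_num)]
    have : (10240 : ℝ) ≤ N.x := by exact_mod_cast hx
    linarith
  set C := tailC (rn d.al) (rn d.sa) (rn d.w) Mm d.s x1 (x1 ^ 2) with hC
  have hC0 : 0 ≤ C := by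
    have := rn_nonneg d.al; have := rn_nonneg d.sa; have := rn_nonneg d.w
    have : 0 ≤ x1 := by linarith
    rw [hC]; unfold tailC; positivity
  have hX : rn (nodeX N.x) = x1 ^ 2 := nodeX_rn _
  refine hasCert_cell (m := d.n) (C := C) hboxes hne hside hC0 (X1 := x1 ^ 2) (by rw [hN, hX])
    (by positivity) ?_ hp hεlo hεhi ?_ J hJ0 hJ1
  · have h := (Rat.cast_le (K := ℝ)).2 htau
    rw [hN, momProd_eq]
    have e : ((tailQ d.al d.sa d.w c.E0 d.s N.x : ℚ) : ℝ) = C := by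
      simp only [tailQ, hC, tailC, hMm, hx1d, rn]; push_cast; ring
    push_cast at h
    rw [e] at h
    simpa only [Node.top] using h
  · intro k y t r lam c2 b hpt hk0 hk hb hT hX1
    have hM : (p : ℝ) + 1 ≤ Mm := by
      rw [hMm, le_div_iff₀ hE']
      simp only [rn, epsP] at hεlo
      rw [div_le_div_iff₀ (by norm_num) (by positivity)] at hεlo
      linarith
    have hs' : Mm + 1 ≤ (d.s : ℝ) ^ 2 := by
      have := (Nat.cast_le (α := ℝ)).2 hs
      simp only [Nat.cast_add, Nat.cast_mul, Nat.cast_ofNat] at this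
      rw [hMm, div_add_one hE'.ne', div_le_iff₀ hE']
      linarith
    obtain ⟨-, het, -, -, -, -, -, hpar⟩ := cell_ok (c := c) (by
      simp only [sideOK, Bool.and_eq_true] at hside
      exact hside.1.1.1.1.1.1.1.1)
    have hD : c.D.val (c.T p) ∈ Icc (1 / 4 : ℝ) (2 / 5) := by
      rw [hT]; exact (hpar _ (abs_le.2 ⟨by linarith [hb.1], by linarith [hb.2]⟩)).1
    have hf := farOK_sound hfar hb hT hD (hX.le.trans hX1)
    have h := crude_tail hp hpt hk0 hk hf (c.potAt p y) hx1 rfl hX1 hM hs'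
      (Nat.cast_nonneg _) hn (c2 := c2)
    simp only [Cell.total, piTail]
    exact h

end Vale.Agent.P237.All.Transport.Mid
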