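import Vale.Agent.P237.All.Mid.Parts

/-!
P237: a certificate at every common integral with excess `k` in `[4/5, 5/2]`, in dimension at least
thirty.
-/

noncomputable section

open Real

namespace Vale.Agent.P237.All.Transport.Mid

/-- A certificate at every common integral of the regime. -/
theorem hasCert_mid (p : ℕ) (hp : 29 ≤ p) (J : ℝ)
    (lower : exp ((4 / 5) / ((p : ℝ) + 1)) * (2 * mass (p + 1) semi 1) ≤ J)
    (upper : J ≤ exp ((5 / 2) / ((p : ℝ) + 1)) * (2 * mass (p + 1) semi 1)) : HasCert p J := by
  have hm := mul_nonneg (by norm_num : (0 : ℝ) ≤ 2) (mass_one_pos isProfile_semi (p + 1)).le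
  have hp1 : (0 : ℝ) ≤ (p : ℝ) + 1 := by positivity
  set F := fun K : ℕ => exp (rn K / ((p : ℝ) + 1)) * (2 * mass (p + 1) semi 1)
  have mono : ∀ {a b : ℕ}, a ≤ b → F a ≤ F b := fun h =>
    mul_le_mul_of_nonneg_right (exp_le_exp.2 (div_le_div_of_nonneg_right (rn_le h) hp1)) hm
  have l : F 13421772 ≤ J := le_trans (mul_le_mul_of_nonneg_right
    (exp_le_exp.2 (div_le_div_of_nonneg_right (by norm_num [rn]) hp1)) hm) lower
  have u : J ≤ F 41943040 := upper.trans (mul_le_mul_of_nonneg_right
    (exp_le_exp.2 (div_le_div_of_nonneg_right (by norm_num [rn]) hp1)) hm)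
  have top : epsP p ≤ rn 559241 := (eps_le hp).trans (by norm_num [rn])
  have bot : rn 0 ≤ epsP p := le_of_eq_of_le (by simp [rn]) (eps_pos p).le
  rcases le_total (epsP p) (rn 8390) with hA | hA
  · exact partA p hp bot hA J l u
  rcases le_total (epsP p) (rn 50332) with hB | hB
  · exact partB p hp ((rn_le (by norm_num)).trans hA) hB J l u
  rcases le_total (epsP p) (rn 150995) with hC | hC
  · exact partC p hp ((rn_le (by norm_num)).trans hB) hC J l u
  rcases le_total (epsP p) (rn 251660) with hD | hD
  · rcases le_total J (F 24326964) with h1 | h1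
    · exact partD1 p hp ((rn_le (by norm_num)).trans hC) hD J l h1
    · exact partD2 p hp ((rn_le (by norm_num)).trans hC) hD J ((mono (by norm_num)).trans h1) u
  rcases le_total (epsP p) (rn 352322) with hE | hE
  · rcases le_total J (F 21810381) with h1 | h1
    · exact partE1 p hp ((rn_le (by norm_num)).trans hD) hE J l h1
    · exact partE2 p hp ((rn_le (by norm_num)).trans hD) hE J ((mono (by norm_num)).trans h1) u
  rcases le_total (epsP p) (rn 452985) with hF | hF
  · rcases le_total J (F 20971520) with h1 | h1
    · exact partF1 p hp ((rn_le (by norm_num)).trans hE) hF J l h1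
    rcases le_total J (F 31876711) with h2 | h2
    · exact partF2 p hp ((rn_le (by norm_num)).trans hE) hF J h1 h2
    · exact partF3 p hp ((rn_le (by norm_num)).trans hE) hF J ((mono (by norm_num)).trans h2) u
  rcases le_total J (F 18454938) with h1 | h1
  · exact partG1 p hp ((rn_le (by norm_num)).trans hF) top J l h1
  rcases le_total J (F 28521268) with h2 | h2
  · exact partG2 p hp ((rn_le (by norm_num)).trans hF) top J ((mono (by norm_num)).trans h1) h2
  · exact partG3 p hp ((rn_le (by norm_num)).trans hF) top J ((mono (by norm_num)).trans h2) u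

end Vale.Agent.P237.All.Transport.Mid
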