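import Vale.Agent.P237.All.CertPotentialFun
import Vale.Agent.P237.All.TailPoint

/-!
P237, cell `k` in `[4/5, 5/2]`: the majorant of the density with the potential
`(1 - c + ε a (X), W (X))` in the variables `ε = 1 / (p + 1)`, `X = (p + 2) y ^ 2`,
`σ = (w - 1) / ε`, `υ = (t - y) / (ε y)` (`notes/P237h6/mid-cell-02Dec.md`).
-/

noncomputable section

open Real Set

namespace Vale.Agent.P237.All.Transport.Mid

/-- `1 / (p + 2)`. -/
def iA (ε : ℝ) : ℝ := ε / (1 + ε)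

/-- `(p + 1) / ((p + 2) (1 - y ^ 2))`. -/
def MA (ε X : ℝ) : ℝ := 1 / (1 + ε - ε * X)

/-- The coefficient of `σ`. -/
def RnR (D e1 aX ε X : ℝ) : ℝ :=
  aX - 1 / (1 - ε) * (1 - 22 / 5 * D + e1 - (1 / 2 - D) + 17 / 5 * D +
    X * (1 / 2 + 22 / 5 * D + (1 - 44 / 5 * D) * iA ε))

/-- The coefficient of `υ`. -/
def LR (D aX a1 ε X : ℝ) : ℝ :=
  X * (2 * a1 + MA ε X * ((1 - 22 / 5 * D) * (1 - X) - aX) + 1 / (1 + ε) * (2 - 22 / 5 * D))

/-- The coefficient of `σ υ`. -/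
def CnR (D W ε X : ℝ) : ℝ :=
  2 * W - X * (ε / (1 - ε)) *
    (1 - 22 / 5 * D + iA ε * (2 - 88 / 25 * D) - 22 / 25 * D * (1 / (1 + ε)))

/-- The coefficient of `υ ^ 2`. -/
def QbR (D W W1 ε X ψ : ℝ) : ℝ :=
  X * (2 * W1 + (1 / 2 + 11 / 25 * D) * (1 + 2 * iA ε)) - W * (1 + X * MA ε X) -
    ψ * (132 / 25 * D) * (X * iA ε)

/-- The weight of the deficit from below; `z` bounds `-(y (t - y))`. -/
def KpR (D ε X z : ℝ) : ℝ := 22 / 5 * D * (1 - X * iA ε - z / 5)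

/-- The weight of the excess from above. -/
def KwR (D aX Rn ε X z : ℝ) : ℝ := 1 + (aX - Rn) * ε - 22 / 5 * D * (X * iA ε) + z

/-- The quadratic form. -/
def quad (Rn L Cn κ Qb σ υ : ℝ) : ℝ :=
  Rn * σ + L * υ + Cn * σ * υ - κ * σ ^ 2 + Qb * υ ^ 2

/-- `ε = 1 / (p + 1)`. -/
def epsP (p : ℕ) : ℝ := 1 / ((p : ℝ) + 1)

/-- `X = (p + 2) y ^ 2`. -/
def XP (p : ℕ) (y : ℝ) : ℝ := ((p : ℝ) + 2) * y ^ 2

/-- `ell`. -/
def ellM (p : ℕ) (D e1 c2 : ℝ) : ℝ := (p : ℝ) + 1 + e1 + (1 / 2 - D) * (c2 - 1)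

/-- The values of the potential at `y`. -/
structure PotAt (p : ℕ) (D aX a1 W0 W1 y : ℝ) (A dA W dW : ℝ → ℝ) : Prop where
  hA : A y = 1 - 22 / 5 * D + aX * epsP p
  hdA : dA y = 2 * ((p : ℝ) + 2) * y * a1 * epsP p
  hW : W y = W0
  hdW : dW y = 2 * ((p : ℝ) + 2) * y * W1

variable {p : ℕ} {D e1 aX a1 W0 W1 z c2 lam y t r : ℝ} {A dA W dW : ℝ → ℝ}

theorem maj_re (hp : 1 ≤ p) (h : PotAt p D aX a1 W0 W1 y A dA W dW) :
    A y - majLr p (1 / 2 - D) D (6 / 5) (ellM p D e1 c2) c2 y / p =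
      epsP p * RnR D e1 aX (epsP p) (XP p y) := by
  have hp0 : (0 : ℝ) < p := Nat.cast_pos.2 (by omega)
  have h1 : 0 < 1 - 1 / ((p : ℝ) + 1) := by rw [sub_pos, div_lt_one (by linarith)]; linarith
  have e0 : 1 - 1 / ((p : ℝ) + 1) = (p : ℝ) / ((p : ℝ) + 1) := by field_simp; ring
  rw [h.hA, RnR]
  simp only [majLr, majC, ellM, epsP, XP, iA, e0]
  field_simp
  ring

theorem maj_le (hy : y ∈ Ioo (0 : ℝ) 1) (h : PotAt p D aX a1 W0 W1 y A dA W dW) :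
    y * (dA y - ((p : ℝ) + 1) * y / (1 - y ^ 2) * A y + majLt p (1 / 2 - D) D (6 / 5) y) =
      epsP p * LR D aX a1 (epsP p) (XP p y) := by
  have hS : 0 < 1 - y ^ 2 := by nlinarith [hy.1, hy.2]
  have := hS.ne'
  have e : 1 + 1 / ((p : ℝ) + 1) - 1 / ((p : ℝ) + 1) * (((p : ℝ) + 2) * y ^ 2) =
      ((p : ℝ) + 2) / ((p : ℝ) + 1) * (1 - y ^ 2) := by field_simp; ring
  rw [h.hdA, h.hA, LR]
  simp only [majLt, majC, epsP, XP, MA, e]
  field_simp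
  ring

theorem maj_cross (hp : 1 ≤ p) (hy : y ∈ Ioo (0 : ℝ) 1) (h : PotAt p D aX a1 W0 W1 y A dA W dW) :
    y * (2 * (W y / y) - majX p (1 / 2 - D) D (6 / 5) y / p) = CnR D W0 (epsP p) (XP p y) := by
  have hp0 : (0 : ℝ) < p := Nat.cast_pos.2 (by omega)
  have h1 : 0 < 1 - 1 / ((p : ℝ) + 1) := by rw [sub_pos, div_lt_one (by linarith)]; linarith
  have e0 : 1 - 1 / ((p : ℝ) + 1) = (p : ℝ) / ((p : ℝ) + 1) := by field_simp; ring
  have := hy.1.ne'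
  rw [h.hW, CnR]
  simp only [majX, majC, epsP, XP, iA, e0]
  field_simp
  ring

theorem maj_sq (hy : y ∈ Ioo (0 : ℝ) 1) (ψ : ℝ) (h : PotAt p D aX a1 W0 W1 y A dA W dW) :
    y ^ 2 * (((1 / 2 - D) + D * (6 / 5 : ℝ) ^ 2) * ((p : ℝ) + 4) +
      (dW y / y - W y / y ^ 2 - ((p : ℝ) + 1) * W y / (1 - y ^ 2)) - 6 / 5 * majC (6 / 5) D * ψ) =
      QbR D W0 W1 (epsP p) (XP p y) ψ := by
  have hS : 0 < 1 - y ^ 2 := by nlinarith [hy.1, hy.2]
  have := hS.ne'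
  have := hy.1.ne'
  have e : 1 + 1 / ((p : ℝ) + 1) - 1 / ((p : ℝ) + 1) * (((p : ℝ) + 2) * y ^ 2) =
      ((p : ℝ) + 2) / ((p : ℝ) + 1) * (1 - y ^ 2) := by field_simp; ring
  rw [h.hdW, h.hW, QbR]
  simp only [majC, epsP, XP, MA, e, iA]
  field_simp
  ring

theorem kp_ge (hD : 0 ≤ D) (hy : y ∈ Ioo (0 : ℝ) 1) (hz : -z ≤ y * (t - y)) :
    KpR D (epsP p) (XP p y) z ≤ majKp (6 / 5) D y (t - y) := by
  have e : XP p y * iA (epsP p) = y ^ 2 := by simp only [XP, iA, epsP]; field_simp; ring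
  rw [KpR, e, majKp, majC]
  nlinarith [mul_le_mul_of_nonneg_left hz hD]

theorem kw_le (hp : 29 ≤ p) (hD : D ∈ Icc (1 / 4 : ℝ) (2 / 5)) (hy : y ∈ Ioo (0 : ℝ) 1)
    (hz : -z ≤ y * (t - y)) (hz0 : 0 ≤ z) (h : PotAt p D aX a1 W0 W1 y A dA W dW) :
    majKw p (1 / 2 - D) D (6 / 5) (ellM p D e1 c2) c2 y (t - y) ≤
      KwR D aX (RnR D e1 aX (epsP p) (XP p y)) (epsP p) (XP p y) z := by
  have hp29 : (29 : ℝ) ≤ p := by exact_mod_cast hp
  have e : XP p y * iA (epsP p) = y ^ 2 := by simp only [XP, iA, epsP]; field_simp; ring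
  have hre := maj_re (e1 := e1) (c2 := c2) (by omega) h
  set b := ((1 - 22 / 5 * D) * ((p : ℝ) + 2) + (2 - 22 / 5 * D)) / p with hb
  have hb0 : b ≤ 0 := by
    rw [hb, div_nonpos_iff]; right; exact ⟨by nlinarith [hD.1], by linarith⟩
  have hb1 : -1 ≤ b := by
    rw [hb, le_div_iff₀ (by linarith)]; nlinarith [hD.2]
  have hx : majX p (1 / 2 - D) D (6 / 5) y * (t - y) / p + majC (6 / 5) D * (6 / 5 - 1) * y * (t - y) =
      b * (y * (t - y)) := by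
    simp only [majX, majC, hb]; field_simp; ring
  have hbz : b * (y * (t - y)) ≤ z := by
    nlinarith [mul_le_mul_of_nonpos_left hz hb0, mul_le_mul_of_nonneg_right hb1 hz0]
  rw [majKw, majKp, KwR, e]
  rw [h.hA] at hre
  have : majC (6 / 5) D = 22 / 5 * D := by unfold majC; ring
  rw [this] at hx ⊢
  nlinarith

/-- The common algebra of the two sides. -/
theorem lin_eq (hp : 1 ≤ p) (hy : y ∈ Ioo (0 : ℝ) 1) (h : PotAt p D aX a1 W0 W1 y A dA W dW) (s θ : ℝ) :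
    majLin p (1 / 2 - D) D (6 / 5) (ellM p D e1 c2) c2 (A y)
        (dA y - ((p : ℝ) + 1) * y / (1 - y ^ 2) * A y) (W y / y) y θ s =
      epsP p ^ 2 * (RnR D e1 aX (epsP p) (XP p y) * (s / epsP p) +
        LR D aX a1 (epsP p) (XP p y) * (θ / (epsP p * y)) +
        CnR D W0 (epsP p) (XP p y) * (s / epsP p) * (θ / (epsP p * y))) := by
  have hε : epsP p ≠ 0 := by unfold epsP; positivity
  have := hy.1.ne'
  rw [majLin, maj_re hp h, ← maj_cross hp hy h,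
    show (dA y - ((p : ℝ) + 1) * y / (1 - y ^ 2) * A y + majLt p (1 / 2 - D) D (6 / 5) y) * θ =
      y * (dA y - ((p : ℝ) + 1) * y / (1 - y ^ 2) * A y + majLt p (1 / 2 - D) D (6 / 5) y) * (θ / y) by
      field_simp, maj_le hy h]
  field_simp

/-- The potential enters as the majorant expects. -/
theorem pot_eq (hy : y ∈ Ioo (0 : ℝ) 1) (hr : 0 < r) :
    potFY p A dA W dW y t + potFT p A W y t / r ^ p = semi y ^ (p + 1) *
      ((dA y - ((p : ℝ) + 1) * y / (1 - y ^ 2) * A y) * (t - y) + A y * ((r ^ p)⁻¹ - 1) +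
        (dW y / y - W y / y ^ 2 - ((p : ℝ) + 1) * W y / (1 - y ^ 2)) * (t - y) ^ 2 +
        2 * (W y / y) * (t - y) * ((r ^ p)⁻¹ - 1)) := by
  have hS : 0 < 1 - y ^ 2 := by nlinarith [hy.1, hy.2]
  have := hS.ne'
  have := hy.1.ne'
  have := (pow_pos hr p).ne'
  simp only [potFY, potFT]
  field_simp
  ring

theorem hK2 (hp : 29 ≤ p) (hD : D ∈ Icc (1 / 4 : ℝ) (2 / 5)) :
    ((1 / 2 - D) + D * (6 / 5 : ℝ) ^ 2) * ((p : ℝ) + 4) ≤
      ((p : ℝ) + 1) * (6 / 5 * majC (6 / 5) D) := by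
  have hp29 : (29 : ℝ) ≤ p := by exact_mod_cast hp
  unfold majC
  nlinarith [mul_le_mul_of_nonneg_left hD.1 (show (0 : ℝ) ≤ p by linarith), hD.1, hD.2]

/-- The majorant on the side `w ≥ 1`. -/
theorem point_pos (hp : 29 ≤ p) (hD : D ∈ Icc (1 / 4 : ℝ) (2 / 5)) (hy : y ∈ Ioo (0 : ℝ) 1)
    (hr : 0 < r) (hr1 : r ≤ 1) (h : PotAt p D aX a1 W0 W1 y A dA W dW)
    (hz : -z ≤ y * (t - y)) (hz0 : 0 ≤ z) {kp kw tw dd κ ψ : ℝ}
    (hkp : kp ≤ KpR D (epsP p) (XP p y) z) (hkp0 : 0 ≤ KpR D (epsP p) (XP p y) z)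
    (hkw : KwR D aX (RnR D e1 aX (epsP p) (XP p y)) (epsP p) (XP p y) z ≤ kw) (hkw0 : 0 ≤ kw)
    (htw : (r ^ p)⁻¹ / ((r ^ p)⁻¹ + 1) + 1 / (2 * (p : ℝ)) ≤ tw)
    (hdd0 : 0 ≤ dd) (hdd : dd ≤ 1 / ((p : ℝ) * (r ^ p)⁻¹))
    (hκ : κ * (r ^ p)⁻¹ ≤ kp * (1 + dd) - kw * tw)
    (hψ : ψ ≤ max 0 (1 - ((p : ℝ) + 1) / p * ((r ^ p)⁻¹ - 1))) :
    density p 0 (1 / 2 - D) D (6 / 5) (ellM p D e1 c2) lam c2 y t r +
        (potFY p A dA W dW y t + potFT p A W y t / r ^ p) ≤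
      semi y ^ (p + 1) * (majZero p (1 / 2 - D) D c2 y + epsP p ^ 2 *
        quad (RnR D e1 aX (epsP p) (XP p y)) (LR D aX a1 (epsP p) (XP p y))
          (CnR D W0 (epsP p) (XP p y)) κ (QbR D W0 W1 (epsP p) (XP p y) ψ)
          (((r ^ p)⁻¹ - 1) / epsP p) ((t - y) / (epsP p * y))) := by
  have hK := kp_ge (p := p) (D := D) (by linarith [hD.1]) hy hz
  have hm := density_maj_one_le p (by omega) (g := 1 / 2 - D) (d := D) (β := 6 / 5)
    (ell := ellM p D e1 c2) (lam := lam) (c2 := c2) (A := A y)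
    (LA := dA y - ((p : ℝ) + 1) * y / (1 - y ^ 2) * A y) (U := W y / y)
    (LU := dW y / y - W y / y ^ 2 - ((p : ℝ) + 1) * W y / (1 - y ^ 2)) (y := y) (t := t)
    ⟨by linarith [hy.1], hy.2.le⟩ hr hr1 (by linarith [hD.2]) (by linarith [hD.1]) (by norm_num)
    (hkp0.trans hK)
  rw [pot_eq hy hr]
  refine hm.trans (mul_le_mul_of_nonneg_left ?_ (pow_nonneg (Real.sqrt_nonneg _) _))
  have hp0 : (0 : ℝ) < p := Nat.cast_pos.2 (by omega)
  rw [lin_eq (by omega) hy h]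
  set w := (r ^ p)⁻¹ with hw
  have hw0 : 0 < w := inv_pos.2 (pow_pos hr p)
  have hε : 0 < epsP p := by unfold epsP; positivity
  have hkw' := (kw_le (e1 := e1) (c2 := c2) hp hD hy hz hz0 h).trans hkw
  have e1' : kp * (1 + dd) - kw * tw ≤ majKp (6 / 5) D y (t - y) * (1 + 1 / ((p : ℝ) * w)) -
      max 0 (majKw p (1 / 2 - D) D (6 / 5) (ellM p D e1 c2) c2 y (t - y)) *
        (w / (w + 1) + 1 / (2 * (p : ℝ))) := by
    refine sub_le_sub ?_ (mul_le_mul (max_le hkw0 hkw') htw (by positivity) hkw0)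
    exact (mul_le_mul_of_nonneg_right (hkp.trans hK) (by positivity)).trans
      (mul_le_mul_of_nonneg_left (by linarith) (hkp0.trans hK))
  have e2 := mul_le_mul_of_nonneg_right (hκ.trans e1') (show 0 ≤ (w - 1) ^ 2 / w by positivity)
  have e3 : κ * w * ((w - 1) ^ 2 / w) = epsP p ^ 2 * (κ * ((w - 1) / epsP p) ^ 2) := by
    field_simp
  have hcq : 0 ≤ 6 / 5 * majC (6 / 5) D := by unfold majC; linarith [hD.1]
  have e4 := mul_le_mul_of_nonneg_right (sub_le_sub_left (mul_le_mul_of_nonneg_left hψ hcq)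
    (((1 / 2 - D) + D * (6 / 5) ^ 2) * ((p : ℝ) + 4) +
      (dW y / y - W y / y ^ 2 - ((p : ℝ) + 1) * W y / (1 - y ^ 2)))) (sq_nonneg (t - y))
  have := hy.1.ne'
  have e5 : (((1 / 2 - D) + D * (6 / 5) ^ 2) * ((p : ℝ) + 4) +
      (dW y / y - W y / y ^ 2 - ((p : ℝ) + 1) * W y / (1 - y ^ 2)) - 6 / 5 * majC (6 / 5) D * ψ) *
      (t - y) ^ 2 = epsP p ^ 2 * (QbR D W0 W1 (epsP p) (XP p y) ψ * ((t - y) / (epsP p * y)) ^ 2) := by
    rw [← maj_sq hy ψ h]; field_simp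
  rw [e3] at e2
  rw [e5] at e4
  simp only [quad]
  linarith

/-- `excessLow` below the share at the same root. -/
theorem excessLow_le_share (p : ℕ) (hp : 2 ≤ p) {u su : ℝ} (hu : 0 ≤ u) (hsu : u ≤ su) :
    excessLow p u ≤ su / (1 + su) + 1 / (2 * (p : ℝ)) := by
  have hp2 : (2 : ℝ) ≤ p := by exact_mod_cast hp
  have a : u / (1 + u) ≤ su / (1 + su) := by
    rw [div_le_div_iff₀ (by linarith) (by linarith)]; linarith
  have b : u * (2 + u) / (1 + u) ^ 2 - u / (1 + u) ≤ 1 / 4 := by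
    rw [show u * (2 + u) / (1 + u) ^ 2 - u / (1 + u) = u / (1 + u) ^ 2 by field_simp; ring,
      div_le_div_iff₀ (by positivity) (by norm_num)]
    nlinarith [sq_nonneg (u - 1)]
  have e : excessLow p u = u / (1 + u) + 2 / (p : ℝ) * (u * (2 + u) / (1 + u) ^ 2 - u / (1 + u)) := by
    rw [excessLow]; ring
  rw [e]
  refine (add_le_add a (mul_le_mul_of_nonneg_left b (by positivity))).trans (le_of_eq ?_)
  field_simp; ring

/-- The majorant on the side `w ≤ 1`. -/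
theorem point_neg (hp : 29 ≤ p) (hD : D ∈ Icc (1 / 4 : ℝ) (2 / 5)) (hy : y ∈ Ioo (0 : ℝ) 1)
    (hr1 : 1 ≤ r) (h : PotAt p D aX a1 W0 W1 y A dA W dW)
    (hz : -z ≤ y * (t - y)) (hz0 : 0 ≤ z) {kp kw tw dd κ su : ℝ}
    (hkp : kp ≤ KpR D (epsP p) (XP p y) z) (hkp0 : 0 ≤ KpR D (epsP p) (XP p y) z)
    (hkw : KwR D aX (RnR D e1 aX (epsP p) (XP p y)) (epsP p) (XP p y) z ≤ kw) (hkw0 : 0 ≤ kw)
    (hsu : √((r ^ p)⁻¹) ≤ su) (htw : su / (1 + su) + 1 / (2 * (p : ℝ)) ≤ tw) (hdd0 : 0 ≤ dd) (hdd : dd ≤ 1 / (p : ℝ))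
    (hκ : κ * (r ^ p)⁻¹ ≤ kp * (1 + dd) - kw * tw) :
    density p 0 (1 / 2 - D) D (6 / 5) (ellM p D e1 c2) lam c2 y t r +
        (potFY p A dA W dW y t + potFT p A W y t / r ^ p) ≤
      semi y ^ (p + 1) * (majZero p (1 / 2 - D) D c2 y + epsP p ^ 2 *
        quad (RnR D e1 aX (epsP p) (XP p y)) (LR D aX a1 (epsP p) (XP p y))
          (CnR D W0 (epsP p) (XP p y)) κ (QbR D W0 W1 (epsP p) (XP p y) 1)
          (((r ^ p)⁻¹ - 1) / epsP p) ((t - y) / (epsP p * y))) := by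
  have hr : 0 < r := lt_of_lt_of_le one_pos hr1
  have hK := kp_ge (p := p) (D := D) (by linarith [hD.1]) hy hz
  have hm := density_maj_le_one p (by omega) (g := 1 / 2 - D) (d := D) (β := 6 / 5)
    (ell := ellM p D e1 c2) (lam := lam) (c2 := c2) (A := A y)
    (LA := dA y - ((p : ℝ) + 1) * y / (1 - y ^ 2) * A y) (U := W y / y)
    (LU := dW y / y - W y / y ^ 2 - ((p : ℝ) + 1) * W y / (1 - y ^ 2)) (y := y) (t := t)
    ⟨by linarith [hy.1], hy.2.le⟩ hr1 (by linarith [hD.1]) (by norm_num) (hkp0.trans hK) (hK2 hp hD)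
  rw [pot_eq hy hr]
  refine hm.trans (mul_le_mul_of_nonneg_left ?_ (pow_nonneg (Real.sqrt_nonneg _) _))
  rw [lin_eq (by omega) hy h]
  set w := (r ^ p)⁻¹ with hw
  have hw0 : 0 < w := inv_pos.2 (pow_pos hr p)
  have hw1 : w ≤ 1 := inv_le_one_of_one_le₀ (one_le_pow₀ hr1)
  have hε : 0 < epsP p := by unfold epsP; positivity
  have hkw' := (kw_le (e1 := e1) (c2 := c2) hp hD hy hz hz0 h).trans hkw
  have htw' := (excessLow_le_share p (by omega) (Real.sqrt_nonneg w) hsu).trans htw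
  have e1' : kp * (1 + dd) - kw * tw ≤ majKp (6 / 5) D y (t - y) * (1 + 1 / (p : ℝ)) -
      max 0 (majKw p (1 / 2 - D) D (6 / 5) (ellM p D e1 c2) c2 y (t - y)) * excessLow p √w := by
    refine sub_le_sub ?_ ((mul_le_mul_of_nonneg_left htw' (le_max_left _ _)).trans
      (mul_le_mul_of_nonneg_right (max_le hkw0 hkw') (le_trans (by
          have := (Real.sqrt_nonneg w).trans hsu
          positivity) htw)))
    exact (mul_le_mul_of_nonneg_right (hkp.trans hK) (by positivity)).trans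
      (mul_le_mul_of_nonneg_left (by linarith) (hkp0.trans hK))
  have e2 := mul_le_mul_of_nonneg_right (hκ.trans e1') (show 0 ≤ (w - 1) ^ 2 / w by positivity)
  have e3 : κ * w * ((w - 1) ^ 2 / w) = epsP p ^ 2 * (κ * ((w - 1) / epsP p) ^ 2) := by
    field_simp
  have := hy.1.ne'
  have e5 : (((1 / 2 - D) + D * (6 / 5) ^ 2) * ((p : ℝ) + 4) +
      (dW y / y - W y / y ^ 2 - ((p : ℝ) + 1) * W y / (1 - y ^ 2)) - 6 / 5 * majC (6 / 5) D * 1) *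
      (t - y) ^ 2 = epsP p ^ 2 * (QbR D W0 W1 (epsP p) (XP p y) 1 * ((t - y) / (epsP p * y)) ^ 2) := by
    rw [← maj_sq hy 1 h]; field_simp
  rw [e3] at e2
  rw [mul_one] at e5
  simp only [quad]
  linarith

end Vale.Agent.P237.All.Transport.Mid
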