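import Mathlib

/-!
P237, cell `k` in `[4/5, 5/2]`: signed naturals at the scale `U = 2 ^ 24`, written for evaluation by
the kernel, and affine forms in two centred parameters with a remainder.
-/

noncomputable section

namespace Vale.Agent.P237.All.Transport.Mid

/-- The scale. -/
def U : ℕ := 16777216

theorem U_pos : (0 : ℝ) < (U : ℝ) := by norm_num [U]

theorem U_ne : (U : ℝ) ≠ 0 := U_pos.ne'

/-- Evaluates a natural number before passing it on. -/
def forceN {α : Type} (x : ℕ) (k : ℕ → α) : α := Nat.rec (k 0) (fun m _ => k (Nat.succ m)) x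

theorem forceN_eq {α : Type} (x : ℕ) (k : ℕ → α) : forceN x k = k x := by cases x <;> rfl

/-- A difference of two naturals. -/
structure Sg where
  pos : ℕ
  neg : ℕ

namespace Sg

/-- The integer represented. -/
def v (x : Sg) : ℝ := (x.pos : ℝ) - (x.neg : ℝ)

/-- The reduced form. -/
def nm (p n : ℕ) : Sg := ⟨Nat.sub p n, Nat.sub n p⟩

theorem nm_def (p n : ℕ) : nm p n = ⟨p - n, n - p⟩ := rfl

theorem nm_v (p n : ℕ) : (nm p n).v = (p : ℝ) - n := by
  rcases le_total n p with h | h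
  · simp [v, nm_def, Nat.cast_sub h, Nat.sub_eq_zero_of_le h]
  · simp [v, nm_def, Nat.cast_sub h, Nat.sub_eq_zero_of_le h]

/-- A natural number. -/
def ofN (n : ℕ) : Sg := ⟨n, 0⟩

/-- The opposite. -/
def neg' (x : Sg) : Sg := ⟨x.neg, x.pos⟩

/-- The sum. -/
def add (x y : Sg) : Sg := ⟨Nat.add x.pos y.pos, Nat.add x.neg y.neg⟩

theorem add_def (x y : Sg) : add x y = ⟨x.pos + y.pos, x.neg + y.neg⟩ := rfl

/-- The difference. -/
def sub (x y : Sg) : Sg := ⟨Nat.add x.pos y.neg, Nat.add x.neg y.pos⟩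

theorem sub_def (x y : Sg) : sub x y = ⟨x.pos + y.neg, x.neg + y.pos⟩ := rfl

/-- The exact product. -/
def mul (x y : Sg) : Sg := ⟨Nat.add (Nat.mul x.pos y.pos) (Nat.mul x.neg y.neg), Nat.add (Nat.mul x.pos y.neg) (Nat.mul x.neg y.pos)⟩

theorem mul_def (x y : Sg) : mul x y = ⟨x.pos * y.pos + x.neg * y.neg, x.pos * y.neg + x.neg * y.pos⟩ := rfl

/-- The product by a natural number. -/
def smul (n : ℕ) (x : Sg) : Sg := ⟨Nat.mul n x.pos, Nat.mul n x.neg⟩

theorem smul_def (n : ℕ) (x : Sg) : smul n x = ⟨n * x.pos, n * x.neg⟩ := rfl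

/-- The reduced form, again. -/
def norm (x : Sg) : Sg := nm x.pos x.neg

/-- An upper bound on the absolute value, exact on reduced forms. -/
def abs' (x : Sg) : ℕ := Nat.add (Nat.sub x.pos x.neg) (Nat.sub x.neg x.pos)

theorem abs_def (x : Sg) : abs' x = (x.pos - x.neg) + (x.neg - x.pos) := rfl

/-- The negative part. -/
def negPart (x : Sg) : ℕ := Nat.sub x.neg x.pos

theorem negPart_def (x : Sg) : negPart x = x.neg - x.pos := rfl

/-- The positive part. -/
def posPart (x : Sg) : ℕ := Nat.sub x.pos x.neg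

theorem posPart_def (x : Sg) : posPart x = x.pos - x.neg := rfl

/-- The order. -/
def le (x y : Sg) : Bool := Nat.ble (Nat.add x.pos y.neg) (Nat.add y.pos x.neg)

theorem le_def (x y : Sg) : le x y = Nat.ble (x.pos + y.neg) (y.pos + x.neg) := rfl

/-- The strict order. -/
def lt (x y : Sg) : Bool := Nat.blt (Nat.add x.pos y.neg) (Nat.add y.pos x.neg)

theorem lt_def (x y : Sg) : lt x y = Nat.blt (x.pos + y.neg) (y.pos + x.neg) := rfl

/-- A quotient by a natural number, off by less than one. -/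
def divN (x : Sg) (d : ℕ) : Sg := nm (Nat.div x.pos d) (Nat.div x.neg d)

theorem divN_def (x : Sg) (d : ℕ) : divN x d = nm (x.pos / d) (x.neg / d) := rfl

/-- A quotient, rounded up. -/
def divUp (x : Sg) (d : ℕ) : Sg := ⟨Nat.div (Nat.sub (Nat.add (Nat.sub x.pos x.neg) d) 1) d, Nat.div (Nat.sub x.neg x.pos) d⟩

theorem divUp_def (x : Sg) (d : ℕ) : divUp x d = ⟨(x.pos - x.neg + d - 1) / d, (x.neg - x.pos) / d⟩ := rfl

/-- A quotient, rounded down. -/
def divDown (x : Sg) (d : ℕ) : Sg := ⟨Nat.div (Nat.sub x.pos x.neg) d, Nat.div (Nat.sub (Nat.add (Nat.sub x.neg x.pos) d) 1) d⟩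

theorem divDown_def (x : Sg) (d : ℕ) : divDown x d = ⟨(x.pos - x.neg) / d, (x.neg - x.pos + d - 1) / d⟩ := rfl

@[simp] theorem ofN_v (n : ℕ) : (ofN n).v = n := by simp [ofN, v]

@[simp] theorem neg_v (x : Sg) : (neg' x).v = -x.v := by simp [neg', v]

@[simp] theorem add_v (x y : Sg) : (add x y).v = x.v + y.v := by simp [add_def, v]; ring

@[simp] theorem sub_v (x y : Sg) : (sub x y).v = x.v - y.v := by simp [sub_def, v]; ring

@[simp] theorem mul_v (x y : Sg) : (mul x y).v = x.v * y.v := by simp [mul_def, v]; ring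

@[simp] theorem smul_v (n : ℕ) (x : Sg) : (smul n x).v = n * x.v := by simp [smul_def, v]; ring

@[simp] theorem norm_v (x : Sg) : (norm x).v = x.v := nm_v _ _

theorem v_split (x : Sg) : x.v = ((x.pos - x.neg : ℕ) : ℝ) - ((x.neg - x.pos : ℕ) : ℝ) :=
  (nm_v x.pos x.neg).symm

theorem abs_le_abs' (x : Sg) : |x.v| ≤ (abs' x : ℕ) := by
  rw [v_split, abs_def, Nat.cast_add, abs_le]
  constructor <;> linarith [Nat.cast_nonneg (α := ℝ) (x.pos - x.neg), Nat.cast_nonneg (α := ℝ) (x.neg - x.pos)]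

theorem abs_le_sum (x : Sg) : |x.v| ≤ (x.pos : ℝ) + x.neg :=
  (abs_sub _ _).trans_eq (by simp)

theorem neg_le_negPart (x : Sg) : -x.v ≤ (negPart x : ℕ) := by
  rw [v_split, negPart_def]
  linarith [Nat.cast_nonneg (α := ℝ) (x.pos - x.neg)]

theorem le_posPart (x : Sg) : x.v ≤ (posPart x : ℕ) := by
  rw [v_split, posPart_def]
  linarith [Nat.cast_nonneg (α := ℝ) (x.neg - x.pos)]

theorem le_iff {x y : Sg} (h : le x y = true) : x.v ≤ y.v := by
  rw [le_def, Nat.ble_eq] at h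
  have : (x.pos : ℝ) + y.neg ≤ y.pos + x.neg := by exact_mod_cast h
  simp only [v]; linarith

theorem lt_iff {x y : Sg} (h : lt x y = true) : x.v < y.v := by
  rw [lt_def, Nat.blt_eq] at h
  have : (x.pos : ℝ) + y.neg < y.pos + x.neg := by exact_mod_cast h
  simp only [v]; linarith

theorem nat_div_mem (a : ℕ) {d : ℕ} (hd : 0 < d) :
    (d : ℝ) * (a / d : ℕ) ≤ a ∧ (a : ℝ) ≤ d * (a / d : ℕ) + d ∧ (a : ℝ) < d * (a / d : ℕ) + d := by
  have h1 : d * (a / d) ≤ a := Nat.mul_div_le a d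
  have h2 : a < d * (a / d) + d := by
    have := Nat.lt_mul_div_succ a hd
    rwa [mul_add, mul_one] at this
  have h1' : ((d * (a / d) : ℕ) : ℝ) ≤ a := by exact_mod_cast h1
  have h2' : (a : ℝ) < ((d * (a / d) + d : ℕ) : ℝ) := by exact_mod_cast h2
  push_cast at h1' h2'
  exact ⟨h1', h2'.le, h2'⟩

theorem divN_v (x : Sg) {d : ℕ} (hd : 0 < d) : |(d : ℝ) * (divN x d).v - x.v| ≤ d := by
  obtain ⟨a1, a2, -⟩ := nat_div_mem x.pos hd
  obtain ⟨b1, b2, -⟩ := nat_div_mem x.neg hd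
  rw [divN_def, nm_v, v, abs_le]
  constructor <;> linarith

theorem nat_up (a : ℕ) {d : ℕ} (hd : 0 < d) : (a : ℝ) ≤ d * ((a + d - 1) / d : ℕ) := by
  have h2 := Nat.lt_mul_div_succ (a + d - 1) hd
  rw [mul_add, mul_one] at h2
  have : a ≤ d * ((a + d - 1) / d) := by omega
  exact_mod_cast this

theorem divUp_v (x : Sg) {d : ℕ} (hd : 0 < d) : x.v ≤ (d : ℝ) * (divUp x d).v := by
  obtain ⟨b1, -, -⟩ := nat_div_mem (x.neg - x.pos) hd
  have a := nat_up (x.pos - x.neg) hd
  rw [v_split x, divUp_def, v, mul_sub]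
  linarith

theorem divDown_v (x : Sg) {d : ℕ} (hd : 0 < d) : (d : ℝ) * (divDown x d).v ≤ x.v := by
  obtain ⟨b1, -, -⟩ := nat_div_mem (x.pos - x.neg) hd
  have a := nat_up (x.neg - x.pos) hd
  rw [v_split x, divDown_def, v, mul_sub]
  linarith

/-- Evaluates both parts before passing them on. -/
def force {α : Type} (x : Sg) (k : Sg → α) : α :=
  forceN x.pos fun p => forceN x.neg fun n => k ⟨p, n⟩

theorem force_eq {α : Type} (x : Sg) (k : Sg → α) : force x k = k x := by simp [force, forceN_eq]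

end Sg

/-- `c + s S + t T` up to `r`, at the scale `U`. -/
structure AF where
  c : Sg
  s : Sg
  t : Sg
  r : ℕ

namespace AF

/-- The form holds the value `v`. -/
def Has (f : AF) (S T v : ℝ) : Prop := |v * U - (f.c.v + f.s.v * S + f.t.v * T)| ≤ f.r

/-- A constant. -/
def const (c : Sg) : AF := ⟨c, ⟨0, 0⟩, ⟨0, 0⟩, 0⟩

/-- Linear in the second parameter. -/
def linT (c t : Sg) : AF := ⟨c, ⟨0, 0⟩, t, 0⟩

/-- The opposite. -/
def neg' (f : AF) : AF := ⟨f.c.neg', f.s.neg', f.t.neg', f.r⟩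

/-- The sum (the kernel reads each part once: one recursor step per structure). -/
def add (f g : AF) : AF :=
  AF.rec (fun fc fs ft fr => AF.rec (fun gc gs gt gr => Sg.rec (fun a b => Sg.rec (fun a' b' =>
    Sg.rec (fun c d => Sg.rec (fun c' d' => Sg.rec (fun e h => Sg.rec (fun e' h' =>
      ⟨Sg.nm (Nat.add a a') (Nat.add b b'), Sg.nm (Nat.add c c') (Nat.add d d'),
        Sg.nm (Nat.add e e') (Nat.add h h'), Nat.add fr gr⟩) gt) ft) gs) fs) gc) fc) g) f

theorem add_def (f g : AF) : add f g =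
    ⟨(f.c.add g.c).norm, (f.s.add g.s).norm, (f.t.add g.t).norm, f.r + g.r⟩ := rfl

/-- The difference. -/
def sub (f g : AF) : AF :=
  AF.rec (fun fc fs ft fr => AF.rec (fun gc gs gt gr => Sg.rec (fun a b => Sg.rec (fun b' a' =>
    Sg.rec (fun c d => Sg.rec (fun d' c' => Sg.rec (fun e h => Sg.rec (fun h' e' =>
      ⟨Sg.nm (Nat.add a a') (Nat.add b b'), Sg.nm (Nat.add c c') (Nat.add d d'),
        Sg.nm (Nat.add e e') (Nat.add h h'), Nat.add fr gr⟩) gt) ft) gs) fs) gc) fc) g) f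

theorem sub_def (f g : AF) : sub f g = add f (neg' g) := rfl

/-- The product by the ratio `n / d`. -/
def scale (f : AF) (n d : ℕ) : AF :=
  AF.rec (fun fc fs ft fr => Sg.rec (fun a b => Sg.rec (fun c e => Sg.rec (fun g h =>
    ⟨Sg.nm (Nat.div (Nat.mul n a) d) (Nat.div (Nat.mul n b) d),
      Sg.nm (Nat.div (Nat.mul n c) d) (Nat.div (Nat.mul n e) d),
      Sg.nm (Nat.div (Nat.mul n g) d) (Nat.div (Nat.mul n h) d),
      Nat.add (Nat.div (Nat.mul n fr) d) 4⟩) ft) fs) fc) f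

theorem scale_def (f : AF) (n d : ℕ) : scale f n d =
    ⟨(f.c.smul n).divN d, (f.s.smul n).divN d, (f.t.smul n).divN d, n * f.r / d + 4⟩ := rfl

/-- The product, with the squares of the parameters centred at one half. -/
def mul (f g : AF) : AF :=
  AF.rec (fun fc fs ft fr => AF.rec (fun gc gs gt gr => Sg.rec (fun a b => Sg.rec (fun a' b' =>
    Sg.rec (fun c d => Sg.rec (fun c' d' => Sg.rec (fun e h => Sg.rec (fun e' h' =>
      ⟨Sg.nm
          (Nat.div (Nat.add (Nat.mul 2 (Nat.add (Nat.mul a a') (Nat.mul b b')))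
            (Nat.add (Nat.add (Nat.mul c c') (Nat.mul d d')) (Nat.add (Nat.mul e e') (Nat.mul h h')))) 33554432)
          (Nat.div (Nat.add (Nat.mul 2 (Nat.add (Nat.mul a b') (Nat.mul b a')))
            (Nat.add (Nat.add (Nat.mul c d') (Nat.mul d c')) (Nat.add (Nat.mul e h') (Nat.mul h e')))) 33554432),
        Sg.nm
          (Nat.div (Nat.add (Nat.add (Nat.mul a c') (Nat.mul b d')) (Nat.add (Nat.mul c a') (Nat.mul d b'))) 16777216)
          (Nat.div (Nat.add (Nat.add (Nat.mul a d') (Nat.mul b c')) (Nat.add (Nat.mul c b') (Nat.mul d a'))) 16777216),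
        Sg.nm
          (Nat.div (Nat.add (Nat.add (Nat.mul a e') (Nat.mul b h')) (Nat.add (Nat.mul e a') (Nat.mul h b'))) 16777216)
          (Nat.div (Nat.add (Nat.add (Nat.mul a h') (Nat.mul b e')) (Nat.add (Nat.mul e b') (Nat.mul h a'))) 16777216),
        Nat.add (Nat.div (Nat.add (Nat.add (Nat.add (Nat.mul 2 (Nat.add (Nat.add (Nat.add (Nat.add
          (Nat.mul (Nat.add a b) gr) (Nat.mul (Nat.add a' b') fr))
          (Nat.mul (Nat.add (Nat.add c d) (Nat.add e h)) gr))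
          (Nat.mul (Nat.add (Nat.add c' d') (Nat.add e' h')) fr)) (Nat.mul fr gr)))
          (Nat.mul (Nat.add c d) (Nat.add c' d'))) (Nat.mul (Nat.add e h) (Nat.add e' h')))
          (Nat.mul 2 (Sg.abs' ⟨Nat.add (Nat.add (Nat.mul c e') (Nat.mul d h')) (Nat.add (Nat.mul e c') (Nat.mul h d')),
            Nat.add (Nat.add (Nat.mul c h') (Nat.mul d e')) (Nat.add (Nat.mul e d') (Nat.mul h c'))⟩))) 33554432) 4⟩)
      gt) ft) gs) fs) gc) fc) g) f

theorem mul_def (f g : AF) : mul f g =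
  ⟨((Sg.smul 2 (f.c.mul g.c)).add ((f.s.mul g.s).add (f.t.mul g.t))).divN (2 * U),
    ((f.c.mul g.s).add (f.s.mul g.c)).divN U, ((f.c.mul g.t).add (f.t.mul g.c)).divN U,
    (2 * ((f.c.pos + f.c.neg) * g.r + (g.c.pos + g.c.neg) * f.r +
      ((f.s.pos + f.s.neg) + (f.t.pos + f.t.neg)) * g.r +
      ((g.s.pos + g.s.neg) + (g.t.pos + g.t.neg)) * f.r + f.r * g.r) +
      (f.s.pos + f.s.neg) * (g.s.pos + g.s.neg) + (f.t.pos + f.t.neg) * (g.t.pos + g.t.neg) +
      2 * ((f.s.mul g.t).add (f.t.mul g.s)).abs') / (2 * U) + 4⟩ := rfl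

/-- The lower end of a form. -/
def low (f : AF) : Sg :=
  AF.rec (fun fc fs ft fr => Sg.rec (fun a b => Sg.rec (fun c d => Sg.rec (fun e h =>
    Sg.nm a (Nat.add b (Nat.add (Nat.add (Nat.add (Nat.sub c d) (Nat.sub d c))
      (Nat.add (Nat.sub e h) (Nat.sub h e))) fr))) ft) fs) fc) f

theorem low_def (f : AF) : low f = (f.c.sub (Sg.ofN (f.s.abs' + f.t.abs' + f.r))).norm := rfl

-- the bodies are for the kernel only; the elaborator uses the `_def` lemmas
attribute [irreducible] add sub scale mul low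

/-- The candidate for the inverse of a form with positive centre. -/
def invCand (f : AF) : AF :=
  ⟨Sg.ofN (U * U / f.c.posPart), (f.s.neg'.smul (U * U)).divN (f.c.posPart * f.c.posPart),
    (f.t.neg'.smul (U * U)).divN (f.c.posPart * f.c.posPart), 0⟩

/-- The inverse, from the residual of the candidate. -/
def inv (f : AF) : AF :=
  let y := invCand f
  let e := (const (Sg.ofN U)).sub (f.mul y)
  ⟨y.c, y.s, y.t, (e.c.abs' + e.s.abs' + e.t.abs' + e.r) * U / f.low.posPart + 1⟩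

variable {S T : ℝ}

theorem has_const {c : Sg} {v : ℝ} (h : v * U = c.v) : (const c).Has S T v := by
  simp [Has, const, h, Sg.v]

theorem has_linT {c t : Sg} {v : ℝ} (h : v * U = c.v + t.v * T) : (linT c t).Has S T v := by
  simp [Has, linT, h, Sg.v]

theorem Has.neg {f : AF} {u : ℝ} (h : f.Has S T u) : f.neg'.Has S T (-u) := by
  simp only [Has, neg', Sg.neg_v] at *
  rwa [← abs_neg, show -(-u * (U : ℝ) - (-f.c.v + -f.s.v * S + -f.t.v * T)) =
    u * U - (f.c.v + f.s.v * S + f.t.v * T) by ring]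

theorem Has.add {f g : AF} {u v : ℝ} (hf : f.Has S T u) (hg : g.Has S T v) :
    (f.add g).Has S T (u + v) := by
  simp only [Has, AF.add_def, Sg.norm_v, Sg.add_v, Nat.cast_add] at *
  refine le_trans (le_of_eq ?_) ((abs_add_le _ _).trans (add_le_add hf hg))
  ring_nf

theorem Has.sub {f g : AF} {u v : ℝ} (hf : f.Has S T u) (hg : g.Has S T v) :
    (f.sub g).Has S T (u - v) := by rw [AF.sub_def, sub_eq_add_neg]; exact hf.add hg.neg

theorem Has.scale {f : AF} {u : ℝ} (hf : f.Has S T u) (hS : |S| ≤ 1) (hT : |T| ≤ 1) (n : ℕ) {d : ℕ}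
    (hd : 0 < d) : (f.scale n d).Has S T (u * (n / d)) := by
  have a := Sg.divN_v (f.c.smul n) hd
  have b := Sg.divN_v (f.s.smul n) hd
  have c := Sg.divN_v (f.t.smul n) hd
  obtain ⟨-, -, e⟩ := Sg.nat_div_mem (n * f.r) hd
  have hd' : (0 : ℝ) < d := Nat.cast_pos.2 hd
  simp only [Has, AF.scale_def, Sg.smul_v] at *
  push_cast at e ⊢
  have bS : |((d : ℝ) * ((f.s.smul n).divN d).v - n * f.s.v) * S| ≤ d := by
    rw [abs_mul]; exact (mul_le_of_le_one_right (abs_nonneg _) hS).trans b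
  have cT : |((d : ℝ) * ((f.t.smul n).divN d).v - n * f.t.v) * T| ≤ d := by
    rw [abs_mul]; exact (mul_le_of_le_one_right (abs_nonneg _) hT).trans c
  have key := mul_le_mul_of_nonneg_left hf (Nat.cast_nonneg (α := ℝ) n)
  rw [← abs_of_nonneg (Nat.cast_nonneg (α := ℝ) n), ← abs_mul, abs_of_nonneg (Nat.cast_nonneg (α := ℝ) n)] at key
  refine le_of_mul_le_mul_left ?_ hd'
  rw [← abs_of_pos hd', ← abs_mul, abs_of_pos hd']
  have h1 := abs_le.1 key
  have h2 := abs_le.1 a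
  have h3 := abs_le.1 bS
  have h4 := abs_le.1 cT
  rw [abs_le, show (d : ℝ) * (u * (n / d) * U - (((f.c.smul n).divN d).v + ((f.s.smul n).divN d).v * S +
    ((f.t.smul n).divN d).v * T)) = n * (u * U) - d * (((f.c.smul n).divN d).v +
    ((f.s.smul n).divN d).v * S + ((f.t.smul n).divN d).v * T) by field_simp]
  constructor <;> linarith

theorem abs_mul_le {a b : ℝ} {A B : ℝ} (ha : |a| ≤ A) (hb : |b| ≤ B) : |a * b| ≤ A * B := by
  rw [abs_mul]; exact mul_le_mul ha hb (abs_nonneg _) ((abs_nonneg _).trans ha)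

/-- The error of a centred product, over the reals. -/
theorem mul_err {u v U fc fs ft gc gs gt C A B afc afs aft agc ags agt fr gr n1 n2 n3 R : ℝ}
    (hU : 0 < U) (hf : |u * U - (fc + fs * S + ft * T)| ≤ fr)
    (hg : |v * U - (gc + gs * S + gt * T)| ≤ gr) (h1 : |fc| ≤ afc) (h2 : |fs| ≤ afs) (h3 : |ft| ≤ aft)
    (h4 : |gc| ≤ agc) (h5 : |gs| ≤ ags) (h6 : |gt| ≤ agt) (h7 : |fs * gs| ≤ n1) (h8 : |ft * gt| ≤ n2)
    (h9 : |fs * gt + ft * gs| ≤ n3) (a : |2 * U * C - (2 * (fc * gc) + (fs * gs + ft * gt))| ≤ 2 * U)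
    (b : |U * A - (fc * gs + fs * gc)| ≤ U) (c : |U * B - (fc * gt + ft * gc)| ≤ U)
    (hR : 2 * (afc * gr + agc * fr + (afs + aft) * gr + (ags + agt) * fr + fr * gr) + n1 + n2 + 2 * n3
      ≤ 2 * U * R + 2 * U) (hS : |S| ≤ 1) (hT : |T| ≤ 1) :
    |u * v * U - (C + A * S + B * T)| ≤ R + 4 := by
  set e1 := u * U - (fc + fs * S + ft * T) with d1
  set e2 := v * U - (gc + gs * S + gt * T) with d2
  set l1 := fs * S + ft * T with hl1
  set l2 := gs * S + gt * T with hl2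
  have L1 : |l1| ≤ afs + aft := by
    refine (abs_add_le _ _).trans (add_le_add ?_ ?_) <;> rw [abs_mul]
    · exact (mul_le_of_le_one_right (abs_nonneg _) hS).trans h2
    · exact (mul_le_of_le_one_right (abs_nonneg _) hT).trans h3
  have L2 : |l2| ≤ ags + agt := by
    refine (abs_add_le _ _).trans (add_le_add ?_ ?_) <;> rw [abs_mul]
    · exact (mul_le_of_le_one_right (abs_nonneg _) hS).trans h5
    · exact (mul_le_of_le_one_right (abs_nonneg _) hT).trans h6
  have t1 := abs_le.1 (abs_mul_le h1 hg)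
  have t2 := abs_le.1 (abs_mul_le hf h4)
  have t3 := abs_le.1 (abs_mul_le L1 hg)
  have t4 := abs_le.1 (abs_mul_le hf L2)
  have t5 := abs_le.1 (abs_mul_le hf hg)
  obtain ⟨s0, s1⟩ := abs_le.1 hS
  obtain ⟨u0, u1⟩ := abs_le.1 hT
  have hS2 : |2 * S ^ 2 - 1| ≤ 1 := by
    rw [abs_le]; constructor <;> nlinarith only [s0, s1]
  have hT2 : |2 * T ^ 2 - 1| ≤ 1 := by
    rw [abs_le]; constructor <;> nlinarith only [u0, u1]
  have hST : |S * T| ≤ 1 := by rw [abs_mul]; exact mul_le_one₀ hS (abs_nonneg _) hT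
  have t6 := abs_le.1 (abs_mul_le h7 hS2)
  have t7 := abs_le.1 (abs_mul_le h8 hT2)
  have t8 := abs_le.1 (abs_mul_le h9 hST)
  have t9 := abs_le.1 a
  have t10 := abs_le.1 (abs_mul_le b hS)
  have t11 := abs_le.1 (abs_mul_le c hT)
  refine le_of_mul_le_mul_left ?_ (show 0 < 2 * U by linarith only [hU])
  rw [← abs_of_pos (show 0 < 2 * U by linarith only [hU]), ← abs_mul,
    abs_of_pos (show 0 < 2 * U by linarith only [hU]),
    show 2 * U * (u * v * U - (C + A * S + B * T)) =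
      2 * (fc * e2) + 2 * (e1 * gc) + 2 * (l1 * e2) + 2 * (e1 * l2) + 2 * (e1 * e2) +
      (fs * gs) * (2 * S ^ 2 - 1) + (ft * gt) * (2 * T ^ 2 - 1) +
      2 * ((fs * gt + ft * gs) * (S * T)) -
      (2 * U * C - (2 * (fc * gc) + (fs * gs + ft * gt))) -
      2 * ((U * A - (fc * gs + fs * gc)) * S) -
      2 * ((U * B - (fc * gt + ft * gc)) * T) by
      simp only [d1, d2, hl1, hl2]; ring, abs_le]
  constructor <;>
    linarith only [hR, hU, t1, t2, t3, t4, t5, t6, t7, t8, t9, t10, t11]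

theorem Has.mul {f g : AF} {u v : ℝ} (hf : f.Has S T u) (hg : g.Has S T v) (hS : |S| ≤ 1)
    (hT : |T| ≤ 1) : (f.mul g).Has S T (u * v) := by
  have hU : (0 : ℕ) < 2 * U := Nat.mul_pos two_pos (Nat.cast_pos.1 U_pos)
  have hU1 : (0 : ℕ) < U := Nat.cast_pos.1 U_pos
  have a := Sg.divN_v ((Sg.smul 2 (f.c.mul g.c)).add ((f.s.mul g.s).add (f.t.mul g.t))) hU
  have b := Sg.divN_v ((f.c.mul g.s).add (f.s.mul g.c)) hU1
  have c := Sg.divN_v ((f.c.mul g.t).add (f.t.mul g.c)) hU1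
  obtain ⟨-, er, -⟩ := Sg.nat_div_mem (2 * ((f.c.pos + f.c.neg) * g.r + (g.c.pos + g.c.neg) * f.r +
      ((f.s.pos + f.s.neg) + (f.t.pos + f.t.neg)) * g.r +
      ((g.s.pos + g.s.neg) + (g.t.pos + g.t.neg)) * f.r + f.r * g.r) +
      (f.s.pos + f.s.neg) * (g.s.pos + g.s.neg) + (f.t.pos + f.t.neg) * (g.t.pos + g.t.neg) +
      2 * ((f.s.mul g.t).add (f.t.mul g.s)).abs') hU
  simp only [Sg.add_v, Sg.mul_v, Sg.smul_v, Nat.cast_mul, Nat.cast_ofNat] at a b c
  simp only [Nat.cast_mul, Nat.cast_ofNat, Nat.cast_add] at er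
  have h7 := AF.abs_mul_le (Sg.abs_le_sum f.s) (Sg.abs_le_sum g.s)
  have h8 := AF.abs_mul_le (Sg.abs_le_sum f.t) (Sg.abs_le_sum g.t)
  have h9 := Sg.abs_le_abs' ((f.s.mul g.t).add (f.t.mul g.s))
  simp only [Sg.add_v, Sg.mul_v] at h9
  simp only [Has, AF.mul_def, Nat.cast_add, Nat.cast_ofNat] at *
  exact mul_err U_pos hf hg (Sg.abs_le_sum _) (Sg.abs_le_sum _) (Sg.abs_le_sum _) (Sg.abs_le_sum _)
    (Sg.abs_le_sum _) (Sg.abs_le_sum _) h7 h8 h9 a b c er hS hT

theorem Has.low_le {f : AF} {u : ℝ} (hf : f.Has S T u) (hS : |S| ≤ 1) (hT : |T| ≤ 1) :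
    f.low.v ≤ u * U := by
  simp only [Has, AF.low_def, Sg.norm_v, Sg.sub_v, Sg.ofN_v, Nat.cast_add] at *
  have a := abs_le.1 hf
  have b := abs_le.1 ((abs_mul_le (Sg.abs_le_abs' f.s) hS).trans (le_of_eq (mul_one _)))
  have c := abs_le.1 ((abs_mul_le (Sg.abs_le_abs' f.t) hT).trans (le_of_eq (mul_one _)))
  linarith

theorem Has.inv {f : AF} {u : ℝ} (hf : f.Has S T u) (hS : |S| ≤ 1) (hT : |T| ≤ 1)
    (hlow : 0 < f.low.posPart) : (f.inv).Has S T u⁻¹ := by
  have hlo : (f.low.posPart : ℝ) ≤ u * U := by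
    refine le_of_eq_of_le ?_ (hf.low_le hS hT)
    simp only [Sg.posPart_def] at hlow ⊢
    rw [Sg.v_split, Nat.sub_eq_zero_of_le (show f.low.neg ≤ f.low.pos by omega)]
    simp
  have hp : (0 : ℝ) < f.low.posPart := Nat.cast_pos.2 hlow
  have hu : 0 < u := pos_of_mul_pos_left (hp.trans_le hlo) U_pos.le
  set y := invCand f with hy
  set yv := (y.c.v + y.s.v * S + y.t.v * T) / U with hyv
  have hY : y.Has S T yv := by
    have : y.r = 0 := rfl
    simp [Has, hyv, this, div_mul_cancel₀ _ U_ne]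
  have he := (has_const (S := S) (T := T) (c := Sg.ofN U) (v := 1) (by simp)).sub (hf.mul hY hS hT)
  set e := (const (Sg.ofN U)).sub (f.mul y) with hedef
  obtain ⟨-, -, er⟩ := Sg.nat_div_mem ((e.c.abs' + e.s.abs' + e.t.abs' + e.r) * U) hlow
  show |u⁻¹ * (U : ℝ) - (y.c.v + y.s.v * S + y.t.v * T)| ≤
    (((e.c.abs' + e.s.abs' + e.t.abs' + e.r) * U / f.low.posPart + 1 : ℕ) : ℝ)
  generalize hR : (e.c.abs' + e.s.abs' + e.t.abs' + e.r) * U / f.low.posPart = R at *
  push_cast at er ⊢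
  have hE : |(1 - u * yv) * (U : ℝ)| ≤ (e.c.abs' : ℝ) + e.s.abs' + e.t.abs' + e.r := by
    have a := abs_le.1 he
    have a0 := abs_le.1 (Sg.abs_le_abs' e.c)
    have b := abs_le.1 ((abs_mul_le (Sg.abs_le_abs' e.s) hS).trans (le_of_eq (mul_one _)))
    have c := abs_le.1 ((abs_mul_le (Sg.abs_le_abs' e.t) hT).trans (le_of_eq (mul_one _)))
    rw [abs_le]; constructor <;> linarith
  have hU := U_pos
  rw [show u⁻¹ * (U : ℝ) - (y.c.v + y.s.v * S + y.t.v * T) = (1 - u * yv) * U / u by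
    rw [hyv]; field_simp, abs_div, abs_of_pos hu, div_le_iff₀ hu]
  refine hE.trans (le_of_mul_le_mul_right ?_ hU)
  have := mul_le_mul_of_nonneg_left hlo (show (0 : ℝ) ≤ (R : ℝ) + 1 by positivity)
  linarith

/-- Evaluates every part before passing the form on. -/
def force {α : Type} (f : AF) (k : AF → α) : α :=
  forceN f.c.pos fun a => forceN f.c.neg fun b => forceN f.s.pos fun c => forceN f.s.neg fun d =>
    forceN f.t.pos fun e => forceN f.t.neg fun h => forceN f.r fun r =>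
      k ⟨⟨a, b⟩, ⟨c, d⟩, ⟨e, h⟩, r⟩

theorem force_eq {α : Type} (f : AF) (k : AF → α) : force f k = k f := by simp [force, forceN_eq]

/-- The upper value at a corner; `true` is the upper end of a parameter. -/
def hi (f : AF) (a b : Bool) : Sg :=
  (((f.c.add (cond a f.s f.s.neg')).add (cond b f.t f.t.neg')).add (Sg.ofN f.r)).norm

/-- The lower value at a corner. -/
def lo (f : AF) (a b : Bool) : Sg :=
  (((f.c.add (cond a f.s f.s.neg')).add (cond b f.t f.t.neg')).sub (Sg.ofN f.r)).norm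

end AF

/-- Bilinear interpolation in `[0, 1] ^ 2`. -/
def interp (a b : ℝ) (F : Bool → Bool → ℝ) : ℝ :=
  (1 - a) * (1 - b) * F false false + a * (1 - b) * F true false + (1 - a) * b * F false true +
    a * b * F true true

theorem AF.Has.le_hi {f : AF} {a b u : ℝ} (hf : f.Has (2 * a - 1) (2 * b - 1) u) :
    u * U ≤ interp a b fun i j => (f.hi i j).v := by
  have h := abs_le.1 hf
  simp only [interp, AF.hi, Sg.norm_v, Sg.add_v, Sg.ofN_v, cond_true, cond_false, Sg.neg_v]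
  linarith

theorem AF.Has.lo_le {f : AF} {a b u : ℝ} (hf : f.Has (2 * a - 1) (2 * b - 1) u) :
    interp a b (fun i j => (f.lo i j).v) ≤ u * U := by
  have h := abs_le.1 hf
  simp only [interp, AF.lo, Sg.norm_v, Sg.add_v, Sg.sub_v, Sg.ofN_v, cond_true, cond_false, Sg.neg_v]
  linarith

end Vale.Agent.P237.All.Transport.Mid
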