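import Vale.Agent.P237.All.Mid.Glue
import Vale.Agent.P237.All.High.Tail

/-!
P237, cell `k` in `[4/5, 5/2]`: the tail of the part where `ε` may vanish.
-/

noncomputable section

open Real Set MeasureTheory

namespace Vale.Agent.P237.All.Transport.Mid

open Upper (mills mills_mono mills_pos core core_mem)

/-- `lo ≤ x ≤ hi`. -/
def inR (x : Sg) (lo hi : ℕ) : Bool := Sg.le (Sg.ofN lo) x && Sg.le x (Sg.ofN hi)

/-- The bounds on the coefficients of the part next to `ε = 0` beyond `X = 64`. -/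
def tailAOK (c : Cell) : Bool :=
  let N := nodeX 16384
  c.sA.flat N && c.sW.flat N && Nat.ble c.E1 8392 &&
  inR (c.sA.valAt N false) 1673606681529002263733862 1674551154825576192776601 &&
  inR (c.sA.valAt N true) 1673606681529002263733862 1674551154825576192776601 &&
  inR (c.sA.derAt N false) 844368635136625 844424930131968 &&
  inR (c.sA.derAt N true) 844368635136625 844424930131968 &&
  inR (c.sW.valAt N false) 10044473509063735369531 10046362455656883227616 &&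
  inR (c.sW.valAt N true) 10044473509063735369531 10046362455656883227616 &&
  inR (c.sW.derAt N false) 0 0 && inR (c.sW.derAt N true) 0 0 &&
  inR (c.D.at' false) 4727651 4727870 && inR (c.D.at' true) 4727651 4727870 &&
  inR (c.e1.at' false) 12342997 12348031 && inR (c.e1.at' true) 12342997 12348031

theorem inR_mix {x y : Sg} {lo hi : ℕ} (hx : inR x lo hi = true) (hy : inR y lo hi = true) {b : ℝ}
    (hb : b ∈ Icc (0 : ℝ) 1) : (lo : ℝ) ≤ (1 - b) * x.v + b * y.v ∧ (1 - b) * x.v + b * y.v ≤ hi := by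
  simp only [inR, Bool.and_eq_true] at hx hy
  have a := Sg.le_iff hx.1
  have a' := Sg.le_iff hx.2
  have c := Sg.le_iff hy.1
  have c' := Sg.le_iff hy.2
  rw [Sg.ofN_v] at a a' c c'
  have := mul_le_mul_of_nonneg_left a (sub_nonneg.2 hb.2)
  have := mul_le_mul_of_nonneg_left a' (sub_nonneg.2 hb.2)
  have := mul_le_mul_of_nonneg_left c hb.1
  have := mul_le_mul_of_nonneg_left c' hb.1
  constructor <;> linarith

/-- The coefficients beyond `X = 64`. -/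
structure FarA (D e1 aX a1 W0 W1 X : ℝ) : Prop where
  hD : D ∈ Icc (28178 / 100000 : ℝ) (28181 / 100000)
  he : e1 ∈ Icc (7356 / 10000 : ℝ) (7361 / 10000)
  ha : aX ∈ Icc (29995 / 10000 * X - 15) (3 * X - 14)
  ha1 : a1 ∈ Icc (29995 / 10000 : ℝ) 3
  hW : W0 ∈ Icc (10634 / 10000 : ℝ) (10638 / 10000)
  hW1 : W1 = 0

theorem farA {c : Cell} (h : tailAOK c = true) {p : ℕ} {b y : ℝ}
    (hb : b ∈ Icc (0 : ℝ) 1) (hT : c.T p = 2 * b - 1) (hX : 64 ≤ XP p y) :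
    FarA (c.D.val (c.T p)) (c.e1.val (c.T p)) (c.sA.val (c.T p) (XP p y)) (c.sA.der (c.T p) (XP p y))
      (c.sW.val (c.T p) (XP p y)) (c.sW.der (c.T p) (XP p y)) (XP p y) := by
  simp only [tailAOK, Bool.and_eq_true] at h
  obtain ⟨⟨⟨⟨⟨⟨⟨⟨⟨⟨⟨⟨⟨⟨fA, fW⟩, -⟩, va0⟩, va1⟩, da0⟩, da1⟩, vw0⟩, vw1⟩, dw0⟩, dw1⟩, hd0⟩, hd1⟩, he0⟩, he1⟩ := h
  rw [hT]
  have hN : rn (nodeX 16384) = 64 := by rw [nodeX_rn]; norm_num
  obtain ⟨A1, A2⟩ := c.sA.beyond fA (hN.le.trans hX) (b := b)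
  obtain ⟨W1, W2⟩ := c.sW.beyond fW (hN.le.trans hX) (b := b)
  obtain ⟨mA, mA'⟩ := inR_mix va0 va1 hb
  obtain ⟨mD, mD'⟩ := inR_mix da0 da1 hb
  obtain ⟨mW, mW'⟩ := inR_mix vw0 vw1 hb
  obtain ⟨mV, mV'⟩ := inR_mix dw0 dw1 hb
  obtain ⟨nD, nD'⟩ := inR_mix hd0 hd1 hb
  obtain ⟨nE, nE'⟩ := inR_mix he0 he1 hb
  rw [← c.D.at_v b] at nD nD'
  rw [← c.e1.at_v b] at nE nE'
  rw [← A2] at mD mD'
  rw [← W2] at mV mV'
  rw [hN] at A1 W1
  simp only [cast_U, Nat.cast_ofNat, Nat.cast_zero] at *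
  set X := XP p y
  set a1 := c.sA.der (2 * b - 1) X
  have h1 : (29995 : ℝ) / 10000 ≤ a1 ∧ a1 ≤ 3 := by constructor <;> linarith
  have hV : c.sW.der (2 * b - 1) X = 0 := by
    apply le_antisymm <;> linarith
  refine ⟨⟨by linarith, by linarith⟩, ⟨by linarith, by linarith⟩, ?_, h1, ?_, hV⟩
  · have e0 := mul_le_mul_of_nonneg_right h1.1 (sub_nonneg.2 hX)
    have e1 := mul_le_mul_of_nonneg_right h1.2 (sub_nonneg.2 hX)
    constructor <;> linarith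
  · rw [hV, zero_mul, zero_mul, add_zero] at W1
    constructor <;> linarith

theorem wide_eight {x : ℝ} (hx : 8 ≤ x) : High.wide (124 / 125) x ≤ 79 / 100 * x := by
  refine (High.wide_le (θ := 124 / 125) (by norm_num) (show (0 : ℝ) ≤ 8 by norm_num) hx le_rfl).trans ?_
  have hm : mills x ≤ x + 9 / 5 / (511 / 50) :=
    add_le_add le_rfl (div_le_div_of_nonneg_left (by norm_num) (by norm_num) (by linarith))
  rw [div_le_iff₀ (High.lift_pos (by norm_num) (by norm_num))]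
  have hl : (268 : ℝ) / 100 ≤ High.lift (124 / 125) 8 := by
    norm_num [High.lift, core, mills]
  have := mul_le_mul_of_nonneg_left hl (show 0 ≤ 79 / 100 * x by positivity)
  linarith

theorem FarA.far {D e1 aX a1 W0 W1 X : ℝ} (h : FarA D e1 aX a1 W0 W1 X) (hX : 64 ≤ X) :
    Far D e1 aX a1 W0 W1 X 3 3 (11 / 10) := by
  obtain ⟨⟨d0, d1⟩, ⟨e0, e1'⟩, ⟨a0, a1'⟩, ⟨b0, b1⟩, ⟨w0, w1⟩, hW1⟩ := h
  exact ⟨⟨by linarith, by linarith⟩, abs_le.2 ⟨by linarith, by linarith⟩,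
    abs_le.2 ⟨by linarith, by linarith⟩, abs_le.2 ⟨by linarith, by linarith⟩,
    abs_le.2 ⟨by linarith, by linarith⟩, hW1⟩

/-- The constant of the tail in the zone away from `y = 0`. -/
def crudeA : ℝ := 700000 * 64 ^ 3

theorem tailC_poly {M s X : ℝ} (hM0 : 0 ≤ M) (hM : M ≤ 50 * X) (hs0 : 0 ≤ s) (hs : s ≤ X) (hX : 64 ≤ X) :
    tailC 3 3 (11 / 10) M s 8 64 ≤ 700000 * X ^ 3 := by
  have h2 : M ^ 2 ≤ 2500 * X ^ 2 := by
    have := pow_le_pow_left₀ hM0 hM 2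
    linarith
  have hMs := mul_le_mul hM hs hs0 (by linarith)
  have hM2s := mul_le_mul h2 hs hs0 (by positivity)
  have hM3 := mul_le_mul h2 hM hM0 (by positivity)
  have hX2 : X ^ 2 ≤ X ^ 3 / 64 := by
    rw [le_div_iff₀ (by norm_num)]
    nlinarith [mul_le_mul_of_nonneg_left hX (sq_nonneg X)]
  have hX1 : X ≤ X ^ 3 / 4096 := by
    rw [le_div_iff₀ (by norm_num)]
    nlinarith [mul_le_mul_of_nonneg_left (mul_le_mul hX hX (by norm_num) (by linarith))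
      (show 0 ≤ X by linarith)]
  unfold tailC
  norm_num
  linarith

variable {p : ℕ} {D e1 aX a1 W0 W1 y : ℝ}

theorem A_facts (hp : 1999 ≤ p) (hy : y ∈ Ioo (0 : ℝ) 1) (hY : y ^ 2 ≤ 1 / 50) :
    (0 < epsP p ∧ epsP p ≤ 1 / 2000) ∧ (0 ≤ iA (epsP p) ∧ iA (epsP p) ≤ 1 / 2000) ∧
      epsP p * XP p y ≤ 2001 / 2000 * y ^ 2 ∧ 0 ≤ epsP p * XP p y ∧
      (1 ≤ 1 / (1 - epsP p) ∧ 1 / (1 - epsP p) ≤ 2001 / 2000 + 1 / 1000000) ∧
      (1999 / 2000 ≤ MA (epsP p) (XP p y) ∧ MA (epsP p) (XP p y) ≤ 1021 / 1000) := by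
  have hp' : (1999 : ℝ) ≤ p := by exact_mod_cast hp
  have hε := eps_pos p
  have hε1 : epsP p ≤ 1 / 2000 := one_div_le_one_div_of_le (by norm_num) (by linarith)
  have hi : iA (epsP p) ≤ epsP p := div_le_self hε.le (by linarith)
  have hy2 : 0 ≤ y ^ 2 := sq_nonneg y
  have e : epsP p * XP p y = (1 + epsP p) * y ^ 2 := by simp only [XP, epsP]; field_simp; ring
  refine ⟨⟨hε, hε1⟩, ⟨div_nonneg hε.le (by linarith), hi.trans hε1⟩, ?_, ?_, ⟨?_, ?_⟩, ?_⟩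
  · rw [e]; exact mul_le_mul_of_nonneg_right (by linarith) hy2
  · rw [e]; positivity
  · rw [le_div_iff₀ (by linarith)]; linarith
  · rw [div_le_iff₀ (by linarith)]; linarith
  · have h1 := mul_le_mul_of_nonneg_right (show 1 + epsP p ≤ 2001 / 2000 by linarith) hy2
    have h2 := mul_nonneg hε.le hy2
    rw [MA, show 1 + epsP p - epsP p * XP p y = (1 + epsP p) - (1 + epsP p) * y ^ 2 by rw [e]]
    constructor
    · rw [le_div_iff₀ (by linarith)]; linarith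
    · rw [div_le_iff₀ (by linarith)]; linarith

theorem FarA.inner (h : FarA D e1 aX a1 W0 W1 (XP p y)) (hp : 1999 ≤ p) (hy : y ∈ Ioo (0 : ℝ) 1)
    (hY : y ^ 2 ≤ 1 / 50) (hX : 64 ≤ XP p y) :
    12356 / 10000 + 17387 / 10000 * XP p y ≤ 1 - 22 / 5 * D + e1 - (1 / 2 - D) + 17 / 5 * D +
        XP p y * (1 / 2 + 22 / 5 * D + (1 - 44 / 5 * D) * iA (epsP p)) ∧
      1 - 22 / 5 * D + e1 - (1 / 2 - D) + 17 / 5 * D +
        XP p y * (1 / 2 + 22 / 5 * D + (1 - 44 / 5 * D) * iA (epsP p)) ≤ 12361 / 10000 + 174 / 100 * XP p y := by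
  obtain ⟨⟨d0, d1⟩, ⟨g0, g1⟩, -, -, -, -⟩ := h
  obtain ⟨-, ⟨hi0, hi⟩, -, -, -, -⟩ := A_facts hp hy hY
  set K := 1 / 2 + 22 / 5 * D + (1 - 44 / 5 * D) * iA (epsP p) with hK
  have hK0 : 17387 / 10000 ≤ K ∧ K ≤ 174 / 100 := by
    rw [hK]; constructor <;> nlinarith
  have := mul_le_mul_of_nonneg_left hK0.1 (show 0 ≤ XP p y by linarith)
  have := mul_le_mul_of_nonneg_left hK0.2 (show 0 ≤ XP p y by linarith)
  constructor <;> linarith

theorem FarA.R_le (h : FarA D e1 aX a1 W0 W1 (XP p y)) (hp : 1999 ≤ p) (hy : y ∈ Ioo (0 : ℝ) 1)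
    (hY : y ^ 2 ≤ 1 / 50) (hX : 64 ≤ XP p y) :
    |RnR D e1 aX (epsP p) (XP p y)| ≤ 127 / 100 * XP p y := by
  have hI0 := h.inner hp hy hY hX
  obtain ⟨⟨d0, d1⟩, ⟨g0, g1⟩, ⟨a0, a1'⟩, ⟨b0, b1⟩, ⟨w0, w1⟩, hW1⟩ := h
  obtain ⟨⟨hε, hε1⟩, ⟨hi0, hi⟩, hq, hq0, ⟨hm0, hm⟩, ⟨hM0, hM⟩⟩ := A_facts hp hy hY
  set X := XP p y
  set ε := epsP p
  set m := 1 / (1 - ε)
  set K := 1 / 2 + 22 / 5 * D + (1 - 44 / 5 * D) * iA ε
  set I := 1 - 22 / 5 * D + e1 - (1 / 2 - D) + 17 / 5 * D + X * K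
  have eR : RnR D e1 aX ε X = aX - m * I := by rw [RnR]
  have hmI0 : I ≤ m * I := le_mul_of_one_le_left (by linarith) hm0
  have hmI : m * I ≤ (2001 / 2000 + 1 / 1000000) * (12361 / 10000 + 174 / 100 * X) :=
    mul_le_mul hm hI0.2 (by linarith) (by norm_num)
  rw [eR, abs_le]; constructor <;> linarith

theorem FarA.L_le (h : FarA D e1 aX a1 W0 W1 (XP p y)) (hp : 1999 ≤ p) (hy : y ∈ Ioo (0 : ℝ) 1)
    (hY : y ^ 2 ≤ 1 / 50) (hX : 64 ≤ XP p y) :
    |LR D aX a1 (epsP p) (XP p y)| ≤ 7 / 2 * XP p y ^ 2 := by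
  obtain ⟨⟨d0, d1⟩, ⟨g0, g1⟩, ⟨a0, a1'⟩, ⟨b0, b1⟩, ⟨w0, w1⟩, hW1⟩ := h
  obtain ⟨⟨hε, hε1⟩, ⟨hi0, hi⟩, hq, hq0, ⟨hm0, hm⟩, ⟨hM0, hM⟩⟩ := A_facts hp hy hY
  have eX : XP p y * iA (epsP p) = y ^ 2 := XP_iA p y
  set X := XP p y
  set ε := epsP p
  have e : LR D aX a1 ε X = X * (2 * a1 + MA ε X * ((1 - 22 / 5 * D) * (1 - X) - aX) +
      1 / (1 + ε) * (2 - 22 / 5 * D)) := rfl
  have h1 : 0 ≤ 1 / (1 + ε) * (2 - 22 / 5 * D) ∧ 1 / (1 + ε) * (2 - 22 / 5 * D) ≤ 1 := by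
    refine ⟨mul_nonneg (by positivity) (by linarith), ?_⟩
    rw [div_mul_eq_mul_div, div_le_one (by linarith)]; linarith
  have hA : |(1 - 22 / 5 * D) * (1 - X) - aX| ≤ 325 / 100 * X := by
    have u0 := mul_le_mul_of_nonneg_right (show (22 / 5 * D - 1 : ℝ) ≤ 241 / 1000 by linarith)
      (show 0 ≤ X - 1 by linarith)
    have u1 := mul_nonneg (show (0 : ℝ) ≤ 22 / 5 * D - 1 by linarith) (show 0 ≤ X - 1 by linarith)
    rw [abs_le]; constructor <;> linarith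
  have hB : |2 * a1 + MA ε X * ((1 - 22 / 5 * D) * (1 - X) - aX) + 1 / (1 + ε) * (2 - 22 / 5 * D)| ≤
      7 / 2 * X := by
    refine (abs_add_three _ _ _).trans ?_
    rw [abs_mul (MA ε X), abs_of_nonneg (show 0 ≤ 2 * a1 by linarith), abs_of_nonneg h1.1,
      abs_of_nonneg (show 0 ≤ MA ε X by linarith)]
    have := mul_le_mul hM hA (abs_nonneg _) (by norm_num)
    linarith
  rw [e, abs_mul, abs_of_nonneg (show 0 ≤ X by linarith), sq, ← mul_assoc, mul_comm (7 / 2) X, mul_assoc]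
  exact mul_le_mul_of_nonneg_left hB (by linarith)

theorem FarA.C_le (h : FarA D e1 aX a1 W0 W1 (XP p y)) (hp : 1999 ≤ p) (hy : y ∈ Ioo (0 : ℝ) 1)
    (hY : y ^ 2 ≤ 1 / 50) (hX : 64 ≤ XP p y) :
    CnR D W0 (epsP p) (XP p y) ^ 2 ≤ 457 / 100 := by
  obtain ⟨⟨d0, d1⟩, ⟨g0, g1⟩, ⟨a0, a1'⟩, ⟨b0, b1⟩, ⟨w0, w1⟩, hW1⟩ := h
  obtain ⟨⟨hε, hε1⟩, ⟨hi0, hi⟩, hq, hq0, ⟨hm0, hm⟩, ⟨hM0, hM⟩⟩ := A_facts hp hy hY
  have eX : XP p y * iA (epsP p) = y ^ 2 := XP_iA p y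
  set X := XP p y
  set ε := epsP p
  set m := 1 / (1 - ε) with hmdef
  have hc : -(1 / 2) ≤ 1 - 22 / 5 * D + iA ε * (2 - 88 / 25 * D) - 22 / 25 * D * (1 / (1 + ε)) ∧
      1 - 22 / 5 * D + iA ε * (2 - 88 / 25 * D) - 22 / 25 * D * (1 / (1 + ε)) ≤ 0 := by
    have u0 : 0 ≤ 1 / (1 + ε) := by positivity
    have u1 : 1 / (1 + ε) ≤ 1 := by rw [div_le_one (by linarith)]; linarith
    have := mul_le_mul_of_nonneg_left u1 (show 0 ≤ 22 / 25 * D by linarith)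
    have := mul_nonneg (show 0 ≤ 22 / 25 * D by linarith) u0
    have := mul_nonneg hi0 (show 0 ≤ 2 - 88 / 25 * D by linarith)
    have := mul_le_mul hi (show 2 - 88 / 25 * D ≤ 2 by linarith) (by linarith) (by norm_num)
    constructor <;> linarith
  have hq2 : 0 ≤ X * (ε / (1 - ε)) ∧ X * (ε / (1 - ε)) ≤ 201 / 10000 := by
    rw [show X * (ε / (1 - ε)) = ε * X * m by ring]
    have := mul_le_mul hq hm (by linarith) (by positivity)
    exact ⟨by positivity, by linarith⟩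
  set cr := 1 - 22 / 5 * D + iA ε * (2 - 88 / 25 * D) - 22 / 25 * D * (1 / (1 + ε))
  have e : CnR D W0 ε X = 2 * W0 - X * (ε / (1 - ε)) * cr := rfl
  have u0 := mul_nonneg hq2.1 (neg_nonneg.2 hc.2)
  have u1 := mul_le_mul hq2.2 (show -cr ≤ 1 / 2 by linarith) (by linarith) (by norm_num)
  rw [e]
  refine (pow_le_pow_left₀ (by linarith) (show _ ≤ (21377 / 10000 : ℝ) by linarith) 2).trans ?_
  norm_num

theorem FarA.Q_le (h : FarA D e1 aX a1 W0 W1 (XP p y)) (hp : 1999 ≤ p) (hy : y ∈ Ioo (0 : ℝ) 1)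
    (hY : y ^ 2 ≤ 1 / 50) (hX : 64 ≤ XP p y) :
    ∀ ψ, 0 ≤ ψ → QbR D W0 W1 (epsP p) (XP p y) ψ ≤ -(438 / 1000 * XP p y) := by
  obtain ⟨⟨d0, d1⟩, ⟨g0, g1⟩, ⟨a0, a1'⟩, ⟨b0, b1⟩, ⟨w0, w1⟩, hW1⟩ := h
  obtain ⟨⟨hε, hε1⟩, ⟨hi0, hi⟩, hq, hq0, ⟨hm0, hm⟩, ⟨hM0, hM⟩⟩ := A_facts hp hy hY
  have eX : XP p y * iA (epsP p) = y ^ 2 := XP_iA p y
  set X := XP p y
  set ε := epsP p
  intro ψ hψ
  have e : QbR D W0 W1 ε X ψ = X * ((1 / 2 + 11 / 25 * D) * (1 + 2 * iA ε)) - W0 * (1 + X * MA ε X) -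
      ψ * (132 / 25 * D) * (X * iA ε) := by rw [QbR, hW1]; ring
  have u0 : (1 / 2 + 11 / 25 * D) * (1 + 2 * iA ε) ≤ 62464 / 100000 :=
    (mul_le_mul (show 1 / 2 + 11 / 25 * D ≤ 6240 / 10000 by linarith)
      (show 1 + 2 * iA ε ≤ 1001 / 1000 by linarith) (by linarith) (by norm_num)).trans (by norm_num)
  have u1 := mul_le_mul_of_nonneg_left u0 (show 0 ≤ X by linarith)
  have u2 := mul_le_mul_of_nonneg_left hM0 (show 0 ≤ X by linarith)
  have u3 := mul_le_mul w0 (show 1 + X * (1999 / 2000) ≤ 1 + X * MA ε X by linarith) (by linarith) (by linarith)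
  have u4 : 0 ≤ ψ * (132 / 25 * D) * (X * iA ε) := mul_nonneg (mul_nonneg hψ (by linarith)) (mul_nonneg (by linarith) hi0)
  rw [e]; linarith

theorem FarA.K_le (h : FarA D e1 aX a1 W0 W1 (XP p y)) (hp : 1999 ≤ p) (hy : y ∈ Ioo (0 : ℝ) 1)
    (hY : y ^ 2 ≤ 1 / 50) (hX : 64 ≤ XP p y) :
    ∀ z, 0 ≤ z → z ≤ 1 / 100000 →
      12149 / 10000 ≤ KpR D (epsP p) (XP p y) z ∧
        KwR D aX (RnR D e1 aX (epsP p) (XP p y)) (epsP p) (XP p y) z ≤ 1011 / 1000 := by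
  have eX : XP p y * iA (epsP p) = y ^ 2 := XP_iA p y
  have hI0 := h.inner hp hy hY hX
  obtain ⟨⟨d0, d1⟩, ⟨g0, g1⟩, ⟨a0, a1'⟩, ⟨b0, b1⟩, ⟨w0, w1⟩, hW1⟩ := h
  obtain ⟨⟨hε, hε1⟩, ⟨hi0, hi⟩, hq, hq0, ⟨hm0, hm⟩, ⟨hM0, hM⟩⟩ := A_facts hp hy hY
  set X := XP p y
  set ε := epsP p
  set m := 1 / (1 - ε)
  set K := 1 / 2 + 22 / 5 * D + (1 - 44 / 5 * D) * iA ε
  set I := 1 - 22 / 5 * D + e1 - (1 / 2 - D) + 17 / 5 * D + X * K
  have eR : RnR D e1 aX ε X = aX - m * I := by rw [RnR]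
  have hmI0 : I ≤ m * I := le_mul_of_one_le_left (by linarith) hm0
  have hmI : m * I ≤ (2001 / 2000 + 1 / 1000000) * (12361 / 10000 + 174 / 100 * X) :=
    mul_le_mul hm hI0.2 (by linarith) (by norm_num)
  have hεX : ε * (12361 / 10000 + 174 / 100 * X) ≤ 1 / 2000 * (12361 / 10000) + 174 / 100 * (2001 / 2000 * y ^ 2) := by
    have := mul_le_mul_of_nonneg_right hε1 (show (0 : ℝ) ≤ 12361 / 10000 by norm_num)
    linarith
  intro z hz0 hz
  constructor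
  · rw [KpR, eX]
    have := mul_le_mul d0 (show 979998 / 1000000 ≤ 1 - y ^ 2 - z / 5 by linarith) (by norm_num) (by linarith)
    linarith
  · rw [KwR, eX, eR, sub_sub_cancel]
    have u0 := mul_le_mul_of_nonneg_left hI0.2 hε.le
    have u1 := mul_le_mul_of_nonneg_right hm (mul_nonneg hε.le (show 0 ≤ I by linarith))
    have u2 := mul_le_mul_of_nonneg_right d0 (sq_nonneg y)
    have u3 := mul_le_mul_of_nonneg_left (u0.trans hεX)
      (show (0 : ℝ) ≤ 2001 / 2000 + 1 / 1000000 by norm_num)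
    linarith

theorem quad_le_A {R L C κ Q σ υ X : ℝ} (hX : 64 ≤ X) (hR : |R| ≤ 127 / 100 * X) (hL : |L| ≤ 7 / 2 * X ^ 2)
    (hC : C ^ 2 ≤ 457 / 100) (hκ : 67 / 20 / X ≤ κ) (hQ : Q ≤ -(438 / 1000 * X)) :
    quad R L C κ Q σ υ ≤ 72 * X ^ 3 := by
  have hX0 : 0 < X := by linarith
  have hκ0 : 0 < κ := lt_of_lt_of_le (by positivity) hκ
  set q := 438 / 1000 * X
  have hq0 : 0 < q := by positivity
  have hκq : 67 / 20 * (438 / 1000) ≤ κ * q := by
    refine le_trans (le_of_eq ?_) (mul_le_mul_of_nonneg_right hκ hq0.le)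
    simp only [q]; field_simp
  have hC2 : C ^ 2 / (18 / 5 * κ) ≤ 9 / 10 * q := by
    rw [div_le_iff₀ (by positivity)]; linarith
  have h1 : C * σ * υ ≤ 9 / 10 * κ * σ ^ 2 + C ^ 2 / (18 / 5 * κ) * υ ^ 2 := by
    have e : 9 / 10 * κ * σ ^ 2 + C ^ 2 / (18 / 5 * κ) * υ ^ 2 - C * σ * υ =
        (9 / 5 * κ * σ - C * υ) ^ 2 / (18 / 5 * κ) := by field_simp; ring
    have : 0 ≤ (9 / 5 * κ * σ - C * υ) ^ 2 / (18 / 5 * κ) := by positivity
    linarith
  have h2 : R * σ ≤ 1 / 10 * κ * σ ^ 2 + R ^ 2 / (2 / 5 * κ) := by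
    have e : 1 / 10 * κ * σ ^ 2 + R ^ 2 / (2 / 5 * κ) - R * σ = (1 / 5 * κ * σ - R) ^ 2 / (2 / 5 * κ) := by
      field_simp; ring
    have : 0 ≤ (1 / 5 * κ * σ - R) ^ 2 / (2 / 5 * κ) := by positivity
    linarith
  have h3 : L * υ ≤ 1 / 10 * q * υ ^ 2 + L ^ 2 / (2 / 5 * q) := by
    have e : 1 / 10 * q * υ ^ 2 + L ^ 2 / (2 / 5 * q) - L * υ = (1 / 5 * q * υ - L) ^ 2 / (2 / 5 * q) := by
      field_simp; ring
    have : 0 ≤ (1 / 5 * q * υ - L) ^ 2 / (2 / 5 * q) := by positivity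
    linarith
  have h4 : R ^ 2 / (2 / 5 * κ) ≤ 2 * X ^ 3 := by
    rw [← sq_abs, div_le_iff₀ (by positivity)]
    refine (pow_le_pow_left₀ (abs_nonneg _) hR 2).trans ?_
    refine le_trans ?_ (mul_le_mul_of_nonneg_left (mul_le_mul_of_nonneg_left hκ (show (0 : ℝ) ≤ 2 / 5 by norm_num))
      (show 0 ≤ 2 * X ^ 3 by positivity))
    rw [show 2 * X ^ 3 * (2 / 5 * (67 / 20 / X)) = 67 / 25 * X ^ 2 by field_simp; ring]
    linarith [pow_nonneg hX0.le 2]
  have h5 : L ^ 2 / (2 / 5 * q) ≤ 70 * X ^ 3 := by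
    rw [← sq_abs, div_le_iff₀ (by positivity)]
    refine (pow_le_pow_left₀ (abs_nonneg _) hL 2).trans ?_
    simp only [q]
    nlinarith [pow_nonneg hX0.le 4]
  have h6 := mul_le_mul_of_nonneg_right hC2 (sq_nonneg υ)
  have h7 := mul_le_mul_of_nonneg_right hQ (sq_nonneg υ)
  simp only [quad]
  linarith

theorem kap_A {w x X : ℝ} (hw0 : 0 < w) (hx : 8 ≤ x) (hxs : x ^ 2 = X) (hwx : w ≤ 4 / 5 * x) :
    67 / 20 / X * w ≤ 12149 / 10000 * (1 + 0) - 1011 / 1000 * (w / (w + 1) + 1 / 3000) := by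
  have hX0 : 0 < X := by rw [← hxs]; positivity
  have hw1 : 0 < w + 1 := by linarith
  set A : ℝ := 12149 / 10000 - 1011 / 1000 - 337 / 1000000 with hA
  have key : 67 / 20 * w * (w + 1) ≤ (A * (w + 1) + 1011 / 1000) * X := by
    have u1 := mul_le_mul_of_nonneg_right (mul_le_mul_of_nonneg_left hwx (show (0 : ℝ) ≤ 67 / 20 by norm_num)) hw1.le
    refine u1.trans ?_
    rw [← hxs]
    rcases le_total 0 (A * x - 268 / 100) with hc | hc
    · have := mul_nonneg (mul_nonneg (show 0 ≤ x by linarith) hw1.le) hc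
      have := sq_nonneg x
      linarith
    · have u2 := mul_le_mul_of_nonpos_left (show w + 1 ≤ 4 / 5 * x + 1 by linarith) hc
      have u3 := mul_le_mul_of_nonneg_left u2 (show 0 ≤ x by linarith)
      have u4 := mul_le_mul_of_nonneg_right hx (sq_nonneg x)
      have u5 := mul_le_mul_of_nonneg_right hx (show 0 ≤ x by linarith)
      rw [hA] at u3 ⊢
      linarith
  have e : 12149 / 10000 * (1 + 0) - 1011 / 1000 * (w / (w + 1) + 1 / 3000) = A + 1011 / 1000 / (w + 1) := by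
    rw [hA]; field_simp; ring
  rw [e, div_mul_eq_mul_div, div_le_iff₀ hX0, add_mul, div_mul_eq_mul_div]
  rw [← sub_le_iff_le_add', div_mul_eq_mul_div, le_div_iff₀ hw1]
  linarith

/-- The zone next to `y = 0`. -/
theorem tail_small {A dA W dW : ℝ → ℝ} {k t r lam c2 : ℝ} (hp : 1999 ≤ p) (hpt : Pt p k y t r lam)
    (hk0 : 0 ≤ k) (hk : k ≤ 5 / 2) (h : FarA D e1 aX a1 W0 W1 (XP p y))
    (hpot : PotAt p D aX a1 W0 W1 y A dA W dW) (hY : y ^ 2 ≤ 1 / 50) (hX : 64 ≤ XP p y) :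
    density p 0 (1 / 2 - D) D (6 / 5) (ellM p D e1 c2) lam c2 y t r +
        (potFY p A dA W dW y t + potFT p A W y t / r ^ p) ≤
      semi y ^ (p + 1) * (majZero p (1 / 2 - D) D c2 y + epsP p ^ 2 * (72 * XP p y ^ 3)) := by
  have hy := hpt.hy
  have hr := hpt.hr
  have hD : D ∈ Icc (1 / 4 : ℝ) (2 / 5) := ⟨by linarith [h.hD.1], by linarith [h.hD.2]⟩
  have hR := h.R_le hp hy hY hX
  have hL := h.L_le hp hy hY hX
  have hC := h.C_le hp hy hY hX
  have hQ := h.Q_le hp hy hY hX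
  have hK := h.K_le hp hy hY hX
  obtain ⟨⟨hε, hε1⟩, ⟨hi0, hi⟩, -, -, -, -⟩ := A_facts hp hy hY
  set z := (1 : ℝ) / 100000
  obtain ⟨hkp, hkw⟩ := hK z (by norm_num) le_rfl
  have hz : -z ≤ y * (t - y) := by
    have hγ : 1 / (1 + epsP p - k * epsP p / 2) ≤ 101 / 100 := by
      have := mul_le_mul hk hε1 hε.le (by norm_num)
      rw [div_le_iff₀ (by linarith)]; linarith
    obtain ⟨-, hb⟩ := band hpt hk0 (by nlinarith) hγ
    refine le_trans ?_ hb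
    have := mul_le_mul (mul_le_mul (mul_le_mul_of_nonneg_right hk (show (0 : ℝ) ≤ 101 / 100 by norm_num))
      hε1 hε.le (by norm_num)) hi hi0 (by norm_num)
    linarith
  have hp' : (1999 : ℝ) ≤ p := by exact_mod_cast hp
  have h2p : 1 / (2 * (p : ℝ)) ≤ 1 / 3000 := one_div_le_one_div_of_le (by norm_num) (by linarith)
  set X := XP p y
  set w := (r ^ p)⁻¹ with hw
  have hw0 : 0 < w := inv_pos.2 (pow_pos hr p)
  have hX3 : 0 ≤ semi y ^ (p + 1) := pow_nonneg (Real.sqrt_nonneg _) _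
  rcases le_total r 1 with hr1 | hr1
  · set x := √((p : ℝ) + 2) * y with hxd
    have hxs : x ^ 2 = X := by rw [hxd, mul_pow, sq_sqrt (by positivity)]; rfl
    have hx0 : 0 ≤ x := by have := hy.1; positivity
    have hx8 : 8 ≤ x := by nlinarith
    have ht : (1 : ℝ) / ((p : ℝ) + 2) ≤ 1 / 2000 := one_div_le_one_div_of_le (by norm_num) (by linarith)
    have hwide := (High.reach_wide (θ := 124 / 125) (by omega) hy hr hpt.reach (by norm_num)
      (Or.inr (by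
        have : 0 ≤ 97 / 100 * (1 / ((p : ℝ) + 2) / (1 - 1 / ((p : ℝ) + 2))) :=
          mul_nonneg (by norm_num) (div_nonneg (by positivity) (by linarith))
        linarith))).trans (wide_eight hx8)
    have hS : 9899 / 10000 ≤ semi y :=
      Real.le_sqrt_of_sq_le (by nlinarith)
    have hwx : w ≤ 4 / 5 * x := by
      have := mul_le_mul_of_nonneg_left hS hw0.le
      linarith
    have hκ := kap_A hw0 hx8 hxs hwx
    refine (point_pos (kp := 12149 / 10000) (kw := 1011 / 1000) (tw := w / (w + 1) + 1 / 3000) (dd := 0)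
      (κ := 67 / 20 / X) (ψ := 0) (c2 := c2) (lam := lam) (e1 := e1) (by omega) hD hy hr hr1 hpot hz (by norm_num) hkp
      (le_trans (by norm_num) hkp) hkw (by norm_num) (by linarith) le_rfl (by positivity) hκ
      (le_max_left _ _)).trans ?_
    refine mul_le_mul_of_nonneg_left (add_le_add le_rfl (mul_le_mul_of_nonneg_left ?_ (sq_nonneg _))) hX3
    exact quad_le_A hX hR hL hC le_rfl (hQ 0 le_rfl)
  · have hw1 : w ≤ 1 := inv_le_one_of_one_le₀ (one_le_pow₀ hr1)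
    refine (point_neg (kp := 12149 / 10000) (kw := 1011 / 1000) (tw := 1 / 2 + 1 / 3000) (dd := 0)
      (κ := 7 / 10) (su := 1) (c2 := c2) (lam := lam) (e1 := e1) (by omega) hD hy hr1 hpot hz (by norm_num) hkp
      (le_trans (by norm_num) hkp) hkw (by norm_num) (Real.sqrt_le_one.2 hw1) (by linarith) le_rfl
      (by positivity) (by linarith)).trans ?_
    refine mul_le_mul_of_nonneg_left (add_le_add le_rfl (mul_le_mul_of_nonneg_left ?_ (sq_nonneg _))) hX3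
    refine quad_le_A hX hR hL hC ?_ (hQ 1 zero_le_one)
    rw [div_le_iff₀ (by linarith)]; linarith

theorem pow_cube {X : ℝ} (hX : 64 ≤ X) {n : ℕ} (hn : 3 ≤ n) : X ^ 3 ≤ 64 ^ 3 * (X / 64) ^ n := by
  have h := mul_le_mul_of_nonneg_left
    (pow_le_pow_right₀ ((one_le_div (by norm_num)).2 hX) hn) (show (0 : ℝ) ≤ 64 ^ 3 by norm_num)
  rwa [← mul_pow, mul_div_cancel₀ _ (by norm_num)] at h

/-- The tail of the part next to `ε = 0`. -/
theorem tail_A {c : Cell} (h : tailAOK c = true) {n : ℕ} (hn : 5 ≤ n) {k y t r lam c2 b : ℝ}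
    (hp : 1999 ≤ p) (hpt : Pt p k y t r lam) (hk0 : 0 ≤ k) (hk : k ≤ 5 / 2) (hb : b ∈ Icc (0 : ℝ) 1)
    (hT : c.T p = 2 * b - 1) (hX : 64 ≤ XP p y) :
    c.total p c2 lam y t r ≤
      semi y ^ (p + 1) * majZero p (1 / 2 - c.D.val (c.T p)) (c.D.val (c.T p)) c2 y +
        epsP p ^ 2 * piTail p 64 crudeA n y := by
  have hf := farA h hb hT hX
  have hy := hpt.hy
  rcases le_total (y ^ 2) (1 / 50) with hY | hY
  · have hm := tail_small (c2 := c2) hp hpt hk0 hk hf (c.potAt p y) hY hX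
    simp only [Cell.total]
    refine hm.trans ?_
    rw [mul_add, mul_left_comm]
    refine add_le_add le_rfl (mul_le_mul_of_nonneg_left ?_ (sq_nonneg _))
    have h1 : semi y ^ (p + 1) ≤ semi y ^ (p - 1) :=
      pow_le_pow_of_le_one (Real.sqrt_nonneg _) (Real.sqrt_le_one.2 (by nlinarith)) (by omega)
    refine mul_le_mul h1 ?_ (by positivity) (pow_nonneg (Real.sqrt_nonneg _) _)
    have := pow_cube hX (show 3 ≤ n by omega)
    have : 0 ≤ (XP p y / 64) ^ n := by positivity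
    unfold crudeA
    linarith
  · have hpX : (p : ℝ) + 1 ≤ 50 * XP p y := by
      have := mul_le_mul_of_nonneg_left hY (show (0 : ℝ) ≤ (p : ℝ) + 2 by positivity)
      simp only [XP]; linarith
    have hs : √((p : ℝ) + 2) ≤ XP p y := by
      rw [Real.sqrt_le_left (by linarith)]
      have := mul_le_mul_of_nonneg_left hX (show 0 ≤ XP p y by linarith)
      rw [sq]; linarith
    obtain ⟨m, rfl⟩ : ∃ m, n = m + 3 := ⟨n - 3, by omega⟩
    have hm := crude_tail (c2 := c2) (X1 := 64) (x1 := 8) (s := √((p : ℝ) + 2)) (Mm := (p : ℝ) + 1) (n := m)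
      (by omega) hpt hk0 hk (hf.far hX) (c.potAt p y) (by norm_num) (by norm_num) hX le_rfl
      (by rw [sq_sqrt (by positivity)]; linarith) (Real.sqrt_nonneg _) (by omega)
    simp only [Cell.total]
    refine hm.trans (add_le_add le_rfl (mul_le_mul_of_nonneg_left (mul_le_mul_of_nonneg_left ?_
      (pow_nonneg (Real.sqrt_nonneg _) _)) (sq_nonneg _)))
    have h0 := tailC_poly (by positivity) hpX (Real.sqrt_nonneg _) hs hX
    refine (mul_le_mul_of_nonneg_right h0 (by positivity)).trans (le_of_eq ?_)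
    rw [crudeA, pow_add, div_pow (XP p y) 64 3]
    field_simp

/-- The budget covers the tail next to `ε = 0`. -/
def tauAOK (N : Node) (tau : ℕ) : Bool :=
  Nat.ble
    (Nat.mul (Nat.mul (Nat.add (Nat.mul (700000 * 64 ^ 3) 16777216)
      (Nat.add (Nat.add (Nat.add (N.H false false) (N.H false true)) (N.H true false)) (N.H true true)))
      (Nat.mul 13 (momN 0 32))) (16777216 * 16777216))
    (Nat.mul (Nat.mul tau 10) (Nat.mul (Nat.mul 16777216 (momD 0 32)) (64 ^ 32)))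

/-- The part next to `ε = 0` gives a certificate. -/
theorem hasCert_A {c : Cell} {n N : Node} {L : List Box} {tau : ℕ}
    (hboxes : ∀ B ∈ L, boxOK c c.eEnv B = true) (hside : sideOK c n L tau = true)
    (hlast : nodeEq (lastNode n L) N = true) (hA : tailAOK c = true)
    (hN : (Nat.beq N.x 16384 && Nat.beq c.E0 0) = true) (htau : tauAOK N tau = true)
    {p : ℕ} (hp : 29 ≤ p) (hεlo : rn c.E0 ≤ epsP p) (hεhi : epsP p ≤ rn c.E1) (J : ℝ)
    (hJ0 : exp (rn c.K0 / ((p : ℝ) + 1)) * (2 * mass (p + 1) semi 1) ≤ J)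
    (hJ1 : J ≤ exp (rn c.K1 / ((p : ℝ) + 1)) * (2 * mass (p + 1) semi 1)) : HasCert p J := by
  have hN' := nodeEq_sound hlast
  simp only [Bool.and_eq_true, Nat.beq_eq] at hN
  obtain ⟨hx, hE0⟩ := hN
  have hne : L ≠ [] := by
    rintro rfl
    simp only [sideOK, Bool.and_eq_true, Nat.beq_eq] at hside
    have h0 := hside.1.1.1.1.1.1.2
    rw [lastNode] at hN'
    rw [← hN', h0] at hx
    exact absurd hx (by norm_num)
  have hX : rn (nodeX N.x) = 64 := by rw [hx, nodeX_rn]; norm_num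
  have hp' : 1999 ≤ p := by
    simp only [tailAOK, Bool.and_eq_true, Nat.ble_eq] at hA
    have hE : (c.E1 : ℝ) ≤ 8392 := by exact_mod_cast hA.1.1.1.1.1.1.1.1.1.1.1.1.2
    simp only [rn, epsP] at hεhi
    rw [div_le_div_iff₀ (by positivity) (by norm_num)] at hεhi
    have := mul_le_mul_of_nonneg_right hE (show (0 : ℝ) ≤ (p : ℝ) + 1 by positivity)
    have h1 : ((1998 : ℕ) : ℝ) < p := by push_cast; linarith
    have := Nat.cast_lt.1 h1
    omega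
  refine hasCert_cell (m := 32) (C := crudeA) hboxes hne hside (by unfold crudeA; norm_num) (X1 := 64)
    (by rw [hN', hX]) (by norm_num) ?_ hp hεlo hεhi (fun k y t r lam c2 b hpt hk0 hk hb hT hX1 =>
      tail_A hA (by norm_num) hp' hpt hk0 hk hb hT hX1) J hJ0 hJ1
  have h := (Nat.cast_le (α := ℝ)).2 (Nat.le_of_ble_eq_true htau)
  simp only [Nat.mul_eq, Nat.add_eq, Nat.cast_mul, Nat.cast_add, Nat.cast_pow, Nat.cast_ofNat] at h
  rw [hN', momProd_eq, hE0]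
  have hd : (0 : ℝ) < momD 0 32 := Nat.cast_pos.2 (momD_pos 0 32)
  simp only [Node.top, crudeA]
  generalize (momN 0 32 : ℝ) = a at h ⊢
  generalize (momD 0 32 : ℝ) = d at h hd ⊢
  rw [mul_div_assoc', mul_div_assoc', div_div, div_le_div_iff₀ (by positivity) (by norm_num)]
  linarith

end Vale.Agent.P237.All.Transport.Mid
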