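import Vale.Agent.P237.All.Mid.Glue
import Vale.Agent.P237.All.Mid.TailA
import Vale.Agent.P237.All.Mid.DataA
import Vale.Agent.P237.All.Mid.DataB
import Vale.Agent.P237.All.Mid.DataC
import Vale.Agent.P237.All.Mid.DataD1
import Vale.Agent.P237.All.Mid.DataD2
import Vale.Agent.P237.All.Mid.DataE1
import Vale.Agent.P237.All.Mid.DataE2
import Vale.Agent.P237.All.Mid.DataF1
import Vale.Agent.P237.All.Mid.DataF2
import Vale.Agent.P237.All.Mid.DataF3
import Vale.Agent.P237.All.Mid.DataG1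
import Vale.Agent.P237.All.Mid.DataG2
import Vale.Agent.P237.All.Mid.DataG3

/-!
P237, cell `k` in `[4/5, 5/2]`: the parts.
-/

noncomputable section

open Real

namespace Vale.Agent.P237.All.Transport.Mid

/-- The boxes of the part A. -/
def listA : List Box :=
  [boxesA0, boxesA1, boxesA2, boxesA3, boxesA4, boxesA5].flatten

theorem listA_ok : ∀ B ∈ listA, boxOK cellA cellA.eEnv B = true :=
  boxes_join _ (List.forall_mem_cons.2 ⟨boxesA0_ok, (List.forall_mem_cons.2 ⟨boxesA1_ok, (List.forall_mem_cons.2 ⟨boxesA2_ok, (List.forall_mem_cons.2 ⟨boxesA3_ok, (List.forall_mem_cons.2 ⟨boxesA4_ok, (List.forall_mem_cons.2 ⟨boxesA5_ok, (List.forall_mem_nil _)⟩)⟩)⟩)⟩)⟩)⟩)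

theorem sideA : sideOK cellA ⟨0,57732,53578,57759,53605⟩ listA 1201011729575 = true := by
  decide +kernel

theorem lastA : nodeEq (lastNode ⟨0,57732,53578,57759,53605⟩ listA) ⟨16384,18495786183,55111958981,20327194924,56726116749⟩ = true := by
  decide +kernel

theorem partA (p : ℕ) (hp : 29 ≤ p) (hε0 : rn 0 ≤ epsP p) (hε1 : epsP p ≤ rn 8390) (J : ℝ)
    (hJ0 : exp (rn 13421772 / ((p : ℝ) + 1)) * (2 * mass (p + 1) semi 1) ≤ J)
    (hJ1 : J ≤ exp (rn 41943040 / ((p : ℝ) + 1)) * (2 * mass (p + 1) semi 1)) : HasCert p J :=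
  hasCert_A (n := ⟨0,57732,53578,57759,53605⟩) (N := ⟨16384,18495786183,55111958981,20327194924,56726116749⟩) (L := listA) (tau := 1201011729575) listA_ok sideA lastA
    (by decide +kernel) (by decide +kernel) (by decide +kernel) hp hε0 hε1 J hJ0 hJ1

/-- The boxes of the part B. -/
def listB : List Box :=
  [boxesB0, boxesB1, boxesB2, boxesB3, boxesB4, boxesB5].flatten

theorem listB_ok : ∀ B ∈ listB, boxOK cellB cellB.eEnv B = true :=
  boxes_join _ (List.forall_mem_cons.2 ⟨boxesB0_ok, (List.forall_mem_cons.2 ⟨boxesB1_ok, (List.forall_mem_cons.2 ⟨boxesB2_ok, (List.forall_mem_cons.2 ⟨boxesB3_ok, (List.forall_mem_cons.2 ⟨boxesB4_ok, (List.forall_mem_cons.2 ⟨boxesB5_ok, (List.forall_mem_nil _)⟩)⟩)⟩)⟩)⟩)⟩)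

theorem sideB : sideOK cellB ⟨0,41018,18237,41072,18319⟩ listB 52391299522 = true := by
  decide +kernel

theorem lastB : nodeEq (lastNode ⟨0,41018,18237,41072,18319⟩ listB) ⟨16384,66799034229998,18467883204580,66799034229998,18467883210035⟩ = true := by
  decide +kernel

theorem partB (p : ℕ) (hp : 29 ≤ p) (hε0 : rn 8388 ≤ epsP p) (hε1 : epsP p ≤ rn 50332) (J : ℝ)
    (hJ0 : exp (rn 13421772 / ((p : ℝ) + 1)) * (2 * mass (p + 1) semi 1) ≤ J)
    (hJ1 : J ≤ exp (rn 41943040 / ((p : ℝ) + 1)) * (2 * mass (p + 1) semi 1)) : HasCert p J :=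
  hasCert_crude (c := cellB) (d := ⟨38487072, 38487072, 13330063, 45, 33, 52391299522⟩) listB_ok sideB lastB
    (by decide +kernel) (by unfold TauOK; decide +kernel) hp hε0 hε1 J hJ0 hJ1

/-- The boxes of the part C. -/
def listC : List Box :=
  [boxesC0, boxesC1, boxesC2, boxesC3, boxesC4, boxesC5, boxesC6, boxesC7, boxesC8].flatten

theorem listC_ok : ∀ B ∈ listC, boxOK cellC cellC.eEnv B = true :=
  boxes_join _ (List.forall_mem_cons.2 ⟨boxesC0_ok, (List.forall_mem_cons.2 ⟨boxesC1_ok, (List.forall_mem_cons.2 ⟨boxesC2_ok, (List.forall_mem_cons.2 ⟨boxesC3_ok, (List.forall_mem_cons.2 ⟨boxesC4_ok, (List.forall_mem_cons.2 ⟨boxesC5_ok, (List.forall_mem_cons.2 ⟨boxesC6_ok, (List.forall_mem_cons.2 ⟨boxesC7_ok, (List.forall_mem_cons.2 ⟨boxesC8_ok, (List.forall_mem_nil _)⟩)⟩)⟩)⟩)⟩)⟩)⟩)⟩)⟩)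

theorem sideC : sideOK cellC ⟨0,83342,47848,83369,47875⟩ listC 56448788640 = true := by
  decide +kernel

theorem lastC : nodeEq (lastNode ⟨0,83342,47848,83369,47875⟩ listC) ⟨14541,11177469072622,3774547574393,11177469073347,3774547574393⟩ = true := by
  decide +kernel

theorem partC (p : ℕ) (hp : 29 ≤ p) (hε0 : rn 50331 ≤ epsP p) (hε1 : epsP p ≤ rn 150995) (J : ℝ)
    (hJ0 : exp (rn 13421772 / ((p : ℝ) + 1)) * (2 * mass (p + 1) semi 1) ≤ J)
    (hJ1 : J ≤ exp (rn 41943040 / ((p : ℝ) + 1)) * (2 * mass (p + 1) semi 1)) : HasCert p J :=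
  hasCert_crude (c := cellC) (d := ⟨38487183, 38487183, 11668224, 19, 30, 56448788640⟩) listC_ok sideC lastC
    (by decide +kernel) (by unfold TauOK; decide +kernel) hp hε0 hε1 J hJ0 hJ1

/-- The boxes of the part D1. -/
def listD1 : List Box :=
  [boxesD10, boxesD11, boxesD12, boxesD13, boxesD14, boxesD15, boxesD16].flatten

theorem listD1_ok : ∀ B ∈ listD1, boxOK cellD1 cellD1.eEnv B = true :=
  boxes_join _ (List.forall_mem_cons.2 ⟨boxesD10_ok, (List.forall_mem_cons.2 ⟨boxesD11_ok, (List.forall_mem_cons.2 ⟨boxesD12_ok, (List.forall_mem_cons.2 ⟨boxesD13_ok, (List.forall_mem_cons.2 ⟨boxesD14_ok, (List.forall_mem_cons.2 ⟨boxesD15_ok, (List.forall_mem_cons.2 ⟨boxesD16_ok, (List.forall_mem_nil _)⟩)⟩)⟩)⟩)⟩)⟩)⟩)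

theorem sideD1 : sideOK cellD1 ⟨0,142112,82666,142164,82686⟩ listD1 38694102817 = true := by
  decide +kernel

theorem lastD1 : nodeEq (lastNode ⟨0,142112,82666,142164,82686⟩ listD1) ⟨13107,5615676813782,13443891086843,5615676813795,13443891086843⟩ = true := by
  decide +kernel

theorem partD1 (p : ℕ) (hp : 29 ≤ p) (hε0 : rn 150994 ≤ epsP p) (hε1 : epsP p ≤ rn 251660) (J : ℝ)
    (hJ0 : exp (rn 13421772 / ((p : ℝ) + 1)) * (2 * mass (p + 1) semi 1) ≤ J)
    (hJ1 : J ≤ exp (rn 24326964 / ((p : ℝ) + 1)) * (2 * mass (p + 1) semi 1)) : HasCert p J :=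
  hasCert_crude (c := cellD1) (d := ⟨76401172, 76401172, 10122475, 11, 32, 38694102817⟩) listD1_ok sideD1 lastD1
    (by decide +kernel) (by unfold TauOK; decide +kernel) hp hε0 hε1 J hJ0 hJ1

/-- The boxes of the part D2. -/
def listD2 : List Box :=
  [boxesD20, boxesD21, boxesD22, boxesD23, boxesD24, boxesD25].flatten

theorem listD2_ok : ∀ B ∈ listD2, boxOK cellD2 cellD2.eEnv B = true :=
  boxes_join _ (List.forall_mem_cons.2 ⟨boxesD20_ok, (List.forall_mem_cons.2 ⟨boxesD21_ok, (List.forall_mem_cons.2 ⟨boxesD22_ok, (List.forall_mem_cons.2 ⟨boxesD23_ok, (List.forall_mem_cons.2 ⟨boxesD24_ok, (List.forall_mem_cons.2 ⟨boxesD25_ok, (List.forall_mem_nil _)⟩)⟩)⟩)⟩)⟩)⟩)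

theorem sideD2 : sideOK cellD2 ⟨0,104470,23273,104488,23308⟩ listD2 25730152166 = true := by
  decide +kernel

theorem lastD2 : nodeEq (lastNode ⟨0,104470,23273,104488,23308⟩ listD2) ⟨13107,1089115753593,1071014317634,1094071569804,1084809022453⟩ = true := by
  decide +kernel

theorem partD2 (p : ℕ) (hp : 29 ≤ p) (hε0 : rn 150994 ≤ epsP p) (hε1 : epsP p ≤ rn 251660) (J : ℝ)
    (hJ0 : exp (rn 23488102 / ((p : ℝ) + 1)) * (2 * mass (p + 1) semi 1) ≤ J)
    (hJ1 : J ≤ exp (rn 41943040 / ((p : ℝ) + 1)) * (2 * mass (p + 1) semi 1)) : HasCert p J :=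
  hasCert_crude (c := cellD2) (d := ⟨67649133, 67649133, 8808288, 11, 32, 25730152166⟩) listD2_ok sideD2 lastD2
    (by decide +kernel) (by unfold TauOK; decide +kernel) hp hε0 hε1 J hJ0 hJ1

/-- The boxes of the part E1. -/
def listE1 : List Box :=
  [boxesE10, boxesE11, boxesE12, boxesE13, boxesE14, boxesE15, boxesE16, boxesE17, boxesE18, boxesE19, boxesE110].flatten

theorem listE1_ok : ∀ B ∈ listE1, boxOK cellE1 cellE1.eEnv B = true :=
  boxes_join _ (List.forall_mem_cons.2 ⟨boxesE10_ok, (List.forall_mem_cons.2 ⟨boxesE11_ok, (List.forall_mem_cons.2 ⟨boxesE12_ok, (List.forall_mem_cons.2 ⟨boxesE13_ok, (List.forall_mem_cons.2 ⟨boxesE14_ok, (List.forall_mem_cons.2 ⟨boxesE15_ok, (List.forall_mem_cons.2 ⟨boxesE16_ok, (List.forall_mem_cons.2 ⟨boxesE17_ok, (List.forall_mem_cons.2 ⟨boxesE18_ok, (List.forall_mem_cons.2 ⟨boxesE19_ok, (List.forall_mem_cons.2 ⟨boxesE110_ok, (List.forall_mem_nil _)⟩)⟩)⟩)⟩)⟩)⟩)⟩)⟩)⟩)⟩)⟩)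

theorem sideE1 : sideOK cellE1 ⟨0,87426,40453,87442,40476⟩ listE1 5900226011 = true := by
  decide +kernel

theorem lastE1 : nodeEq (lastNode ⟨0,87426,40453,87442,40476⟩ listE1) ⟨12288,373614160405,770098796608,373614171423,770098796608⟩ = true := by
  decide +kernel

theorem partE1 (p : ℕ) (hp : 29 ≤ p) (hε0 : rn 251658 ≤ epsP p) (hε1 : epsP p ≤ rn 352322) (J : ℝ)
    (hJ0 : exp (rn 13421772 / ((p : ℝ) + 1)) * (2 * mass (p + 1) semi 1) ≤ J)
    (hJ1 : J ≤ exp (rn 21810381 / ((p : ℝ) + 1)) * (2 * mass (p + 1) semi 1)) : HasCert p J :=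
  hasCert_crude (c := cellE1) (d := ⟨36629973, 24319552, 3499941, 9, 38, 5900226011⟩) listE1_ok sideE1 lastE1
    (by decide +kernel) (by unfold TauOK; decide +kernel) hp hε0 hε1 J hJ0 hJ1

/-- The boxes of the part E2. -/
def listE2 : List Box :=
  [boxesE20, boxesE21, boxesE22, boxesE23, boxesE24, boxesE25, boxesE26].flatten

theorem listE2_ok : ∀ B ∈ listE2, boxOK cellE2 cellE2.eEnv B = true :=
  boxes_join _ (List.forall_mem_cons.2 ⟨boxesE20_ok, (List.forall_mem_cons.2 ⟨boxesE21_ok, (List.forall_mem_cons.2 ⟨boxesE22_ok, (List.forall_mem_cons.2 ⟨boxesE23_ok, (List.forall_mem_cons.2 ⟨boxesE24_ok, (List.forall_mem_cons.2 ⟨boxesE25_ok, (List.forall_mem_cons.2 ⟨boxesE26_ok, (List.forall_mem_nil _)⟩)⟩)⟩)⟩)⟩)⟩)⟩)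

theorem sideE2 : sideOK cellE2 ⟨0,83865,38946,83884,38964⟩ listE2 6402121104 = true := by
  decide +kernel

theorem lastE2 : nodeEq (lastNode ⟨0,83865,38946,83884,38964⟩ listE2) ⟨12288,413548847434,1066701972273,413548847503,1066701972273⟩ = true := by
  decide +kernel

theorem partE2 (p : ℕ) (hp : 29 ≤ p) (hε0 : rn 251658 ≤ epsP p) (hε1 : epsP p ≤ rn 352322) (J : ℝ)
    (hJ0 : exp (rn 21810380 / ((p : ℝ) + 1)) * (2 * mass (p + 1) semi 1) ≤ J)
    (hJ1 : J ≤ exp (rn 41943040 / ((p : ℝ) + 1)) * (2 * mass (p + 1) semi 1)) : HasCert p J :=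
  hasCert_crude (c := cellE2) (d := ⟨37102043, 24554586, 5708293, 9, 38, 6402121104⟩) listE2_ok sideE2 lastE2
    (by decide +kernel) (by unfold TauOK; decide +kernel) hp hε0 hε1 J hJ0 hJ1

/-- The boxes of the part F1. -/
def listF1 : List Box :=
  [boxesF10, boxesF11, boxesF12, boxesF13, boxesF14, boxesF15, boxesF16, boxesF17, boxesF18, boxesF19].flatten

theorem listF1_ok : ∀ B ∈ listF1, boxOK cellF1 cellF1.eEnv B = true :=
  boxes_join _ (List.forall_mem_cons.2 ⟨boxesF10_ok, (List.forall_mem_cons.2 ⟨boxesF11_ok, (List.forall_mem_cons.2 ⟨boxesF12_ok, (List.forall_mem_cons.2 ⟨boxesF13_ok, (List.forall_mem_cons.2 ⟨boxesF14_ok, (List.forall_mem_cons.2 ⟨boxesF15_ok, (List.forall_mem_cons.2 ⟨boxesF16_ok, (List.forall_mem_cons.2 ⟨boxesF17_ok, (List.forall_mem_cons.2 ⟨boxesF18_ok, (List.forall_mem_cons.2 ⟨boxesF19_ok, (List.forall_mem_nil _)⟩)⟩)⟩)⟩)⟩)⟩)⟩)⟩)⟩)⟩)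

theorem sideF1 : sideOK cellF1 ⟨0,139659,83831,139680,83845⟩ listF1 116165154124 = true := by
  decide +kernel

theorem lastF1 : nodeEq (lastNode ⟨0,139659,83831,139680,83845⟩ listF1) ⟨11059,201724680928,1011368845977,201724680928,1011368845977⟩ = true := by
  decide +kernel

theorem partF1 (p : ℕ) (hp : 29 ≤ p) (hε0 : rn 352321 ≤ epsP p) (hε1 : epsP p ≤ rn 452985) (J : ℝ)
    (hJ0 : exp (rn 13421772 / ((p : ℝ) + 1)) * (2 * mass (p + 1) semi 1) ≤ J)
    (hJ1 : J ≤ exp (rn 20971520 / ((p : ℝ) + 1)) * (2 * mass (p + 1) semi 1)) : HasCert p J :=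
  hasCert_crude (c := cellF1) (d := ⟨68673018, 68673018, 1762641, 7, 36, 116165154124⟩) listF1_ok sideF1 lastF1
    (by decide +kernel) (by unfold TauOK; decide +kernel) hp hε0 hε1 J hJ0 hJ1

/-- The boxes of the part F2. -/
def listF2 : List Box :=
  [boxesF20, boxesF21, boxesF22, boxesF23, boxesF24, boxesF25, boxesF26, boxesF27, boxesF28].flatten

theorem listF2_ok : ∀ B ∈ listF2, boxOK cellF2 cellF2.eEnv B = true :=
  boxes_join _ (List.forall_mem_cons.2 ⟨boxesF20_ok, (List.forall_mem_cons.2 ⟨boxesF21_ok, (List.forall_mem_cons.2 ⟨boxesF22_ok, (List.forall_mem_cons.2 ⟨boxesF23_ok, (List.forall_mem_cons.2 ⟨boxesF24_ok, (List.forall_mem_cons.2 ⟨boxesF25_ok, (List.forall_mem_cons.2 ⟨boxesF26_ok, (List.forall_mem_cons.2 ⟨boxesF27_ok, (List.forall_mem_cons.2 ⟨boxesF28_ok, (List.forall_mem_nil _)⟩)⟩)⟩)⟩)⟩)⟩)⟩)⟩)⟩)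

theorem sideF2 : sideOK cellF2 ⟨0,30245,37303,30265,37324⟩ listF2 90244026310 = true := by
  decide +kernel

theorem lastF2 : nodeEq (lastNode ⟨0,30245,37303,30265,37324⟩ listF2) ⟨11059,163751946116,626166156081,163845666160,626166156081⟩ = true := by
  decide +kernel

theorem partF2 (p : ℕ) (hp : 29 ≤ p) (hε0 : rn 352321 ≤ epsP p) (hε1 : epsP p ≤ rn 452985) (J : ℝ)
    (hJ0 : exp (rn 20971520 / ((p : ℝ) + 1)) * (2 * mass (p + 1) semi 1) ≤ J)
    (hJ1 : J ≤ exp (rn 31876711 / ((p : ℝ) + 1)) * (2 * mass (p + 1) semi 1)) : HasCert p J :=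
  hasCert_crude (c := cellF2) (d := ⟨42987329, 42987329, 1843823, 7, 36, 90244026310⟩) listF2_ok sideF2 lastF2
    (by decide +kernel) (by unfold TauOK; decide +kernel) hp hε0 hε1 J hJ0 hJ1

/-- The boxes of the part F3. -/
def listF3 : List Box :=
  [boxesF30, boxesF31, boxesF32, boxesF33, boxesF34, boxesF35].flatten

theorem listF3_ok : ∀ B ∈ listF3, boxOK cellF3 cellF3.eEnv B = true :=
  boxes_join _ (List.forall_mem_cons.2 ⟨boxesF30_ok, (List.forall_mem_cons.2 ⟨boxesF31_ok, (List.forall_mem_cons.2 ⟨boxesF32_ok, (List.forall_mem_cons.2 ⟨boxesF33_ok, (List.forall_mem_cons.2 ⟨boxesF34_ok, (List.forall_mem_cons.2 ⟨boxesF35_ok, (List.forall_mem_nil _)⟩)⟩)⟩)⟩)⟩)⟩)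

theorem sideF3 : sideOK cellF3 ⟨0,68836,17814,68846,17823⟩ listF3 82247081237 = true := by
  decide +kernel

theorem lastF3 : nodeEq (lastNode ⟨0,68836,17814,68846,17823⟩ listF3) ⟨11059,215538409250,514623243294,215634845292,514623243294⟩ = true := by
  decide +kernel

theorem partF3 (p : ℕ) (hp : 29 ≤ p) (hε0 : rn 352321 ≤ epsP p) (hε1 : epsP p ≤ rn 452985) (J : ℝ)
    (hJ0 : exp (rn 31876710 / ((p : ℝ) + 1)) * (2 * mass (p + 1) semi 1) ≤ J)
    (hJ1 : J ≤ exp (rn 41943040 / ((p : ℝ) + 1)) * (2 * mass (p + 1) semi 1)) : HasCert p J :=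
  hasCert_crude (c := cellF3) (d := ⟨31864070, 31864070, 2300769, 7, 36, 82247081237⟩) listF3_ok sideF3 lastF3
    (by decide +kernel) (by unfold TauOK; decide +kernel) hp hε0 hε1 J hJ0 hJ1

/-- The boxes of the part G1. -/
def listG1 : List Box :=
  [boxesG10, boxesG11, boxesG12, boxesG13, boxesG14, boxesG15, boxesG16, boxesG17, boxesG18].flatten

theorem listG1_ok : ∀ B ∈ listG1, boxOK cellG1 cellG1.eEnv B = true :=
  boxes_join _ (List.forall_mem_cons.2 ⟨boxesG10_ok, (List.forall_mem_cons.2 ⟨boxesG11_ok, (List.forall_mem_cons.2 ⟨boxesG12_ok, (List.forall_mem_cons.2 ⟨boxesG13_ok, (List.forall_mem_cons.2 ⟨boxesG14_ok, (List.forall_mem_cons.2 ⟨boxesG15_ok, (List.forall_mem_cons.2 ⟨boxesG16_ok, (List.forall_mem_cons.2 ⟨boxesG17_ok, (List.forall_mem_cons.2 ⟨boxesG18_ok, (List.forall_mem_nil _)⟩)⟩)⟩)⟩)⟩)⟩)⟩)⟩)⟩)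

theorem sideG1 : sideOK cellG1 ⟨0,65998,39583,66012,39602⟩ listG1 906492411833 = true := by
  decide +kernel

theorem lastG1 : nodeEq (lastNode ⟨0,65998,39583,66012,39602⟩ listG1) ⟨10240,413149900935,808761539661,413149900935,808761539661⟩ = true := by
  decide +kernel

theorem partG1 (p : ℕ) (hp : 29 ≤ p) (hε0 : rn 452983 ≤ epsP p) (hε1 : epsP p ≤ rn 559241) (J : ℝ)
    (hJ0 : exp (rn 13421772 / ((p : ℝ) + 1)) * (2 * mass (p + 1) semi 1) ≤ J)
    (hJ1 : J ≤ exp (rn 18454938 / ((p : ℝ) + 1)) * (2 * mass (p + 1) semi 1)) : HasCert p J :=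
  hasCert_crude (c := cellG1) (d := ⟨171701433, 171701433, 8229427, 7, 36, 906492411833⟩) listG1_ok sideG1 lastG1
    (by decide +kernel) (by unfold TauOK; decide +kernel) hp hε0 hε1 J hJ0 hJ1

/-- The boxes of the part G2. -/
def listG2 : List Box :=
  [boxesG20, boxesG21, boxesG22, boxesG23, boxesG24, boxesG25, boxesG26, boxesG27, boxesG28, boxesG29].flatten

theorem listG2_ok : ∀ B ∈ listG2, boxOK cellG2 cellG2.eEnv B = true :=
  boxes_join _ (List.forall_mem_cons.2 ⟨boxesG20_ok, (List.forall_mem_cons.2 ⟨boxesG21_ok, (List.forall_mem_cons.2 ⟨boxesG22_ok, (List.forall_mem_cons.2 ⟨boxesG23_ok, (List.forall_mem_cons.2 ⟨boxesG24_ok, (List.forall_mem_cons.2 ⟨boxesG25_ok, (List.forall_mem_cons.2 ⟨boxesG26_ok, (List.forall_mem_cons.2 ⟨boxesG27_ok, (List.forall_mem_cons.2 ⟨boxesG28_ok, (List.forall_mem_cons.2 ⟨boxesG29_ok, (List.forall_mem_nil _)⟩)⟩)⟩)⟩)⟩)⟩)⟩)⟩)⟩)⟩)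

theorem sideG2 : sideOK cellG2 ⟨0,98654,113523,98664,113533⟩ listG2 633100894818 = true := by
  decide +kernel

theorem lastG2 : nodeEq (lastNode ⟨0,98654,113523,98664,113533⟩ listG2) ⟨10240,29930426533,532442550899,29977345486,532442550899⟩ = true := by
  decide +kernel

theorem partG2 (p : ℕ) (hp : 29 ≤ p) (hε0 : rn 452983 ≤ epsP p) (hε1 : epsP p ≤ rn 559241) (J : ℝ)
    (hJ0 : exp (rn 18454937 / ((p : ℝ) + 1)) * (2 * mass (p + 1) semi 1) ≤ J)
    (hJ1 : J ≤ exp (rn 28521268 / ((p : ℝ) + 1)) * (2 * mass (p + 1) semi 1)) : HasCert p J :=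
  hasCert_crude (c := cellG2) (d := ⟨118767054, 118767054, 5125952, 7, 36, 633100894818⟩) listG2_ok sideG2 lastG2
    (by decide +kernel) (by unfold TauOK; decide +kernel) hp hε0 hε1 J hJ0 hJ1

/-- The boxes of the part G3. -/
def listG3 : List Box :=
  [boxesG30, boxesG31, boxesG32, boxesG33, boxesG34, boxesG35, boxesG36, boxesG37, boxesG38, boxesG39].flatten

theorem listG3_ok : ∀ B ∈ listG3, boxOK cellG3 cellG3.eEnv B = true :=
  boxes_join _ (List.forall_mem_cons.2 ⟨boxesG30_ok, (List.forall_mem_cons.2 ⟨boxesG31_ok, (List.forall_mem_cons.2 ⟨boxesG32_ok, (List.forall_mem_cons.2 ⟨boxesG33_ok, (List.forall_mem_cons.2 ⟨boxesG34_ok, (List.forall_mem_cons.2 ⟨boxesG35_ok, (List.forall_mem_cons.2 ⟨boxesG36_ok, (List.forall_mem_cons.2 ⟨boxesG37_ok, (List.forall_mem_cons.2 ⟨boxesG38_ok, (List.forall_mem_cons.2 ⟨boxesG39_ok, (List.forall_mem_nil _)⟩)⟩)⟩)⟩)⟩)⟩)⟩)⟩)⟩)⟩)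

theorem sideG3 : sideOK cellG3 ⟨0,156246,171332,156246,171332⟩ listG3 512015365077 = true := by
  decide +kernel

theorem lastG3 : nodeEq (lastNode ⟨0,156246,171332,156246,171332⟩ listG3) ⟨10240,30850314542,322809438768,30918828041,322809438768⟩ = true := by
  decide +kernel

theorem partG3 (p : ℕ) (hp : 29 ≤ p) (hε0 : rn 452983 ≤ epsP p) (hε1 : epsP p ≤ rn 559241) (J : ℝ)
    (hJ0 : exp (rn 28521267 / ((p : ℝ) + 1)) * (2 * mass (p + 1) semi 1) ≤ J)
    (hJ1 : J ≤ exp (rn 41943040 / ((p : ℝ) + 1)) * (2 * mass (p + 1) semi 1)) : HasCert p J :=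
  hasCert_crude (c := cellG3) (d := ⟨84890976, 84890976, 7119029, 7, 36, 512015365077⟩) listG3_ok sideG3 lastG3
    (by decide +kernel) (by unfold TauOK; decide +kernel) hp hε0 hε1 J hJ0 hJ1

end Vale.Agent.P237.All.Transport.Mid
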