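import Vale.Agent.P237.All.Mid.Forms

/-!
P237, cell `k` in `[4/5, 5/2]`: a range of `w` of a box, with the majorant on it.
-/

noncomputable section

open Real Set

namespace Vale.Agent.P237.All.Transport.Mid

/-- The coefficient functions of a cell. -/
def Cell.T (c : Cell) (p : ℕ) : ℝ := (epsP p * 16777216 - c.ec) / c.et

/-- The potential in `θ`. -/
def Cell.fA (c : Cell) (p : ℕ) (y : ℝ) : ℝ :=
  1 - 22 / 5 * c.D.val (c.T p) + c.sA.val (c.T p) (XP p y) * epsP p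

/-- Its derivative. -/
def Cell.fdA (c : Cell) (p : ℕ) (y : ℝ) : ℝ :=
  2 * ((p : ℝ) + 2) * y * c.sA.der (c.T p) (XP p y) * epsP p

/-- The potential in `θ ^ 2`. -/
def Cell.fW (c : Cell) (p : ℕ) (y : ℝ) : ℝ := c.sW.val (c.T p) (XP p y)

/-- Its derivative. -/
def Cell.fdW (c : Cell) (p : ℕ) (y : ℝ) : ℝ := 2 * ((p : ℝ) + 2) * y * c.sW.der (c.T p) (XP p y)

theorem Cell.potAt (c : Cell) (p : ℕ) (y : ℝ) :
    PotAt p (c.D.val (c.T p)) (c.sA.val (c.T p) (XP p y)) (c.sA.der (c.T p) (XP p y))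
      (c.sW.val (c.T p) (XP p y)) (c.sW.der (c.T p) (XP p y)) y (c.fA p) (c.fdA p) (c.fW p) (c.fdW p) :=
  ⟨rfl, rfl, rfl, rfl⟩

/-- The density with the potential of a cell. -/
def Cell.total (c : Cell) (p : ℕ) (c2 lam y t r : ℝ) : ℝ :=
  density p 0 (1 / 2 - c.D.val (c.T p)) (c.D.val (c.T p)) (6 / 5)
      (ellM p (c.D.val (c.T p)) (c.e1.val (c.T p)) c2) lam c2 y t r +
    (potFY p (c.fA p) (c.fdA p) (c.fW p) (c.fdW p) y t + potFT p (c.fA p) (c.fW p) y t / r ^ p)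

/-- The bound of a box at `(X, ε, k)`. -/
def hVal (n0 n1 : Node) (a b l : ℝ) : ℝ :=
  interp a b (fun i j =>
    ((1 - l) * ((cond i n1 n0).H j false : ℕ) + l * ((cond i n1 n0).H j true : ℕ)) / 16777216)

/-- What is fixed along a box. -/
structure Loc (c : Cell) (E : BEnv) (x0 x1 : ℕ) (p : ℕ) (k y t r lam a b l : ℝ) : Prop where
  cp : CellPt c p k y t r lam
  hp : 29 ≤ p
  hD : c.D.val (c.T p) ∈ Icc (1 / 4 : ℝ) (2 / 5)
  het : c.et ≤ c.ec
  hec : 0 < c.ec
  ha : a ∈ Icc (0 : ℝ) 1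
  hb : b ∈ Icc (0 : ℝ) 1
  hl : l ∈ Icc (0 : ℝ) 1
  hk : k * 16777216 = (1 - l) * c.K0 + l * c.K1
  hε : epsP p * 16777216 = c.ec + c.et * (2 * b - 1)
  hX : XP p y * 16777216 = (1 - a) * nodeX x0 + a * nodeX x1
  env : BHas E a b (c.D.val (c.T p)) (c.e1.val (c.T p)) (c.sA.val (c.T p) (XP p y))
    (c.sA.der (c.T p) (XP p y)) (c.sW.val (c.T p) (XP p y)) (c.sW.der (c.T p) (XP p y))
    (epsP p) (XP p y) (rn c.z)

/-- The interpolation of the values at the ends of `ε`. -/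
def int2 (b : ℝ) (f : C2) : ℝ := (1 - b) * f.l.v + b * f.h.v

theorem interp_c2 (a b : ℝ) (f : C2) : interp a b (fun _ j => (f.get j).v) = int2 b f := by
  simp only [interp, int2, C2.get, cond_true, cond_false]; ring

theorem sMax_ge (x y : Sg) : x.v ≤ (sMax x y).v ∧ y.v ≤ (sMax x y).v := by
  rcases h : Sg.le x y with _ | _
  · have : y.v ≤ x.v := by
      rw [Sg.le_def] at h
      have h' : ¬ x.pos + y.neg ≤ y.pos + x.neg := by rw [← Nat.ble_eq]; simp [h]
      have h2 : ((y.pos + x.neg : ℕ) : ℝ) ≤ ((x.pos + y.neg : ℕ) : ℝ) := Nat.cast_le.2 (by omega)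
      push_cast at h2
      simp only [Sg.v]; linarith
    simp [sMax, h, this]
  · simp [sMax, h, Sg.le_iff h]

theorem sMin_le (x y : Sg) : (sMin x y).v ≤ x.v ∧ (sMin x y).v ≤ y.v := by
  rcases h : Sg.le x y with _ | _
  · have : y.v ≤ x.v := by
      rw [Sg.le_def] at h
      have h' : ¬ x.pos + y.neg ≤ y.pos + x.neg := by rw [← Nat.ble_eq]; simp [h]
      have h2 : ((y.pos + x.neg : ℕ) : ℝ) ≤ ((x.pos + y.neg : ℕ) : ℝ) := Nat.cast_le.2 (by omega)
      push_cast at h2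
      simp only [Sg.v]; linarith
    simp [sMin, h, this]
  · simp [sMin, h, Sg.le_iff h]

theorem le_sMin {x y : Sg} {v : ℝ} (hx : v ≤ x.v) (hy : v ≤ y.v) : v ≤ (sMin x y).v := by
  rcases h : Sg.le x y with _ | _ <;> simpa [sMin, h]

theorem int2_le_max {b : ℝ} (hb : b ∈ Icc (0 : ℝ) 1) (f : C2) : int2 b f ≤ (sMax f.l f.h).v := by
  obtain ⟨h1, h2⟩ := sMax_ge f.l f.h
  have := mul_le_mul_of_nonneg_left h1 (sub_nonneg.2 hb.2)
  have := mul_le_mul_of_nonneg_left h2 hb.1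
  rw [int2]; linarith

theorem min_le_int2 {b : ℝ} (hb : b ∈ Icc (0 : ℝ) 1) (f : C2) : (sMin f.l f.h).v ≤ int2 b f := by
  obtain ⟨h1, h2⟩ := sMin_le f.l f.h
  have := mul_le_mul_of_nonneg_left h1 (sub_nonneg.2 hb.2)
  have := mul_le_mul_of_nonneg_left h2 hb.1
  rw [int2]; linarith

theorem v_mk (a b : ℕ) : (Sg.mk a b).v = (a : ℝ) - b := rfl

theorem int2_mono {b : ℝ} (hb : b ∈ Icc (0 : ℝ) 1) {u v u' v' : ℝ} (h1 : u ≤ u') (h2 : v ≤ v') :
    (1 - b) * u + b * v ≤ (1 - b) * u' + b * v' :=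
  add_le_add (mul_le_mul_of_nonneg_left h1 (sub_nonneg.2 hb.2)) (mul_le_mul_of_nonneg_left h2 hb.1)

/-- The tangent of `1 / ε` at the centre stays below it. -/
theorem tangent_le {ec et ε T : ℝ} (hec : 0 < ec) (hε : 0 < ε) (h : ε * 16777216 = ec + et * T) :
    (ec - et * T) / ec ^ 2 * 16777216 ≤ 1 / ε := by
  rw [div_mul_eq_mul_div, div_le_div_iff₀ (by positivity) hε, one_mul, mul_assoc,
    mul_comm (16777216 : ℝ) ε, h]
  nlinarith [sq_nonneg (et * T)]

/-- The chord of `1 / ε` stays above it. -/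
theorem chord_ge {e0 e1 ε b : ℝ} (he0 : 0 < e0) (he : e0 ≤ e1) (hb : b ∈ Icc (0 : ℝ) 1)
    (h : ε * 16777216 = (1 - b) * e0 + b * e1) :
    1 / ε ≤ ((1 - b) / e0 + b / e1) * 16777216 := by
  have he1 : 0 < e1 := he0.trans_le he
  have hε : 0 < ε := by
    have : 0 < ε * 16777216 := by
      rw [h]
      nlinarith [mul_le_mul_of_nonneg_left he hb.1]
    linarith
  rw [div_add_div _ _ he0.ne' he1.ne', div_mul_eq_mul_div, div_le_div_iff₀ hε (by positivity), one_mul,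
    show ((1 - b) * e1 + e0 * b) * 16777216 * ε = ((1 - b) * e1 + e0 * b) * (ε * 16777216) by ring, h]
  nlinarith [mul_nonneg (mul_nonneg hb.1 (sub_nonneg.2 hb.2)) (sq_nonneg (e1 - e0))]

variable {c : Cell} {E : BEnv} {x0 x1 : ℕ} {p : ℕ} {k y t r lam a b l : ℝ}

theorem Loc.E_eq (h : Loc c E x0 x1 p k y t r lam a b l) :
    (c.E0 : ℝ) = (c.ec : ℝ) - c.et ∧ (c.E1 : ℝ) = (c.ec : ℝ) + c.et := by
  simp [Cell.E0, Cell.E1, Nat.cast_sub h.het]

theorem Loc.eps_chord (h : Loc c E x0 x1 p k y t r lam a b l) :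
    epsP p * 16777216 = (1 - b) * c.E0 + b * c.E1 := by
  obtain ⟨e0, e1⟩ := h.E_eq
  rw [h.hε, e0, e1]; ring

theorem Loc.w_eq (_h : Loc c E x0 x1 p k y t r lam a b l) : (r ^ p)⁻¹ = 1 + epsP p * sig p r := by
  have := (eps_pos p).ne'
  rw [sig]; field_simp; ring

/-- Above a point. -/
def Above (b : Bp) (w σ : ℝ) : Prop :=
  cond b.isW ((b.val.posPart : ℝ) ≤ w * 16777216) (b.val.v ≤ σ * 16777216)

/-- Below a point. -/
def Below (b : Bp) (w σ : ℝ) : Prop :=
  cond b.isW (w * 16777216 ≤ (b.val.posPart : ℝ)) (σ * 16777216 ≤ b.val.v)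

theorem below_or_above (q : Bp) {w : ℝ} (σ : ℝ) : Below q w σ ∨ Above q w σ := by
  unfold Below Above
  cases q.isW <;> exact le_total _ _

theorem cast_wlo {N A B : ℕ} {x : ℝ} (h0 : 0 ≤ x) (h : (N : ℝ) + A - B ≤ x) :
    ((Nat.sub (Nat.add N A) B : ℕ) : ℝ) ≤ x := by
  simp only [Nat.sub_eq, Nat.add_eq]
  rcases le_total (N + A) B with hAB | hAB
  · rwa [Nat.sub_eq_zero_of_le hAB, Nat.cast_zero]
  · rwa [Nat.cast_sub hAB, Nat.cast_add]

theorem cast_whi {N A B : ℕ} {x : ℝ} (h : x ≤ (N : ℝ) + A - B) :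
    x ≤ ((Nat.sub (Nat.add N A) B : ℕ) : ℝ) := by
  simp only [Nat.sub_eq, Nat.add_eq]
  refine h.trans (le_trans (le_of_eq ?_) (cast_sub_ge _ _))
  rw [Nat.cast_add]

theorem div_up (P E N : ℕ) : ((Nat.div (Nat.mul P E) N : ℕ) : ℝ) ≤ (P : ℝ) * E / N := by
  rw [← Nat.cast_mul]; exact cast_div_le _ _

theorem div_dn (P E : ℕ) {N : ℕ} (hN : 0 < N) : (P : ℝ) * E / N ≤ (cdiv (Nat.mul P E) N : ℕ) := by
  rw [← Nat.cast_mul]; exact cdiv_ge _ hN

theorem Loc.wLo_le (h : Loc c E x0 x1 p k y t r lam a b l) {q : Bp}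
    (hq : Above q (r ^ p)⁻¹ (sig p r)) : (q.wLo c : ℝ) ≤ (r ^ p)⁻¹ * 16777216 := by
  unfold Above at hq
  cases hw : q.isW
  · rw [hw, cond_false] at hq
    rw [Bp.wLo, hw, cond_false]
    refine cast_wlo (mul_nonneg (w_pos h.cp.pt).le (by norm_num)) ?_
    have hA := div_up q.val.posPart c.E0 16777216
    have hB := div_dn q.val.negPart c.E1 (N := 16777216) (by norm_num)
    rw [Nat.cast_ofNat] at hA hB ⊢
    rw [h.w_eq]
    have hε := h.cp.hε
    simp only [rn] at hε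
    have hv : q.val.v = (q.val.posPart : ℝ) - q.val.negPart := by
      rw [Sg.posPart_def, Sg.negPart_def]; exact Sg.v_split _
    have h1 := mul_le_mul_of_nonneg_left hq (eps_pos p).le
    have h2 := mul_le_mul_of_nonneg_left hε.1 (Nat.cast_nonneg q.val.posPart)
    have h3 := mul_le_mul_of_nonneg_left hε.2 (Nat.cast_nonneg q.val.negPart)
    rw [hv] at h1
    linarith
  · rw [hw, cond_true] at hq
    rw [Bp.wLo, hw, cond_true]; exact hq

theorem Loc.le_wHi (h : Loc c E x0 x1 p k y t r lam a b l) {q : Bp}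
    (hq : Below q (r ^ p)⁻¹ (sig p r)) : (r ^ p)⁻¹ * 16777216 ≤ (q.wHi c : ℝ) := by
  unfold Below at hq
  cases hw : q.isW
  · rw [hw, cond_false] at hq
    rw [Bp.wHi, hw, cond_false]
    refine cast_whi ?_
    have hA := div_up q.val.negPart c.E0 16777216
    have hB := div_dn q.val.posPart c.E1 (N := 16777216) (by norm_num)
    rw [Nat.cast_ofNat] at hA hB ⊢
    rw [h.w_eq]
    have hε := h.cp.hε
    simp only [rn] at hε
    have hv : q.val.v = (q.val.posPart : ℝ) - q.val.negPart := by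
      rw [Sg.posPart_def, Sg.negPart_def]; exact Sg.v_split _
    have h1 := mul_le_mul_of_nonneg_left hq (eps_pos p).le
    have h2 := mul_le_mul_of_nonneg_left hε.2 (Nat.cast_nonneg q.val.posPart)
    have h3 := mul_le_mul_of_nonneg_left hε.1 (Nat.cast_nonneg q.val.negPart)
    rw [hv] at h1
    linarith
  · rw [hw, cond_true] at hq
    rw [Bp.wHi, hw, cond_true]; exact hq

theorem tang_dn (P N e q : ℕ) :
    ((Nat.div (Nat.mul (Nat.mul (Nat.sub P N) N) e) q : ℕ) : ℝ) ≤ max 0 ((P : ℝ) - N) * N * e / q := by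
  refine (cast_div_le _ _).trans (div_le_div_of_nonneg_right (le_of_eq ?_) (Nat.cast_nonneg q))
  simp only [Nat.mul_eq, Nat.sub_eq, Nat.cast_mul]
  rcases le_total N P with h | h
  · rw [Nat.cast_sub h, max_eq_right (sub_nonneg.2 (Nat.cast_le.2 h))]
  · rw [Nat.sub_eq_zero_of_le h, Nat.cast_zero, max_eq_left (sub_nonpos.2 (Nat.cast_le.2 h))]

theorem chord_up (P N : ℕ) {E : ℕ} (hE : 0 < E) :
    max 0 ((N : ℝ) - P) * N / E ≤ ((cdiv (Nat.mul (Nat.sub N P) N) E : ℕ) : ℝ) := by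
  refine le_trans (div_le_div_of_nonneg_right (le_of_eq ?_) (Nat.cast_nonneg E)) (cdiv_ge _ hE)
  simp only [Nat.mul_eq, Nat.sub_eq, Nat.cast_mul]
  rcases le_total P N with h | h
  · rw [Nat.cast_sub h, max_eq_right (sub_nonneg.2 (Nat.cast_le.2 h))]
  · rw [Nat.sub_eq_zero_of_le h, Nat.cast_zero, max_eq_left (sub_nonpos.2 (Nat.cast_le.2 h))]

theorem tang_flip (P N e q : ℕ) :
    ((Nat.div (Nat.mul (Nat.mul (Nat.sub N P) N) e) q : ℕ) : ℝ) ≤ max 0 ((N : ℝ) - P) * N * e / q := by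
  refine (cast_div_le _ _).trans (div_le_div_of_nonneg_right (le_of_eq ?_) (Nat.cast_nonneg q))
  simp only [Nat.mul_eq, Nat.sub_eq, Nat.cast_mul]
  rcases le_total P N with h | h
  · rw [Nat.cast_sub h, max_eq_right (sub_nonneg.2 (Nat.cast_le.2 h))]
  · rw [Nat.sub_eq_zero_of_le h, Nat.cast_zero, max_eq_left (sub_nonpos.2 (Nat.cast_le.2 h))]

theorem chord_flip (P N : ℕ) {E : ℕ} (hE : 0 < E) :
    max 0 ((P : ℝ) - N) * N / E ≤ ((cdiv (Nat.mul (Nat.sub P N) N) E : ℕ) : ℝ) := by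
  refine le_trans (div_le_div_of_nonneg_right (le_of_eq ?_) (Nat.cast_nonneg E)) (cdiv_ge _ hE)
  simp only [Nat.mul_eq, Nat.sub_eq, Nat.cast_mul]
  rcases le_total N P with h | h
  · rw [Nat.cast_sub h, max_eq_right (sub_nonneg.2 (Nat.cast_le.2 h))]
  · rw [Nat.sub_eq_zero_of_le h, Nat.cast_zero, max_eq_left (sub_nonpos.2 (Nat.cast_le.2 h))]

theorem Loc.tangent (h : Loc c E x0 x1 p k y t r lam a b l) {v : ℝ} (hv : 0 ≤ v) :
    (1 - b) * (v * 16777216 * (((c.ec + c.et : ℕ) : ℕ) : ℝ) / (((c.ec * c.ec : ℕ) : ℕ) : ℝ)) +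
      b * (v * 16777216 * (((c.ec - c.et : ℕ) : ℕ) : ℝ) / (((c.ec * c.ec : ℕ) : ℕ) : ℝ)) ≤
      v / epsP p := by
  have hec : (0 : ℝ) < c.ec := Nat.cast_pos.2 h.hec
  have ht := mul_le_mul_of_nonneg_left (tangent_le hec (eps_pos p) h.hε) hv
  rw [mul_one_div] at ht
  rw [Nat.cast_add, Nat.cast_sub h.het, Nat.cast_mul]
  refine le_trans (le_of_eq ?_) ht
  field_simp
  ring

theorem Loc.chord (h : Loc c E x0 x1 p k y t r lam a b l) {v : ℝ} (hv : 0 ≤ v) (hE0 : 0 < c.E0) :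
    v / epsP p ≤ (1 - b) * (v * 16777216 / (c.E0 : ℝ)) + b * (v * 16777216 / (c.E1 : ℝ)) := by
  obtain ⟨e0, e1⟩ := h.E_eq
  have hc := mul_le_mul_of_nonneg_left (chord_ge (Nat.cast_pos.2 hE0)
    (show (c.E0 : ℝ) ≤ c.E1 by rw [e0, e1]; linarith [Nat.cast_nonneg (α := ℝ) c.et]) h.hb h.eps_chord) hv
  rw [mul_one_div] at hc
  exact hc.trans (le_of_eq (by ring))

theorem Loc.E1_pos (h : Loc c E x0 x1 p k y t r lam a b l) : 0 < c.E1 :=
  Nat.add_pos_left h.hec _

theorem Loc.sLo_le (h : Loc c E x0 x1 p k y t r lam a b l) {q : Bp}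
    (hq : Above q (r ^ p)⁻¹ (sig p r)) (hf : q.loFin c = true) :
    int2 b (q.sLo c) ≤ sig p r * 16777216 := by
  unfold Above at hq
  cases hw : q.isW
  · rw [hw, cond_false] at hq
    rw [Bp.sLo, hw, cond_false]
    exact (le_of_eq (by rw [int2]; ring)).trans hq
  rw [hw, cond_true] at hq
  rw [Bp.sLo, hw, cond_true]
  have hε := eps_pos p
  have hfin : q.val.posPart < 16777216 → 0 < c.E0 := by
    intro hlt
    have hn : Nat.ble 16777216 q.val.posPart = false := by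
      rw [Bool.eq_false_iff]; intro hb'; exact absurd (Nat.le_of_ble_eq_true hb') (not_le.2 hlt)
    rw [Bp.loFin, hw, hn] at hf
    simpa using hf
  have hσ : ((q.val.posPart : ℝ) - 16777216) / epsP p ≤ sig p r * 16777216 := by
    rw [div_le_iff₀ hε]
    have := congrArg (· * (16777216 : ℝ)) h.w_eq
    linarith
  refine le_trans ?_ hσ
  have t0 := tang_dn q.val.posPart 16777216 (c.ec + c.et) (c.ec * c.ec)
  have t1 := tang_dn q.val.posPart 16777216 (c.ec - c.et) (c.ec * c.ec)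
  rw [Nat.cast_ofNat] at t0 t1
  refine le_trans (int2_mono h.hb (sub_le_sub_right t0 _) (sub_le_sub_right t1 _)) ?_
  generalize q.val.posPart = P at hfin ⊢
  rcases le_or_gt (16777216 : ℝ) P with hP | hP
  · rw [max_eq_right (sub_nonneg.2 hP)]
    refine le_trans (int2_mono h.hb (sub_le_self _ (Nat.cast_nonneg _)) (sub_le_self _ (Nat.cast_nonneg _))) ?_
    exact h.tangent (sub_nonneg.2 hP)
  · have hE0 := hfin (by exact_mod_cast hP)
    have g0 := chord_up P 16777216 hE0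
    have g1 := chord_up P 16777216 h.E1_pos
    rw [Nat.cast_ofNat] at g0 g1
    rw [max_eq_right (sub_nonneg.2 hP.le)] at g0 g1
    rw [max_eq_left (sub_nonpos.2 hP.le)]
    refine le_trans (int2_mono h.hb (sub_le_sub_left g0 _) (sub_le_sub_left g1 _)) ?_
    have hc := h.chord (sub_nonneg.2 hP.le) hE0
    rw [show ((P : ℝ) - 16777216) / epsP p = -((16777216 - (P : ℝ)) / epsP p) by ring]
    refine le_trans (le_of_eq ?_) (neg_le_neg hc)
    ring

theorem Loc.le_sHi (h : Loc c E x0 x1 p k y t r lam a b l) {q : Bp}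
    (hq : Below q (r ^ p)⁻¹ (sig p r)) (hf : q.hiFin c = true) :
    sig p r * 16777216 ≤ int2 b (q.sHi c) := by
  unfold Below at hq
  cases hw : q.isW
  · rw [hw, cond_false] at hq
    rw [Bp.sHi, hw, cond_false]
    exact hq.trans (le_of_eq (by rw [int2]; ring))
  rw [hw, cond_true] at hq
  rw [Bp.sHi, hw, cond_true]
  have hε := eps_pos p
  have hfin : 16777216 < q.val.posPart → 0 < c.E0 := by
    intro hlt
    have hn : Nat.ble q.val.posPart 16777216 = false := by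
      rw [Bool.eq_false_iff]; intro hb'; exact absurd (Nat.le_of_ble_eq_true hb') (not_le.2 hlt)
    rw [Bp.hiFin, hw, hn] at hf
    simpa using hf
  have hσ : sig p r * 16777216 ≤ ((q.val.posPart : ℝ) - 16777216) / epsP p := by
    rw [le_div_iff₀ hε]
    have := congrArg (· * (16777216 : ℝ)) h.w_eq
    linarith
  refine le_trans hσ ?_
  simp only [int2, v_mk]
  generalize q.val.posPart = P at hfin ⊢
  rcases le_or_gt (P : ℝ) 16777216 with hP | hP
  · refine le_trans ?_ (int2_mono h.hb (sub_le_sub (Nat.cast_nonneg _) (tang_flip P 16777216 (c.ec + c.et) (c.ec * c.ec)))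
      (sub_le_sub (Nat.cast_nonneg _) (tang_flip P 16777216 (c.ec - c.et) (c.ec * c.ec))))
    rw [Nat.cast_ofNat, max_eq_right (sub_nonneg.2 hP)]
    have ht := h.tangent (sub_nonneg.2 hP)
    rw [show ((P : ℝ) - 16777216) / epsP p = -((16777216 - (P : ℝ)) / epsP p) by ring]
    refine le_trans (neg_le_neg ht) (le_of_eq ?_)
    ring
  · have hE0 := hfin (by exact_mod_cast hP)
    have g0 := chord_flip P 16777216 hE0
    have g1 := chord_flip P 16777216 h.E1_pos
    rw [Nat.cast_ofNat, max_eq_right (sub_nonneg.2 hP.le)] at g0 g1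
    refine le_trans ?_ (int2_mono h.hb (sub_le_sub g0 (tang_flip P 16777216 (c.ec + c.et) (c.ec * c.ec)))
      (sub_le_sub g1 (tang_flip P 16777216 (c.ec - c.et) (c.ec * c.ec))))
    rw [Nat.cast_ofNat, max_eq_left (sub_nonpos.2 hP.le)]
    refine le_trans (h.chord (sub_nonneg.2 hP.le) hE0) (le_of_eq ?_)
    ring

/-- What a range gives at the point. -/
structure WR (c : Cell) (W : WEnv) (p : ℕ) (c2 lam y t r a b : ℝ) : Prop where
  neg : W.neg = true → sig p r ≤ 0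
  pos : W.neg = false → 0 ≤ sig p r
  slo : W.sloF = true → int2 b W.slo ≤ sig p r * 16777216 ∧ W.s0.v ≤ sig p r * 16777216
  shi : W.shiF = true → sig p r * 16777216 ≤ int2 b W.shi ∧ sig p r * 16777216 ≤ W.s1.v
  line : W.neg = false →
    (W.inv : ℝ) * sig p r + int2 b W.off ≤ log (r ^ p)⁻¹ / epsP p * 16777216
  major : c.total p c2 lam y t r ≤ semi y ^ (p + 1) *
    (majZero p (1 / 2 - c.D.val (c.T p)) (c.D.val (c.T p)) c2 y + epsP p ^ 2 *
      quad (RnR (c.D.val (c.T p)) (c.e1.val (c.T p)) (c.sA.val (c.T p) (XP p y)) (epsP p) (XP p y))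
        (LR (c.D.val (c.T p)) (c.sA.val (c.T p) (XP p y)) (c.sA.der (c.T p) (XP p y)) (epsP p) (XP p y))
        (CnR (c.D.val (c.T p)) (c.sW.val (c.T p) (XP p y)) (epsP p) (XP p y))
        (interp a b (fun i j => (W.kap.get i j).v) / 16777216)
        (QbR (c.D.val (c.T p)) (c.sW.val (c.T p) (XP p y)) (c.sW.der (c.T p) (XP p y)) (epsP p) (XP p y)
          (rn W.psi)) (sig p r) (ups p y t))

/-- The environment of a range. -/
def wEnv (c : Cell) (E : BEnv) (scap wcap : ℕ) (lo : Bp) (W : WP) : Bool × WEnv :=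
  withW c E scap wcap lo W fun ok WE => (ok, WE)

theorem withW_eq {α : Type} (c : Cell) (E : BEnv) (scap wcap : ℕ) (lo : Bp) (W : WP)
    (f : Bool → WEnv → α) :
    withW c E scap wcap lo W f = f (wEnv c E scap wcap lo W).1 (wEnv c E scap wcap lo W).2 := by
  simp only [wEnv, withW, forceN_eq, C2.force_eq, C4.force_eq, Sg.force_eq]

theorem lineOK_sound {inv off w : ℕ} (hw : 16777216 ≤ w) (h : lineOK inv off w = true) :
    rn inv * (rn w - 1) + rn off ≤ logLo (rn w) := by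
  simp only [lineOK, serNum, forceN_eq, Nat.ble_eq, Nat.mul_eq, Nat.add_eq, Nat.sub_eq] at h
  have hb : 0 < w + 16777216 := by omega
  have h' := (Nat.cast_le (α := ℝ)).2 h
  push_cast [Nat.cast_sub hw] at h'
  set A : ℝ := (w : ℝ) - 16777216 with hA
  set B : ℝ := (w : ℝ) + 16777216 with hB
  have hB0 : 0 < B := by positivity
  have e1 : rn w - 1 = A / 16777216 := by rw [hA, rn]; ring
  have e2 : (rn w - 1) / (rn w + 1) = A / B := by
    rw [e1, show rn w + 1 = B / 16777216 by rw [hB, rn]; ring]; field_simp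
  rw [logLo, e2, e1]
  simp only [rn]
  field_simp
  linarith

theorem kapAt_le {kp kw : Sg} {dd tw wl wh : ℕ} {w : ℝ} (hwl : (wl : ℝ) ≤ w * 16777216)
    (hwh : w * 16777216 ≤ wh) (hwh0 : 0 < wh) (hok : kapOK kp kw dd tw wl = true) (hw : 0 ≤ w) :
    (kapAt kp kw dd tw wl wh).v * w ≤
      (kp.v * (16777216 + dd) - (kw.posPart : ℝ) * tw) / 16777216 := by
  simp only [kapOK, Bool.and_eq_true, Bool.or_eq_true, Nat.blt_eq] at hok
  simp only [kapAt, Sg.force_eq, v_mk, Nat.mul_eq, Nat.add_eq]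
  set br := (kp.mul (Sg.ofN (16777216 + dd))).sub (Sg.ofN (kw.posPart * tw)) with hbr
  have hv : br.v = kp.v * (16777216 + dd) - (kw.posPart : ℝ) * tw := by rw [hbr]; simp
  rw [← hv, ← Sg.norm_v br]
  have hd : (0 : ℝ) < wh := Nat.cast_pos.2 hwh0
  rcases le_total br.neg br.pos with hle | hle
  · have hn : br.norm.neg = 0 := Nat.sub_eq_zero_of_le hle
    have hc : (0 : ℝ) ≤ (cdiv br.norm.neg wl : ℕ) := Nat.cast_nonneg _
    rw [Sg.v, hn, Nat.cast_zero, sub_zero, le_div_iff₀ (by norm_num)]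
    have h1 := cast_div_le br.norm.pos wh
    rw [le_div_iff₀ hd] at h1
    have h2 := mul_le_mul_of_nonneg_left hwh (Nat.cast_nonneg (Nat.div br.norm.pos wh))
    rw [hn] at hc
    nlinarith
  · have hp : br.norm.pos = 0 := Nat.sub_eq_zero_of_le hle
    rcases eq_or_lt_of_le hle with he | hlt
    · have hn : br.norm.neg = 0 := Nat.sub_eq_zero_of_le he.ge
      rw [Sg.v, hp, hn]
      have : (Nat.div 0 wh : ℕ) = 0 := Nat.zero_div wh
      rw [this]
      have hc : (0 : ℝ) ≤ (cdiv 0 wl : ℕ) := Nat.cast_nonneg _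
      push_cast
      nlinarith
    · have hwl0 : 0 < wl := by
        rcases hok.2 with h1 | h1
        · exact h1
        · exfalso
          have := Sg.le_iff h1
          simp at this
          have h3 : br.v < 0 := by simp only [Sg.v, sub_neg]; exact_mod_cast hlt
          rw [hv] at h3
          linarith
      rw [Sg.v, hp]
      have : (Nat.div 0 wh : ℕ) = 0 := Nat.zero_div wh
      rw [this]
      have h1 := cast_cdiv br.norm.neg hwl0
      have h2 := mul_le_mul_of_nonneg_left hwl (Nat.cast_nonneg (cdiv br.norm.neg wl))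
      push_cast
      rw [le_div_iff₀ (by norm_num)]
      nlinarith

theorem p_eps (hp : 1 ≤ p) : 1 / (p : ℝ) = epsP p / (1 - epsP p) := by
  have : (p : ℝ) ≠ 0 := Nat.cast_ne_zero.2 (by omega)
  simp only [epsP]
  field_simp
  rw [add_sub_cancel_right, div_self this]

theorem kap4_le {KP KW : C4} {dd tw wl wh : ℕ} {w : ℝ} (hwl : (wl : ℝ) ≤ w * 16777216)
    (hwh : w * 16777216 ≤ wh) (hwh0 : 0 < wh) (hw : 0 ≤ w)
    (k1 : kapOK KP.ll KW.ll dd tw wl = true) (k2 : kapOK KP.hl KW.hl dd tw wl = true)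
    (k3 : kapOK KP.lh KW.lh dd tw wl = true) (k4 : kapOK KP.hh KW.hh dd tw wl = true) (i j : Bool) :
    ((C4.mk (kapAt KP.ll KW.ll dd tw wl wh) (kapAt KP.hl KW.hl dd tw wl wh)
      (kapAt KP.lh KW.lh dd tw wl wh) (kapAt KP.hh KW.hh dd tw wl wh)).get i j).v * w ≤
      ((KP.get i j).v * (16777216 + dd) - ((KW.get i j).posPart : ℝ) * tw) / 16777216 := by
  cases i <;> cases j
  · exact kapAt_le hwl hwh hwh0 k1 hw
  · exact kapAt_le hwl hwh hwh0 k3 hw
  · exact kapAt_le hwl hwh hwh0 k2 hw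
  · exact kapAt_le hwl hwh hwh0 k4 hw

theorem line_gen {inv off wl wh : ℕ} {w : ℝ} (hw1 : 1 ≤ w) (hwl : (wl : ℝ) ≤ w * 16777216)
    (hwh : w * 16777216 ≤ wh) (hwh1 : 16777216 ≤ wh)
    (h : (lineOK inv off (nmax 16777216 wl) && lineOK inv off wh) = true) :
    rn inv * (w - 1) + rn off ≤ log w := by
  rw [Bool.and_eq_true] at h
  have hm : (16777216 : ℕ) ≤ nmax 16777216 wl := le_nmax_left _ _
  refine log_line (show 1 ≤ rn (nmax 16777216 wl) by rw [← rn_U]; exact rn_le hm)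
    ⟨?_, by rw [rn, le_div_iff₀ (by norm_num)]; exact hwh⟩
    (lineOK_sound hm h.1) (lineOK_sound hwh1 h.2)
  rw [rn, div_le_iff₀ (by norm_num)]
  unfold nmax
  cases Nat.ble 16777216 wl
  · rw [cond_false, Nat.cast_ofNat]; linarith
  · exact hwl

theorem line_off {inv : ℕ} {w ε A B : ℝ} (hε : 0 < ε) (hA : rn inv * (w - 1) + B ≤ log w)
    (hB : A ≤ B / ε * 16777216) : (inv : ℝ) * ((w - 1) / ε) + A ≤ log w / ε * 16777216 := by
  refine le_trans (add_le_add le_rfl hB) (le_trans (le_of_eq ?_)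
    (mul_le_mul_of_nonneg_right (div_le_div_of_nonneg_right hA hε.le) (by norm_num)))
  simp only [rn]
  field_simp

theorem cap_wh {N wh0 wcap : ℕ} {x : ℝ} (h : x ≤ wh0) (hc : x ≤ max (N : ℝ) wcap) :
    x ≤ (nmax N (nmin wh0 wcap) : ℕ) := by
  rcases le_max_iff.1 hc with h3 | h3
  · exact h3.trans (Nat.cast_le.2 (le_nmax_left _ _))
  · exact (le_nmin h h3).trans (Nat.cast_le.2 (le_nmax_right _ _))

theorem twPos_ge {N wh ip : ℕ} (hN : (N : ℝ) = 16777216) {w q : ℝ} (hw : 0 ≤ w)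
    (hwh : w * 16777216 ≤ wh) (hq : q ≤ rn ip) :
    w / (w + 1) + q / 2 ≤ rn (Nat.add (cdiv (Nat.mul wh N) (Nat.add wh N)) (cdiv ip 2)) := by
  simp only [Nat.add_eq, Nat.mul_eq]
  rw [rn_add]
  have hN0 : 0 < N := by
    rcases Nat.eq_zero_or_pos N with h | h
    · rw [h, Nat.cast_zero] at hN; norm_num at hN
    · exact h
  have hwh1 : (0 : ℝ) ≤ wh := Nat.cast_nonneg _
  refine add_le_add (le_trans ?_ (rn_cdiv _ (Nat.add_pos_right _ hN0)))
    (le_trans ?_ (rn_cdiv _ (Nat.succ_pos 1)))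
  · rw [Nat.cast_mul, Nat.cast_add, hN,
      show (wh : ℝ) * 16777216 / (wh + 16777216) / 16777216 = wh / (wh + 16777216) by field_simp,
      div_le_div_iff₀ (by linarith) (by linarith)]
    linarith
  · rw [rn] at hq; push_cast; linarith

theorem twNeg_ge {N su ip : ℕ} (hN : (N : ℝ) = 16777216) {q : ℝ} (hq : q ≤ rn ip) :
    rn su / (1 + rn su) + q / 2 ≤ rn (Nat.add (cdiv (Nat.mul su N) (Nat.add su N)) (cdiv ip 2)) := by
  simp only [Nat.add_eq, Nat.mul_eq]
  rw [rn_add]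
  have hN0 : 0 < N := by
    rcases Nat.eq_zero_or_pos N with h | h
    · rw [h, Nat.cast_zero] at hN; norm_num at hN
    · exact h
  refine add_le_add (le_trans (le_of_eq ?_) (rn_cdiv _ (Nat.add_pos_right _ hN0)))
    (le_trans ?_ (rn_cdiv _ (Nat.succ_pos 1)))
  · rw [Nat.cast_mul, Nat.cast_add, hN, rn]
    have : (0 : ℝ) ≤ su := Nat.cast_nonneg _
    field_simp
    ring
  · rw [rn] at hq; push_cast; linarith

theorem ddPos_le {N wh ip : ℕ} (hN : (N : ℝ) = 16777216) (hwh0 : 0 < wh) {w q : ℝ} (hw : 0 < w)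
    (hwh : w * 16777216 ≤ wh) (hq : rn ip ≤ q) :
    rn (Nat.div (Nat.mul ip N) wh) ≤ q * (1 / w) := by
  refine le_trans (div_le_div_of_nonneg_right (cast_div_le _ _) (by norm_num)) ?_
  simp only [Nat.mul_eq]
  rw [Nat.cast_mul, hN]
  have hwh1 : (0 : ℝ) < wh := Nat.cast_pos.2 hwh0
  rw [show (ip : ℝ) * 16777216 / wh / 16777216 = rn ip * (16777216 / wh) by rw [rn]; field_simp]
  refine mul_le_mul hq ?_ (by positivity) (le_trans (rn_nonneg _) hq)
  rw [div_le_div_iff₀ hwh1 hw]; linarith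

theorem psiPos_le {N wh E1 : ℕ} (hN : (N : ℝ) = 16777216) (hE1 : E1 < N) {w q : ℝ} (hw : 1 ≤ w)
    (hwh : w * 16777216 ≤ wh) (hq : q * (1 - rn E1) ≤ 1) (hq0 : 0 ≤ q) :
    rn (Nat.sub N (cdiv (Nat.mul (Nat.sub wh N) (cdiv (N * N) (Nat.sub N E1))) N)) ≤
      max 0 (1 - q * (w - 1)) := by
  simp only [Nat.sub_eq, Nat.mul_eq]
  set g := cdiv (N * N) (N - E1) with hg
  set G := cdiv ((wh - N) * g) N with hG'
  rcases le_total N G with hG | hG
  · rw [Nat.sub_eq_zero_of_le hG]; simp [rn]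
  refine le_max_of_le_right ?_
  rw [rn, Nat.cast_sub hG, sub_div, hN, div_self (by norm_num : (16777216 : ℝ) ≠ 0)]
  refine sub_le_sub_left (le_trans ?_ (rn_cdiv _ (lt_of_le_of_lt (Nat.zero_le _) hE1))) 1
  have h1 : w * 16777216 - 16777216 ≤ ((wh - N : ℕ) : ℝ) := by
    refine le_trans ?_ (cast_sub_ge _ _)
    rw [hN]; linarith
  have h2 : q * 16777216 ≤ (g : ℝ) := by
    refine le_trans ?_ (cdiv_ge _ (Nat.sub_pos_of_lt hE1))
    rw [Nat.cast_mul, Nat.cast_sub hE1.le, hN]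
    have h3 : (E1 : ℝ) < 16777216 := by rw [← hN]; exact Nat.cast_lt.2 hE1
    rw [le_div_iff₀ (by linarith)]
    rw [rn] at hq
    linarith
  rw [Nat.cast_mul, hN, le_div_iff₀ (by norm_num), le_div_iff₀ (by norm_num)]
  have := mul_le_mul h1 h2 (by positivity) (Nat.cast_nonneg _)
  linarith

theorem ipLo_le {N E0 : ℕ} (hN : (N : ℝ) = 16777216) {ε : ℝ} (h : rn E0 ≤ ε) (hε : ε < 1) :
    rn (Nat.div (Nat.mul E0 N) (Nat.sub N E0)) ≤ ε / (1 - ε) := by
  simp only [Nat.sub_eq, Nat.mul_eq]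
  refine le_trans (div_le_div_of_nonneg_right (cast_div_le _ _) (by norm_num)) ?_
  rw [rn] at h
  have h2 : (E0 : ℝ) < 16777216 := by linarith
  have hE0 : E0 ≤ N := by
    have : (E0 : ℝ) ≤ N := by rw [hN]; exact h2.le
    exact_mod_cast this
  rw [Nat.cast_mul, Nat.cast_sub hE0, hN,
    show (E0 : ℝ) * 16777216 / (16777216 - (E0 : ℝ)) / 16777216 =
      E0 / (16777216 - (E0 : ℝ)) by field_simp,
    div_le_div_iff₀ (by linarith) (by linarith)]
  linarith

theorem ipUp_ge {N E1 : ℕ} (hN : (N : ℝ) = 16777216) {ε : ℝ} (h : ε ≤ rn E1) (hE1 : E1 < N) :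
    ε / (1 - ε) ≤ rn (cdiv (Nat.mul E1 N) (Nat.sub N E1)) := by
  simp only [Nat.sub_eq, Nat.mul_eq]
  refine le_trans ?_ (rn_cdiv _ (Nat.sub_pos_of_lt hE1))
  rw [rn] at h
  have h3 : (E1 : ℝ) < 16777216 := by rw [← hN]; exact Nat.cast_lt.2 hE1
  rw [Nat.cast_mul, Nat.cast_sub hE1.le, hN,
    show (E1 : ℝ) * 16777216 / (16777216 - (E1 : ℝ)) / 16777216 =
      E1 / (16777216 - (E1 : ℝ)) by field_simp,
    div_le_div_iff₀ (by linarith) (by linarith)]
  linarith

theorem z_ge {K1 gam E1 M : ℕ} (hM : (M : ℝ) = 16777216 * 16777216 * 16777216) :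
    rn K1 * rn gam * (rn E1 * rn E1) ≤ rn (cdiv (Nat.mul (Nat.mul K1 gam) (Nat.mul E1 E1)) M) := by
  have hM0 : 0 < M := by
    rcases Nat.eq_zero_or_pos M with h | h
    · rw [h, Nat.cast_zero] at hM; norm_num at hM
    · exact h
  refine le_trans (le_of_eq ?_) (rn_cdiv _ hM0)
  simp only [Nat.mul_eq, rn]
  push_cast
  rw [hM]
  ring

theorem off_le {N W ec et : ℕ} (hN : (N : ℝ) = 16777216) (hec : 0 < ec) (het : et ≤ ec) {ε b : ℝ}
    (hb : b ∈ Icc (0 : ℝ) 1) (hε : 0 < ε) (h : ε * 16777216 = ec + et * (2 * b - 1)) :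
    int2 b ⟨Sg.ofN (Nat.div (Nat.mul (Nat.mul W N) (Nat.add ec et)) (Nat.mul ec ec)),
        Sg.ofN (Nat.div (Nat.mul (Nat.mul W N) (Nat.sub ec et)) (Nat.mul ec ec))⟩ ≤
      rn W / ε * 16777216 := by
  simp only [int2, Sg.ofN_v, Nat.mul_eq, Nat.add_eq, Nat.sub_eq]
  have f0 := cast_div_le (W * N * (ec + et)) (ec * ec)
  have f1 := cast_div_le (W * N * (ec - et)) (ec * ec)
  simp only [Nat.cast_mul, Nat.cast_sub het, Nat.cast_add, hN] at f0 f1
  refine le_trans (int2_mono hb f0 f1) ?_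
  have hec' : (0 : ℝ) < ec := Nat.cast_pos.2 hec
  have ht := mul_le_mul_of_nonneg_left (tangent_le hec' hε h) (Nat.cast_nonneg (α := ℝ) W)
  refine le_trans (le_of_eq ?_) (ht.trans (le_of_eq ?_))
  · field_simp; ring
  · simp only [rn]; ring

/-- A range of `w`. -/
theorem Loc.range (h : Loc c E x0 x1 p k y t r lam a b l) {scap wcap : ℕ} {lo : Bp} {W : WP} {c2 : ℝ}
    (hs : sig p r * 16777216 ≤ scap) (hwc : (r ^ p)⁻¹ * 16777216 ≤ max 16777216 (wcap : ℝ))
    (hlo : Above lo (r ^ p)⁻¹ (sig p r)) (hhi : Below W.bp (r ^ p)⁻¹ (sig p r))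
    (hok : (wEnv c E scap wcap lo W).1 = true) :
    WR c (wEnv c E scap wcap lo W).2 p c2 lam y t r a b := by
  simp only [wEnv, withW, forceN_eq, C2.force_eq, C4.force_eq, Sg.force_eq] at hok ⊢
  simp only [Bool.and_eq_true, Bool.or_eq_true, Nat.blt_eq, Nat.ble_eq] at hok
  obtain ⟨⟨⟨⟨⟨⟨hsign, hwh0⟩, k1⟩, k2⟩, k3⟩, k4⟩, hline⟩ := hok
  set w := (r ^ p)⁻¹ with hwdef
  have hw0 : 0 < w := w_pos h.cp.pt
  have hε := eps_pos p
  have hεh := h.cp.hε
  have hp : (0 : ℝ) < p := Nat.cast_pos.2 (by have := h.hp; omega)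
  have hp1 : 1 ≤ p := by have := h.hp; omega
  have hwl := h.wLo_le hlo
  have hwh' := h.le_wHi hhi
  set wl := lo.wLo c
  set wh0 := W.bp.wHi c
  generalize hneg : Nat.ble wh0 16777216 = neg at *
  set wh := cond neg wh0 (nmax 16777216 (nmin wh0 wcap)) with hwhd
  have hwh : w * 16777216 ≤ (wh : ℝ) := by
    cases neg
    · rw [hwhd, cond_false]
      exact cap_wh hwh' (by rwa [Nat.cast_ofNat])
    · simpa [hwhd] using hwh'
  have hneg1 : neg = true → w ≤ 1 := by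
    intro hn
    subst hn
    have h5 : wh0 ≤ 16777216 := Nat.le_of_ble_eq_true hneg
    have : (wh0 : ℝ) ≤ 16777216 := by exact_mod_cast h5
    linarith
  have hpos1 : neg = false → 1 ≤ w := by
    intro hn
    subst hn
    have h5 : 16777216 ≤ wl := by
      rcases hsign with h6 | h6
      · rw [show Nat.ble wh0 16777216 = true by rwa [Nat.ble_eq]] at hneg; exact absurd hneg (by simp)
      · exact h6
    have : (16777216 : ℝ) ≤ wl := by exact_mod_cast h5
    linarith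
  have hsig : sig p r = (w - 1) / epsP p := rfl
  set tw := twOf c neg wh W.inv with htwd
  set dd := ddOf c neg wh with hddd
  set psi := psiOf c neg wh with hpsid
  have hε1 : epsP p < 1 := lt_of_le_of_lt h.cp.eps_small (by norm_num)
  have hE1 : c.E1 < 16777216 := lt_of_le_of_lt h.cp.hE (by norm_num)
  have hip : rn (ipLo c) ≤ 1 / (p : ℝ) := by
    rw [p_eps hp1]; exact ipLo_le Nat.cast_ofNat hεh.1 hε1
  have hip' : 1 / (p : ℝ) ≤ rn (ipUp c) := by
    rw [p_eps hp1]; exact ipUp_ge Nat.cast_ofNat hεh.2 hE1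
  -- the curvature
  set K := (C4.mk (kapAt E.KpL.ll E.KwH.ll dd tw wl wh) (kapAt E.KpL.hl E.KwH.hl dd tw wl wh)
    (kapAt E.KpL.lh E.KwH.lh dd tw wl wh) (kapAt E.KpL.hh E.KwH.hh dd tw wl wh)) with hK
  have hkap : ∀ i j, (K.get i j).v * w ≤
      ((E.KpL.get i j).v * (16777216 + dd) - ((E.KwH.get i j).posPart : ℝ) * tw) / 16777216 := by
    intro i j
    rw [hK]
    exact kap4_le hwl hwh hwh0 hw0.le k1 k2 k3 k4 i j
  have hkp0 : ∀ i j, 0 ≤ (E.KpL.get i j).v := by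
    intro i j
    simp only [kapOK, Bool.and_eq_true] at k1 k2 k3 k4
    have := Sg.le_iff k1.1; have := Sg.le_iff k2.1; have := Sg.le_iff k3.1; have := Sg.le_iff k4.1
    cases i <;> cases j <;> simp only [C4.get, cond_true, cond_false] <;>
      simp only [v_mk, Nat.cast_zero, sub_zero] at * <;> assumption
  set kp := interp a b (fun i j => (E.KpL.get i j).v) / 16777216 with hkpd
  set kw := interp a b (fun i j => ((E.KwH.get i j).posPart : ℝ)) / 16777216 with hkwd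
  have hkp : kp ≤ KpR (c.D.val (c.T p)) (epsP p) (XP p y) (rn c.z) := by
    rw [hkpd, div_le_iff₀ (by norm_num)]; exact h.env.KpL
  have hkpn : 0 ≤ KpR (c.D.val (c.T p)) (epsP p) (XP p y) (rn c.z) :=
    le_trans (div_nonneg (interp_nonneg h.ha h.hb hkp0) (by norm_num)) hkp
  have hkw : KwR (c.D.val (c.T p)) (c.sA.val (c.T p) (XP p y)) (RnR (c.D.val (c.T p)) (c.e1.val (c.T p))
      (c.sA.val (c.T p) (XP p y)) (epsP p) (XP p y)) (epsP p) (XP p y) (rn c.z) ≤ kw := by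
    rw [hkwd, le_div_iff₀ (by norm_num)]
    exact h.env.KwH.trans (interp_mono h.ha h.hb fun i j => Sg.le_posPart _)
  have hkw0 : 0 ≤ kw := div_nonneg (interp_nonneg h.ha h.hb fun i j => Nat.cast_nonneg _) (by norm_num)
  have hκ : interp a b (fun i j => (K.get i j).v) / 16777216 * w ≤
      kp * (1 + rn dd) - kw * rn tw := by
    rw [div_mul_eq_mul_div, ← interp_mul_const]
    refine le_trans (div_le_div_of_nonneg_right (interp_mono h.ha h.hb hkap) (by norm_num)) (le_of_eq ?_)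
    simp only [hkpd, hkwd, rn, interp]
    ring
  have hz : -rn c.z ≤ y * (t - y) := by
    refine le_trans (neg_le_neg ?_) (band h.cp.pt h.cp.k0 h.cp.k2 h.cp.gamma).2
    refine le_trans (b := rn c.K1 * rn c.gam * (rn c.E1 * rn c.E1)) ?_ ?_
    · have hi : iA (epsP p) ≤ rn c.E1 := by
        refine le_trans ?_ hεh.2
        rw [iA, div_le_iff₀ (by linarith)]; nlinarith
      rw [show k * rn c.gam * epsP p * iA (epsP p) = k * rn c.gam * (epsP p * iA (epsP p)) by ring]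
      refine mul_le_mul (mul_le_mul_of_nonneg_right h.cp.hk.2 (rn_nonneg _))
        (mul_le_mul hεh.2 hi (div_nonneg hε.le (by linarith)) (rn_nonneg _))
        (mul_nonneg hε.le (div_nonneg hε.le (by linarith))) (mul_nonneg (rn_nonneg _) (rn_nonneg _))
    · exact z_ge (by norm_num)
  refine ⟨fun hn => ?_, fun hn => ?_, fun hf => ?_, fun hf => ?_, fun hn => ?_, ?_⟩
  · rw [hsig]; exact div_nonpos_of_nonpos_of_nonneg (by linarith [hneg1 hn]) hε.le
  · rw [hsig]; exact div_nonneg (by linarith [hpos1 hn]) hε.le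
  · have h1 := h.sLo_le hlo hf
    exact ⟨h1, (min_le_int2 h.hb _).trans h1⟩
  · have hS : sig p r * 16777216 ≤ (Sg.ofN scap).v := by rwa [Sg.ofN_v]
    generalize huc : (!neg && (!W.bp.hiFin c || Sg.le (Sg.ofN scap) (W.bp.sHi c).l &&
      Sg.le (Sg.ofN scap) (W.bp.sHi c).h)) = uc at hf ⊢
    cases uc
    · simp only [cond_false, Bool.or_false]
      have hfin : W.bp.hiFin c = true := by
        rcases Bool.eq_false_or_eq_true (W.bp.hiFin c) with h1 | h1
        · exact h1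
        · cases neg <;> simp_all
      have h1 := h.le_sHi hhi hfin
      refine ⟨h1, ?_⟩
      cases neg
      · exact le_sMin (h1.trans (int2_le_max h.hb _)) hS
      · exact h1.trans (int2_le_max h.hb _)
    · simp only [cond_true, Bool.or_true]
      refine ⟨?_, hS.trans (sMax_ge _ _).1⟩
      rw [int2]; linarith
  · subst hn
    rw [cond_false] at hline
    have hwh1 : 16777216 ≤ wh := by rw [hwhd, cond_false]; exact le_nmax_left _ _
    rw [hsig]
    exact line_off hε (line_gen (hpos1 rfl) hwl hwh hwh1 hline)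
      (off_le (W := W.off) Nat.cast_ofNat h.hec h.het h.hb hε h.hε)
  -- the majorant
  have hpot := c.potAt p y
  cases neg
  · have hr1 : r ≤ 1 := by
      have h1 := hpos1 rfl
      rw [hwdef, one_le_inv₀ (pow_pos h.cp.pt.hr p)] at h1
      exact (pow_le_one_iff_of_nonneg h.cp.pt.hr.le (by omega)).1 h1
    refine point_pos h.hp h.hD h.cp.pt.hy h.cp.pt.hr hr1 hpot hz (rn_nonneg _) (kp := kp) (kw := kw)
      (tw := rn tw) (dd := rn dd) hkp hkpn hkw hkw0 ?_ (rn_nonneg _) ?_ hκ ?_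
    · rw [htwd, twOf, cond_false, show 1 / (2 * (p : ℝ)) = 1 / (p : ℝ) / 2 by ring]
      exact twPos_ge Nat.cast_ofNat hw0.le hwh hip'
    · rw [hddd, ddOf, cond_false, show 1 / ((p : ℝ) * (r ^ p)⁻¹) = 1 / (p : ℝ) * (1 / w) by rw [hwdef]; ring]
      exact ddPos_le Nat.cast_ofNat hwh0 hw0 hwh hip
    · rw [hpsid, psiOf, cond_false]
      refine psiPos_le Nat.cast_ofNat hE1 (hpos1 rfl) hwh ?_ (by positivity)
      have h0 := hεh.2
      rw [epsP, div_le_iff₀ (by linarith)] at h0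
      rw [div_mul_eq_mul_div, div_le_one hp]
      linarith
  · have hr1 : 1 ≤ r := by
      have h1 := hneg1 rfl
      rw [hwdef, inv_le_one₀ (pow_pos h.cp.pt.hr p)] at h1
      exact (one_le_pow_iff_of_nonneg h.cp.pt.hr.le (by omega)).1 h1
    rw [cond_true, Nat.ble_eq] at hline
    have hpsi : rn psi = 1 := by rw [hpsid, psiOf, cond_true, rn_U]
    rw [hpsi]
    refine point_neg h.hp h.hD h.cp.pt.hy hr1 hpot hz (rn_nonneg _) (kp := kp) (kw := kw)
      (tw := rn tw) (dd := rn dd) (su := rn W.inv) hkp hkpn hkw hkw0 ?_ ?_ (rn_nonneg _) ?_ hκ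
    · rw [← hwdef, Real.sqrt_le_left (rn_nonneg _)]
      have h2 := (Nat.cast_le (α := ℝ)).2 hline
      simp only [Nat.mul_eq, Nat.cast_mul, Nat.cast_ofNat] at h2
      rw [rn, div_pow, le_div_iff₀ (by norm_num)]
      linarith [mul_le_mul_of_nonneg_right hwh (by norm_num : (0 : ℝ) ≤ 16777216)]
    · rw [htwd, twOf, cond_true, show 1 / (2 * (p : ℝ)) = 1 / (p : ℝ) / 2 by ring]
      exact twNeg_ge Nat.cast_ofNat hip'
    · rw [hddd, ddOf, cond_true]; exact hip

end Vale.Agent.P237.All.Transport.Mid
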