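import Vale.Agent.P237.All.Mid.Num

/-!
P237, cell `k` in `[4/5, 5/2]`: the coefficient functions of the potential, quadratic splines in `X`
whose coefficients are affine in the parameter `T` of the dimension, and their affine forms on a box.
-/

noncomputable section

open Real

namespace Vale.Agent.P237.All.Transport.Mid

/-- A number affine in `T`. -/
structure Par where
  c : Sg
  t : Sg

/-- Its value. -/
def Par.val (P : Par) (T : ℝ) : ℝ := (P.c.v + P.t.v * T) / U

/-- Its form. -/
def Par.af (P : Par) : AF := AF.linT P.c P.t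

theorem Par.has (P : Par) (S T : ℝ) : P.af.Has S T (P.val T) :=
  AF.has_linT (div_mul_cancel₀ _ U_ne)

/-- A knot with the jump of the second derivative. -/
structure Knot where
  tau : ℕ
  d : Par

/-- A spline. -/
structure Spl where
  v0 : Par
  v1 : Par
  kn : List Knot

/-- The truncated squares. -/
def knVal : List Knot → ℝ → ℝ → ℝ
  | [], _, _ => 0
  | K :: l, T, X => K.d.val T * (max 0 (X - (K.tau : ℝ) / U) ^ 2 / 2) + knVal l T X

/-- Their derivative. -/
def knDer : List Knot → ℝ → ℝ → ℝ
  | [], _, _ => 0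
  | K :: l, T, X => K.d.val T * max 0 (X - (K.tau : ℝ) / U) + knDer l T X

/-- The value of a spline. -/
def Spl.val (P : Spl) (T X : ℝ) : ℝ := P.v0.val T + P.v1.val T * X + knVal P.kn T X

/-- The derivative of a spline. -/
def Spl.der (P : Spl) (T X : ℝ) : ℝ := P.v1.val T + knDer P.kn T X

theorem hasDerivAt_sq_pos (x : ℝ) : HasDerivAt (fun x => max 0 x ^ 2 / 2) (max 0 x) x := by
  rcases lt_trichotomy x 0 with h | h | h
  · rw [max_eq_left h.le]
    refine (hasDerivAt_const x (0 : ℝ)).congr_of_eventuallyEq ?_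
    filter_upwards [Iio_mem_nhds h] with v hv
    simp [max_eq_left (Set.mem_Iio.1 hv).le]
  · subst h
    rw [max_self, hasDerivAt_iff_isLittleO]
    simp only [max_self, sub_zero, smul_zero, ne_eq, OfNat.ofNat_ne_zero, not_false_eq_true, zero_pow,
      zero_div]
    refine Asymptotics.IsBigO.trans_isLittleO (g := fun x : ℝ => x ^ 2)
      (Asymptotics.IsBigO.of_bound 1 (Filter.Eventually.of_forall fun v => ?_))
      (Asymptotics.isLittleO_pow_id one_lt_two)
    rw [Real.norm_eq_abs, Real.norm_eq_abs, abs_of_nonneg (by positivity), abs_of_nonneg (sq_nonneg v), one_mul]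
    rcases le_total v 0 with h | h
    · simp [max_eq_left h, sq_nonneg]
    · rw [max_eq_right h]; linarith [sq_nonneg v]
  · rw [max_eq_right h.le]
    refine ((((hasDerivAt_id x).pow 2).div_const 2).congr_deriv (by simp)).congr_of_eventuallyEq ?_
    filter_upwards [Ioi_mem_nhds h] with v hv
    simp [max_eq_right (Set.mem_Ioi.1 hv).le]

theorem knVal_hasDerivAt : ∀ (l : List Knot) (T X : ℝ),
    HasDerivAt (fun X => knVal l T X) (knDer l T X) X
  | [], T, X => hasDerivAt_const X (0 : ℝ)
  | K :: l, T, X => by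
    have h := (hasDerivAt_sq_pos (X - (K.tau : ℝ) / U)).comp X ((hasDerivAt_id X).sub_const _)
    rw [mul_one] at h
    exact (h.const_mul (K.d.val T)).add (knVal_hasDerivAt l T X)

theorem Spl.hasDerivAt (P : Spl) (T X : ℝ) : HasDerivAt (fun X => P.val T X) (P.der T X) X := by
  have h := (((hasDerivAt_id X).const_mul (P.v1.val T)).const_add (P.v0.val T)).add
    (knVal_hasDerivAt P.kn T X)
  simp only [mul_one] at h
  exact h

theorem Spl.continuous (P : Spl) (T : ℝ) : Continuous fun X => P.val T X :=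
  continuous_iff_continuousAt.2 fun X => (P.hasDerivAt T X).continuousAt

/-- No knot lies inside `[X0, X1]`. -/
def knClear : List Knot → ℕ → ℕ → Bool
  | [], _, _ => true
  | K :: l, X0, X1 => (Nat.ble K.tau X0 || Nat.ble X1 K.tau) && knClear l X0 X1

/-- The form of the truncated squares on a box. -/
def knAF : List Knot → AF → ℕ → AF
  | [], _, _ => AF.const ⟨0, 0⟩
  | K :: l, X, X0 =>
    cond (Nat.ble K.tau X0)
      ((X.sub (AF.const (Sg.ofN K.tau))).force fun u => (u.mul u).force fun q =>
        (K.d.af.mul q).force fun dq => (knAF l X X0).force fun rest => (dq.scale 1 2).add rest)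
      (knAF l X X0)

/-- The form of their derivative on a box. -/
def knDAF : List Knot → AF → ℕ → AF
  | [], _, _ => AF.const ⟨0, 0⟩
  | K :: l, X, X0 =>
    cond (Nat.ble K.tau X0)
      ((X.sub (AF.const (Sg.ofN K.tau))).force fun u => (K.d.af.mul u).force fun du =>
        (knDAF l X X0).force fun rest => du.add rest)
      (knDAF l X X0)

/-- The form of a spline. -/
def Spl.af (P : Spl) (X : AF) (X0 : ℕ) : AF :=
  (P.v1.af.mul X).force fun m => (knAF P.kn X X0).force fun k => (P.v0.af.add m).add k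

/-- The form of its derivative. -/
def Spl.daf (P : Spl) (X : AF) (X0 : ℕ) : AF := (knDAF P.kn X X0).force fun k => P.v1.af.add k

variable {S T X : ℝ} {XA : AF} {X0 X1 : ℕ}

theorem knAF_has : ∀ (l : List Knot), knClear l X0 X1 = true → XA.Has S T X →
    X ∈ Set.Icc ((X0 : ℝ) / U) ((X1 : ℝ) / U) → |S| ≤ 1 → |T| ≤ 1 →
    (knAF l XA X0).Has S T (knVal l T X) ∧ (knDAF l XA X0).Has S T (knDer l T X)
  | [], _, _, _, _, _ => ⟨AF.has_const (by simp [knVal, Sg.v]), AF.has_const (by simp [knDer, Sg.v])⟩
  | K :: l, hc, hX, hx, hS, hT => by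
    rw [knClear, Bool.and_eq_true, Bool.or_eq_true] at hc
    obtain ⟨hk, hl⟩ := hc
    obtain ⟨h1, h2⟩ := knAF_has l hl hX hx hS hT
    rcases hb : Nat.ble K.tau X0 with _ | _
    · have hk' : X1 ≤ K.tau := Nat.le_of_ble_eq_true (hk.resolve_left (by simp [hb]))
      have h0 : max 0 (X - (K.tau : ℝ) / U) = 0 := by
        refine max_eq_left (sub_nonpos.2 (hx.2.trans ?_))
        exact div_le_div_of_nonneg_right (by exact_mod_cast hk') U_pos.le
      simp only [knAF, knDAF, hb, cond_false, knVal, knDer, h0]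
      simp only [ne_eq, OfNat.ofNat_ne_zero, not_false_eq_true, zero_pow, zero_div, mul_zero, zero_add]
      exact ⟨h1, h2⟩
    · have hk' : K.tau ≤ X0 := Nat.le_of_ble_eq_true hb
      have h0 : max 0 (X - (K.tau : ℝ) / U) = X - (K.tau : ℝ) / U := by
        refine max_eq_right (sub_nonneg.2 (le_trans ?_ hx.1))
        exact div_le_div_of_nonneg_right (by exact_mod_cast hk') U_pos.le
      have hu : (XA.sub (AF.const (Sg.ofN K.tau))).Has S T (X - (K.tau : ℝ) / U) :=
        hX.sub (AF.has_const (by simp [div_mul_cancel₀ _ U_ne]))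
      simp only [knAF, knDAF, hb, cond_true, AF.force_eq, knVal, knDer, h0]
      refine ⟨AF.Has.add ?_ h1, ((K.d.has S T).mul hu hS hT).add h2⟩
      have h := ((K.d.has S T).mul (hu.mul hu hS hT) hS hT).scale hS hT 1 (d := 2) two_pos
      convert h using 1
      push_cast
      ring

theorem Spl.af_has (P : Spl) (hc : knClear P.kn X0 X1 = true) (hX : XA.Has S T X)
    (hx : X ∈ Set.Icc ((X0 : ℝ) / U) ((X1 : ℝ) / U)) (hS : |S| ≤ 1) (hT : |T| ≤ 1) :
    (P.af XA X0).Has S T (P.val T X) ∧ (P.daf XA X0).Has S T (P.der T X) := by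
  obtain ⟨h1, h2⟩ := knAF_has P.kn hc hX hx hS hT
  simp only [Spl.af, Spl.daf, AF.force_eq, Spl.val, Spl.der]
  exact ⟨((P.v0.has S T).add ((P.v1.has S T).mul hX hS hT)).add h1, (P.v1.has S T).add h2⟩

end Vale.Agent.P237.All.Transport.Mid
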