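import Vale.Agent.P237.All.Mid.Cover
import Vale.Agent.P237.All.CertTools

/-!
P237, cell `k` in `[4/5, 5/2]`: the weight `S ^ (p + 1)` and the integral test.
-/

noncomputable section

open Real Set MeasureTheory intervalIntegral

namespace Vale.Agent.P237.All.Transport.Mid

/-- Squares rounded down, `n` times. -/
def sqDn : ℕ → ℕ → ℕ
  | 0, r => r
  | n + 1, r => forceN r fun r' => sqDn n (Nat.div (Nat.mul r' r') 16777216)

/-- A lower bound on the exponential. -/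
def expLo (v : ℕ) : ℕ :=
  forceN (Nat.div v 4096) fun u =>
    sqDn 12 (Nat.add (Nat.add 16777216 u) (Nat.div (Nat.mul u u) (2 * 16777216)))

/-- An upper bound on `exp (-v)`, at the scale `U ^ 2`. -/
def wUp (v : Sg) : ℕ :=
  cond (Nat.ble v.neg v.pos) (cdiv (16777216 * 16777216 * 16777216) (expLo (Nat.sub v.pos v.neg)))
    (Nat.mul (expUp (Nat.sub v.neg v.pos)) 16777216)

/-- Whether the bound applies. -/
def wOK (v : Sg) : Bool :=
  Nat.ble (Nat.sub v.neg v.pos) (4096 * 16777216) && Nat.blt 0 (expLo (Nat.sub v.pos v.neg))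

theorem sqDn_sound : ∀ (n r : ℕ) (a : ℝ), rn r ≤ a → rn (sqDn n r) ≤ a ^ 2 ^ n
  | 0, r, a, h => by simpa [sqDn] using h
  | n + 1, r, a, h => by
    rw [sqDn, forceN_eq]
    refine (sqDn_sound n _ (a ^ 2) ?_).trans (le_of_eq (by rw [← pow_mul]; congr 1; ring))
    refine le_trans ?_ (pow_le_pow_left₀ (rn_nonneg r) h 2)
    refine le_trans (div_le_div_of_nonneg_right (cast_div_le _ _) (by norm_num)) (le_of_eq ?_)
    simp only [rn, Nat.mul_eq]; push_cast; ring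

theorem expLo_sound (v : ℕ) : rn (expLo v) ≤ exp (rn v) := by
  rw [expLo, forceN_eq]
  refine (sqDn_sound 12 _ (exp (rn v / 4096)) ?_).trans (le_of_eq ?_)
  · refine le_trans ?_ (Real.quadratic_le_exp_of_nonneg (div_nonneg (rn_nonneg _) (by norm_num)))
    simp only [Nat.add_eq, rn_add, rn_U]
    have hu : rn (Nat.div v 4096) ≤ rn v / 4096 :=
      le_trans (div_le_div_of_nonneg_right (cast_div_le _ _) (by norm_num))
        (le_of_eq (by simp only [rn]; push_cast; ring))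
    have h2 : rn (Nat.div (Nat.mul (Nat.div v 4096) (Nat.div v 4096)) (2 * 16777216)) ≤
        rn (Nat.div v 4096) ^ 2 / 2 :=
      le_trans (div_le_div_of_nonneg_right (cast_div_le _ _) (by norm_num))
        (le_of_eq (by simp only [rn, Nat.mul_eq]; push_cast; ring))
    have h3 := pow_le_pow_left₀ (rn_nonneg _) hu 2
    linarith
  · rw [← Real.exp_nat_mul]; congr 1; push_cast; ring

theorem wUp_sound {v : Sg} (hok : wOK v = true) {z : ℝ} (hz : v.v ≤ z * 16777216) :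
    exp (-z) ≤ (rn (wUp v) / 16777216) := by
  simp only [wOK, Bool.and_eq_true, Nat.ble_eq, Nat.blt_eq] at hok
  have hzv : -z ≤ -(v.v / 16777216) := neg_le_neg ((div_le_iff₀ (by norm_num)).2 hz)
  unfold wUp
  cases h : Nat.ble v.neg v.pos
  · rw [cond_false, show rn (Nat.mul (expUp (Nat.sub v.neg v.pos)) 16777216) / 16777216 =
      rn (expUp (Nat.sub v.neg v.pos)) by simp only [rn, Nat.mul_eq]; push_cast; ring]
    refine expUp_sound hok.1 (hzv.trans ?_)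
    rw [rn, ← neg_div]
    exact div_le_div_of_nonneg_right ((Sg.neg_le_negPart v).trans (le_of_eq rfl)) (by norm_num)
  · rw [cond_true]
    have hle : v.neg ≤ v.pos := Nat.le_of_ble_eq_true h
    have hl := expLo_sound (v.pos - v.neg)
    have e : rn (v.pos - v.neg) = v.v / 16777216 := by rw [rn, Sg.v, Nat.cast_sub hle]
    rw [e] at hl
    refine (exp_le_exp.2 hzv).trans ?_
    rw [Real.exp_neg]
    refine le_trans ?_ (div_le_div_of_nonneg_right (rn_cdiv _ hok.2) (by norm_num))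
    have hp : (0 : ℝ) < rn (expLo (v.pos - v.neg)) := div_pos (Nat.cast_pos.2 hok.2) (by norm_num)
    refine (inv_anti₀ hp hl).trans (le_of_eq ?_)
    simp only [rn, Nat.sub_eq]; push_cast
    have : ((expLo (v.pos - v.neg) : ℕ) : ℝ) ≠ 0 := (Nat.cast_pos.2 hok.2).ne'
    generalize ((expLo (v.pos - v.neg) : ℕ) : ℝ) = e at this ⊢
    field_simp
    norm_num

/-- The exponent below `-log S ^ (p + 1)` at `x`, affine in `T`. -/
def qW (c : Cell) (T x : ℝ) : ℝ :=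
  (1 / (1 + rn c.ec) * (1 - rn c.et * T / (1 + rn c.ec))) / 2 * x ^ 2 +
    (rn c.ec + rn c.et * T) / (4 * (1 + rn c.E1) ^ 2) * x ^ 4 +
    rn c.E0 ^ 2 / (6 * (1 + rn c.E1) ^ 3) * x ^ 6

/-- Its tangent at the middle of `[x0, x1]`, taken at an end. -/
def qTan (c : Cell) (T x0 x1 x : ℝ) : ℝ :=
  let m := (x0 + x1) / 2
  (1 / (1 + rn c.ec) * (1 - rn c.et * T / (1 + rn c.ec))) / 2 * (m ^ 2 + 2 * m * (x - m)) +
    (rn c.ec + rn c.et * T) / (4 * (1 + rn c.E1) ^ 2) * (m ^ 4 + 4 * m ^ 3 * (x - m)) +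
    rn c.E0 ^ 2 / (6 * (1 + rn c.E1) ^ 3) * (m ^ 6 + 6 * m ^ 5 * (x - m))

/-- `m ^ j + j m ^ (j - 1) (x - m)` in integers. -/
def tanPow (n d : ℕ) (up : Bool) (j : ℕ) : Sg :=
  cond up (Sg.ofN (Nat.add (n ^ j) (Nat.mul (Nat.mul j d) (n ^ (j - 1)))))
    ⟨n ^ j, Nat.mul (Nat.mul j d) (n ^ (j - 1))⟩

/-- The exponent at an end of a box and of `ε`, from below. -/
def expo (c : Cell) (x0 x1 : ℕ) (e up : Bool) : Sg :=
  let n := Nat.add x0 x1
  let d := Nat.sub x1 x0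
  let A := Nat.add 16777216 c.ec
  let B := Nat.add 16777216 c.E1
  let a1 := cond e (Nat.sub A c.et) (Nat.add A c.et)
  let Ee := cond e c.E1 c.E0
  let P4 := 4096 ^ 2
  Sg.divDown
    ((((tanPow n d up 2).smul (Nat.mul (Nat.mul (6 * 16777216 * 16777216) a1) (Nat.mul (B ^ 3) (P4 * P4)))).add
      ((tanPow n d up 4).smul (Nat.mul (Nat.mul (3 * 16777216 * 16777216) Ee) (Nat.mul (Nat.mul (A ^ 2) B) P4)))).add
      ((tanPow n d up 6).smul (Nat.mul (Nat.mul (2 * 16777216 * 16777216) (c.E0 ^ 2)) (A ^ 2))))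
    (Nat.mul (Nat.mul 12 (Nat.mul (A ^ 2) (B ^ 3))) (P4 * P4 * P4))

theorem tanPow_v (n d : ℕ) (up : Bool) (j : ℕ) :
    (tanPow n d up j).v = (n : ℝ) ^ j + cond up 1 (-1) * ((j : ℝ) * d * (n : ℝ) ^ (j - 1)) := by
  cases up <;> simp [tanPow, v_mk] <;> ring

theorem expo_le (c : Cell) (het : c.et ≤ c.ec) {x0 x1 : ℕ} (hx : x0 ≤ x1) (e up : Bool) :
    (expo c x0 x1 e up).v ≤ qTan c (cond e 1 (-1)) ((x0 : ℝ) / 2048) ((x1 : ℝ) / 2048)
      ((cond up x1 x0 : ℕ) / 2048) * 16777216 := by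
  have hd : 0 < Nat.mul (Nat.mul 12 (Nat.mul ((Nat.add 16777216 c.ec) ^ 2)
      ((Nat.add 16777216 c.E1) ^ 3))) (4096 ^ 2 * 4096 ^ 2 * 4096 ^ 2) := by
    simp only [Nat.mul_eq, Nat.add_eq]; positivity
  have h := Sg.divDown_v ((((tanPow (Nat.add x0 x1) (Nat.sub x1 x0) up 2).smul
      (Nat.mul (Nat.mul (6 * 16777216 * 16777216)
        (cond e (Nat.sub (Nat.add 16777216 c.ec) c.et) (Nat.add (Nat.add 16777216 c.ec) c.et)))
        (Nat.mul ((Nat.add 16777216 c.E1) ^ 3) (4096 ^ 2 * 4096 ^ 2)))).add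
      ((tanPow (Nat.add x0 x1) (Nat.sub x1 x0) up 4).smul (Nat.mul (Nat.mul (3 * 16777216 * 16777216)
        (cond e c.E1 c.E0)) (Nat.mul (Nat.mul ((Nat.add 16777216 c.ec) ^ 2) (Nat.add 16777216 c.E1)) (4096 ^ 2))))).add
      ((tanPow (Nat.add x0 x1) (Nat.sub x1 x0) up 6).smul (Nat.mul (Nat.mul (2 * 16777216 * 16777216)
        (c.E0 ^ 2)) ((Nat.add 16777216 c.ec) ^ 2)))) hd
  simp only [expo]
  refine le_of_mul_le_mul_left (h.trans (le_of_eq ?_)) (Nat.cast_pos.2 hd)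
  have h1 : (c.E0 : ℝ) = (c.ec : ℝ) - c.et := by simp [Cell.E0, Nat.cast_sub het]
  have h2 : (c.E1 : ℝ) = (c.ec : ℝ) + c.et := by simp [Cell.E1]
  have hA : (16777216 : ℝ) + c.ec ≠ 0 := by positivity
  have hB : (16777216 : ℝ) + c.E1 ≠ 0 := by positivity
  simp only [Sg.add_v, Sg.smul_v, tanPow_v, qTan, rn, Nat.mul_eq, Nat.add_eq, Nat.sub_eq]
  cases e <;> cases up <;>
    simp only [cond_true, cond_false, Nat.cast_mul, Nat.cast_add, Nat.cast_pow, Nat.cast_ofNat,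
      Nat.cast_sub hx, Nat.cast_sub (le_trans het (Nat.le_add_left _ _))] <;>
    rw [h1, h2] <;> field_simp <;> ring

theorem qTan_affine (c : Cell) (b x0 x1 x : ℝ) :
    qTan c (2 * b - 1) x0 x1 x = (1 - b) * qTan c (-1) x0 x1 x + b * qTan c 1 x0 x1 x := by
  simp only [qTan]; ring

theorem tan_pow {x m : ℝ} (hx : 0 ≤ x) (hm : 0 ≤ m) :
    m ^ 2 + 2 * m * (x - m) ≤ x ^ 2 ∧ m ^ 4 + 4 * m ^ 3 * (x - m) ≤ x ^ 4 ∧
      m ^ 6 + 6 * m ^ 5 * (x - m) ≤ x ^ 6 := by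
  refine ⟨?_, ?_, ?_⟩
  · nlinarith [sq_nonneg (x - m)]
  · nlinarith [mul_nonneg (sq_nonneg (x - m)) (show 0 ≤ x ^ 2 + 2 * m * x + 3 * m ^ 2 by positivity)]
  · nlinarith [mul_nonneg (sq_nonneg (x - m))
      (show 0 ≤ x ^ 4 + 2 * m * x ^ 3 + 3 * m ^ 2 * x ^ 2 + 4 * m ^ 3 * x + 5 * m ^ 4 by positivity)]

theorem log_series {v : ℝ} (h0 : 0 ≤ v) (h1 : v < 1) : v + v ^ 2 / 2 + v ^ 3 / 3 ≤ -log (1 - v) := by
  have hs := Real.hasSum_pow_div_log_of_abs_lt_one (x := v) (by rwa [abs_of_nonneg h0])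
  have h := sum_le_hasSum (Finset.range 3) (fun i _ => div_nonneg (pow_nonneg h0 _) (by positivity)) hs
  simp only [Finset.sum_range_succ, Finset.sum_range_zero] at h
  norm_num at h
  linarith

/-- The weight from above. -/
theorem semi_weight {c : Cell} (het : c.et ≤ c.ec) {p : ℕ} {y b x0 x1 : ℝ}
    (hb : b ∈ Icc (0 : ℝ) 1) (hε : epsP p * 16777216 = c.ec + c.et * (2 * b - 1)) (hy0 : 0 ≤ y)
    (hy1 : y < 1) (hx0 : 0 ≤ x0) (hx1 : 0 ≤ x1) :
    semi y ^ (p + 1) ≤ exp (-qTan c (2 * b - 1) x0 x1 (√((p : ℝ) + 2) * y)) := by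
  have hy2 : y ^ 2 < 1 := by nlinarith
  have hs : 0 < semi y := semi_pos ⟨by linarith, hy1⟩
  rw [← Real.exp_log (pow_pos hs (p + 1))]
  refine exp_le_exp.2 ?_
  rw [Real.log_pow, show semi y = √(1 - y ^ 2) from rfl, Real.log_sqrt (by linarith)]
  have h := log_series (sq_nonneg y) hy2
  set x := √((p : ℝ) + 2) * y with hxd
  have hX : x ^ 2 = ((p : ℝ) + 2) * y ^ 2 := by rw [hxd, mul_pow, sq_sqrt (by positivity)]
  obtain ⟨t2, t4, t6⟩ := tan_pow (x := x) (m := (x0 + x1) / 2) (by positivity) (by positivity)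
  set T := 2 * b - 1 with hT
  have hTb : -1 ≤ T ∧ T ≤ 1 := ⟨by linarith [hb.1], by linarith [hb.2]⟩
  set ε := epsP p with hεd
  have hε0 : 0 < ε := eps_pos p
  have hεq : ε = rn c.ec + rn c.et * T := by simp only [rn]; linarith
  have he : 0 ≤ rn c.et := rn_nonneg _
  have hec : 0 ≤ rn c.ec := rn_nonneg _
  have hE0 : rn c.E0 = rn c.ec - rn c.et := by
    simp only [rn, Cell.E0, Nat.sub_eq, Nat.cast_sub het]; ring
  have hE1 : rn c.E1 = rn c.ec + rn c.et := by simp only [rn, Cell.E1, Nat.add_eq, Nat.cast_add]; ring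
  have hEl : rn c.E0 ≤ ε ∧ ε ≤ rn c.E1 := by
    have := mul_le_mul_of_nonneg_left hTb.1 he
    have := mul_le_mul_of_nonneg_left hTb.2 he
    constructor <;> linarith
  have h0E : 0 ≤ rn c.E0 := rn_nonneg _
  have hp1 : ((p : ℝ) + 1) * ε = 1 := by rw [hεd, epsP]; field_simp
  have hp2 : (p : ℝ) + 2 = (1 + ε) / ε := by rw [hεd, epsP]; field_simp; ring
  have hy2' : y ^ 2 = x ^ 2 * (ε / (1 + ε)) := by rw [hX, hp2]; field_simp
  have hp1' : ((p : ℝ) + 1) = 1 / ε := by rw [eq_div_iff hε0.ne']; exact hp1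
  have c1 : 1 / (1 + rn c.ec) * (1 - rn c.et * T / (1 + rn c.ec)) ≤ 1 / (1 + ε) := by
    have e : 1 / (1 + rn c.ec) * (1 - rn c.et * T / (1 + rn c.ec)) =
        (1 + rn c.ec - rn c.et * T) / (1 + rn c.ec) ^ 2 := by field_simp
    rw [e, div_le_div_iff₀ (by positivity) (by positivity), hεq]
    nlinarith [sq_nonneg (rn c.et * T)]
  have c10 : 0 ≤ 1 / (1 + rn c.ec) * (1 - rn c.et * T / (1 + rn c.ec)) := by
    refine mul_nonneg (by positivity) (sub_nonneg.2 ((div_le_one (by positivity)).2 ?_))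
    have := mul_le_mul_of_nonneg_left hTb.2 he
    linarith
  have c2 : (rn c.ec + rn c.et * T) / (4 * (1 + rn c.E1) ^ 2) ≤ ε / (4 * (1 + ε) ^ 2) := by
    rw [← hεq]
    exact div_le_div_of_nonneg_left hε0.le (by positivity) (by gcongr; exact hEl.2)
  have c3 : rn c.E0 ^ 2 / (6 * (1 + rn c.E1) ^ 3) ≤ ε ^ 2 / (6 * (1 + ε) ^ 3) := by
    gcongr
    · exact hEl.1
    · exact hEl.2
  have c20 : 0 ≤ (rn c.ec + rn c.et * T) / (4 * (1 + rn c.E1) ^ 2) := by
    rw [← hεq]; exact div_nonneg hε0.le (mul_nonneg (by norm_num) (sq_nonneg _))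
  have c30 : 0 ≤ rn c.E0 ^ 2 / (6 * (1 + rn c.E1) ^ 3) := div_nonneg (sq_nonneg _) (mul_nonneg (by norm_num) (pow_nonneg (by linarith [rn_nonneg c.E1]) _))
  simp only [qTan]
  push_cast
  rw [hp1']
  generalize log (1 - y ^ 2) = L at h ⊢
  rw [hy2'] at h
  have a1 := (mul_le_mul_of_nonneg_left t2 (div_nonneg c10 two_pos.le)).trans
    (mul_le_mul_of_nonneg_right (div_le_div_of_nonneg_right c1 two_pos.le) (sq_nonneg x))
  have a2 := (mul_le_mul_of_nonneg_left t4 c20).trans (mul_le_mul_of_nonneg_right c2 (by positivity : 0 ≤ x ^ 4))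
  have a3 := (mul_le_mul_of_nonneg_left t6 c30).trans (mul_le_mul_of_nonneg_right c3 (by positivity : 0 ≤ x ^ 6))
  have h' := mul_le_mul_of_nonneg_left h (show 0 ≤ 1 / ε / 2 by positivity)
  have e : 1 / ε / 2 * (x ^ 2 * (ε / (1 + ε)) + (x ^ 2 * (ε / (1 + ε))) ^ 2 / 2 +
      (x ^ 2 * (ε / (1 + ε))) ^ 3 / 3) = 1 / (1 + ε) / 2 * x ^ 2 + ε / (4 * (1 + ε) ^ 2) * x ^ 4 +
      ε ^ 2 / (6 * (1 + ε) ^ 3) * x ^ 6 := by
    field_simp
    ring
  rw [e] at h'
  linarith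

/-- A chord of the exponential of an affine function stays above it. -/
theorem exp_chord {u v l : ℝ} (hl : l ∈ Icc (0 : ℝ) 1) :
    exp ((1 - l) * u + l * v) ≤ (1 - l) * exp u + l * exp v := by
  have := convexOn_exp.2 (mem_univ u) (mem_univ v) (sub_nonneg.2 hl.2) hl.1 (by ring)
  simpa using this

/-- The weight between two nodes. -/
theorem weight_chord {c : Cell} (het : c.et ≤ c.ec) {p : ℕ} {y b : ℝ} {x0 x1 : ℕ}
    (hb : b ∈ Icc (0 : ℝ) 1) (hε : epsP p * 16777216 = c.ec + c.et * (2 * b - 1)) (hy0 : 0 ≤ y)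
    (hy1 : y < 1) (hlt : x0 < x1)
    (hx : √((p : ℝ) + 2) * y ∈ Icc ((x0 : ℝ) / 2048) ((x1 : ℝ) / 2048))
    (hok : ∀ e up, wOK (expo c x0 x1 e up) = true) :
    semi y ^ (p + 1) ≤
      ((1 - b) * (rn (wUp (expo c x0 x1 false false)) / 16777216) + b * (rn (wUp (expo c x0 x1 true false)) / 16777216)) *
        (((x1 : ℝ) / 2048 - √((p : ℝ) + 2) * y) / ((x1 : ℝ) / 2048 - (x0 : ℝ) / 2048)) +
      ((1 - b) * (rn (wUp (expo c x0 x1 false true)) / 16777216) + b * (rn (wUp (expo c x0 x1 true true)) / 16777216)) *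
        ((√((p : ℝ) + 2) * y - (x0 : ℝ) / 2048) / ((x1 : ℝ) / 2048 - (x0 : ℝ) / 2048)) := by
  refine (semi_weight het hb hε hy0 hy1 (x0 := (x0 : ℝ) / 2048) (x1 := (x1 : ℝ) / 2048)
    (by positivity) (by positivity)).trans ?_
  have w : ∀ e up, exp (-qTan c (cond e 1 (-1)) ((x0 : ℝ) / 2048) ((x1 : ℝ) / 2048)
      ((cond up x1 x0 : ℕ) / 2048)) ≤ (rn (wUp (expo c x0 x1 e up)) / 16777216) := fun e up =>
    wUp_sound (hok e up) (expo_le c het hlt.le e up)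
  set X0 := (x0 : ℝ) / 2048
  set X1 := (x1 : ℝ) / 2048
  set x := √((p : ℝ) + 2) * y
  have hd : 0 < X1 - X0 :=
    sub_pos.2 (div_lt_div_of_pos_right (Nat.cast_lt.2 hlt) (by norm_num))
  set l := (x - X0) / (X1 - X0) with hl
  have hl' : l ∈ Icc (0 : ℝ) 1 := ⟨div_nonneg (sub_nonneg.2 hx.1) hd.le, (div_le_one hd).2 (by linarith [hx.2])⟩
  have e1 : (X1 - x) / (X1 - X0) = 1 - l := by rw [hl]; field_simp; ring
  have aff : -qTan c (2 * b - 1) X0 X1 x =
      (1 - l) * -qTan c (2 * b - 1) X0 X1 X0 + l * -qTan c (2 * b - 1) X0 X1 X1 := by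
    rw [hl]; simp only [qTan]; field_simp; ring
  rw [aff, e1]
  refine (exp_chord hl').trans ?_
  rw [mul_comm _ (1 - l), mul_comm _ l]
  have side : ∀ up, exp (-qTan c (2 * b - 1) X0 X1 ((cond up x1 x0 : ℕ) / 2048)) ≤
      (1 - b) * (rn (wUp (expo c x0 x1 false up)) / 16777216) + b * (rn (wUp (expo c x0 x1 true up)) / 16777216) := by
    intro up
    rw [qTan_affine, neg_add, ← mul_neg, ← mul_neg]
    exact (exp_chord hb).trans (add_le_add (mul_le_mul_of_nonneg_left (w false up) (sub_nonneg.2 hb.2))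
      (mul_le_mul_of_nonneg_left (w true up) hb.1))
  exact add_le_add (mul_le_mul_of_nonneg_left (side false) (sub_nonneg.2 hl'.2))
    (mul_le_mul_of_nonneg_left (side true) hl'.1)

/-- Four times the contribution of a box, at corners `eh` of the bound and `ew` of the weight. -/
def iVal (c : Cell) (B : Box) (kk eh ew : Bool) : ℕ :=
  let x0 := B.n0.x
  let d := Nat.sub B.n1.x x0
  let u := wUp (expo c x0 B.n1.x ew false)
  let v := wUp (expo c x0 B.n1.x ew true)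
  cdiv (Nat.mul d (Nat.add
      (Nat.mul (B.n0.H eh kk) (Nat.add (Nat.mul u (Nat.add (Nat.mul 8 x0) (Nat.mul 5 d)))
        (Nat.mul v (Nat.add (Nat.mul 4 x0) (Nat.mul 3 d)))))
      (Nat.mul (B.n1.H eh kk) (Nat.add (Nat.mul u (Nat.add (Nat.mul 4 x0) d))
        (Nat.mul v (Nat.add (Nat.mul 8 x0) (Nat.mul 3 d)))))))
    (Nat.mul (Nat.mul 24576 16777216) (Nat.add (Nat.mul 2 x0) d))

/-- The weights of a box are valid. -/
def wBoxOK (c : Cell) (B : Box) : Bool :=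
  let x0 := B.n0.x
  let x1 := B.n1.x
  Nat.blt x0 x1 && wOK (expo c x0 x1 false false) && wOK (expo c x0 x1 false true) &&
    wOK (expo c x0 x1 true false) && wOK (expo c x0 x1 true true)

/-- The value at a node. -/
def Node.val (n : Node) (b l : ℝ) : ℝ :=
  ((1 - b) * ((1 - l) * (n.H false false : ℕ) + l * (n.H false true : ℕ)) +
    b * ((1 - l) * (n.H true false : ℕ) + l * (n.H true true : ℕ))) / 16777216

theorem Node.val_nonneg (n : Node) {b l : ℝ} (hb : b ∈ Icc (0 : ℝ) 1) (hl : l ∈ Icc (0 : ℝ) 1) :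
    0 ≤ n.val b l := by
  have := hb.1; have := hl.1; have := sub_nonneg.2 hb.2; have := sub_nonneg.2 hl.2
  unfold Node.val; positivity

theorem hVal_eq (n0 n1 : Node) (a b l : ℝ) :
    hVal n0 n1 a b l = (1 - a) * n0.val b l + a * n1.val b l := by
  simp only [hVal, Node.val, interp, cond_true, cond_false]; ring

theorem box_antideriv {A B U V x0 x1 : ℝ} (h0 : x0 < x1) (hs : 0 < x0 + x1) :
    ∫ x in x0..x1, ((x1 ^ 2 - x ^ 2) / (x1 ^ 2 - x0 ^ 2) * A + (x ^ 2 - x0 ^ 2) / (x1 ^ 2 - x0 ^ 2) * B) *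
        (U * ((x1 - x) / (x1 - x0)) + V * ((x - x0) / (x1 - x0))) =
      (x1 - x0) * (A * (U * (8 * x0 + 5 * (x1 - x0)) + V * (4 * x0 + 3 * (x1 - x0))) +
        B * (U * (4 * x0 + (x1 - x0)) + V * (8 * x0 + 3 * (x1 - x0)))) / (12 * (x0 + x1)) := by
  have hd : x1 - x0 ≠ 0 := (sub_pos.2 h0).ne'
  have hsq : x1 ^ 2 - x0 ^ 2 ≠ 0 := by
    have : x1 ^ 2 - x0 ^ 2 = (x1 - x0) * (x0 + x1) := by ring
    rw [this]; exact mul_ne_zero hd hs.ne'
  set D := (x1 ^ 2 - x0 ^ 2) * (x1 - x0) with hD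
  set c0 := (A * x1 ^ 2 - B * x0 ^ 2) * (U * x1 - V * x0) / D
  set c1 := (A * x1 ^ 2 - B * x0 ^ 2) * (V - U) / D
  set c2 := (B - A) * (U * x1 - V * x0) / D
  set c3 := (B - A) * (V - U) / D
  have e : ∀ x, ((x1 ^ 2 - x ^ 2) / (x1 ^ 2 - x0 ^ 2) * A + (x ^ 2 - x0 ^ 2) / (x1 ^ 2 - x0 ^ 2) * B) *
      (U * ((x1 - x) / (x1 - x0)) + V * ((x - x0) / (x1 - x0))) = c0 + c1 * x + c2 * x ^ 2 + c3 * x ^ 3 := by
    intro x; simp only [c0, c1, c2, c3, hD]; field_simp; ring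
  simp only [e]
  have hF : ∀ x ∈ uIcc x0 x1, HasDerivAt (fun x => c0 * x + c1 / 2 * x ^ 2 + c2 / 3 * x ^ 3 + c3 / 4 * x ^ 4)
      (c0 + c1 * x + c2 * x ^ 2 + c3 * x ^ 3) x := by
    intro x _
    refine (((((hasDerivAt_id x).const_mul c0).add ((hasDerivAt_pow 2 x).const_mul (c1 / 2))).add
      ((hasDerivAt_pow 3 x).const_mul (c2 / 3))).add ((hasDerivAt_pow 4 x).const_mul (c3 / 4))).congr_deriv ?_
    push_cast; ring
  rw [integral_eq_sub_of_hasDerivAt hF ((by fun_prop : Continuous fun x : ℝ =>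
    c0 + c1 * x + c2 * x ^ 2 + c3 * x ^ 3).intervalIntegrable _ _)]
  simp only [c0, c1, c2, c3, hD]
  have := hs.ne'
  field_simp
  ring

/-- The integral over a box. -/
theorem box_integral {c : Cell} (het : c.et ≤ c.ec) {p : ℕ} {b l : ℝ} (hb : b ∈ Icc (0 : ℝ) 1)
    (hl : l ∈ Icc (0 : ℝ) 1) (hε : epsP p * 16777216 = c.ec + c.et * (2 * b - 1)) {B : Box}
    (hok : wBoxOK c B = true) (htop : (B.n1.x : ℝ) / 2048 ≤ √((p : ℝ) + 2))
    {G : ℝ → ℝ} (hGc : Continuous G)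
    (hG : ∀ y a, a ∈ Icc (0 : ℝ) 1 → XP p y * 16777216 = (1 - a) * nodeX B.n0.x + a * nodeX B.n1.x →
      G y = hVal B.n0 B.n1 a b l) :
    √((p : ℝ) + 2) * ∫ y in (B.n0.x : ℝ) / 2048 / √((p : ℝ) + 2)..(B.n1.x : ℝ) / 2048 / √((p : ℝ) + 2),
        semi y ^ (p + 1) * G y ≤
      mix l fun kk => ((1 - b) * ((1 - b) * (iVal c B kk false false : ℕ) + b * (iVal c B kk false true : ℕ)) +
        b * ((1 - b) * (iVal c B kk true false : ℕ) + b * (iVal c B kk true true : ℕ))) / 16777216 ^ 2 := by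
  simp only [wBoxOK, Bool.and_eq_true, Nat.blt_eq] at hok
  obtain ⟨⟨⟨⟨hlt, o1⟩, o2⟩, o3⟩, o4⟩ := hok
  have hok' : ∀ e up, wOK (expo c B.n0.x B.n1.x e up) = true := fun e up => by
    cases e <;> cases up <;> assumption
  set s := √((p : ℝ) + 2) with hs
  have hs0 : 0 < s := Real.sqrt_pos.2 (by positivity)
  set X0 := (B.n0.x : ℝ) / 2048 with hX0
  set X1 := (B.n1.x : ℝ) / 2048 with hX1
  have hx0 : 0 ≤ X0 := by positivity
  have hx01 : X0 < X1 := div_lt_div_of_pos_right (Nat.cast_lt.2 hlt) (by norm_num)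
  set W0 := (1 - b) * (rn (wUp (expo c B.n0.x B.n1.x false false)) / 16777216) + b * (rn (wUp (expo c B.n0.x B.n1.x true false)) / 16777216)
  set W1 := (1 - b) * (rn (wUp (expo c B.n0.x B.n1.x false true)) / 16777216) + b * (rn (wUp (expo c B.n0.x B.n1.x true true)) / 16777216)
  set Φ := fun x : ℝ => ((X1 ^ 2 - x ^ 2) / (X1 ^ 2 - X0 ^ 2) * B.n0.val b l +
    (x ^ 2 - X0 ^ 2) / (X1 ^ 2 - X0 ^ 2) * B.n1.val b l) *
      (W0 * ((X1 - x) / (X1 - X0)) + W1 * ((x - X0) / (X1 - X0)))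
  have hle : X0 / s ≤ X1 / s := div_le_div_of_nonneg_right hx01.le hs0.le
  have hmono : ∫ y in X0 / s..X1 / s, semi y ^ (p + 1) * G y ≤ ∫ y in X0 / s..X1 / s, Φ (s * y) := by
    have hsc := semi_continuous
    refine integral_mono_on_of_le_Ioo hle ((by fun_prop : Continuous fun y => semi y ^ (p + 1) * G y).intervalIntegrable _ _)
      ((by fun_prop : Continuous fun y => Φ (s * y)).intervalIntegrable _ _) fun y hy => ?_
    have hy0 : 0 ≤ y := le_trans (div_nonneg hx0 hs0.le) hy.1.le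
    have hy1 : y < 1 := lt_of_lt_of_le hy.2 ((div_le_one hs0).2 htop)
    have hxy : s * y ∈ Icc X0 X1 := by
      have a1 := (div_lt_iff₀ hs0).1 hy.1
      have a2 := (lt_div_iff₀ hs0).1 hy.2
      constructor <;> linarith
    have hden : 0 < X1 ^ 2 - X0 ^ 2 := sub_pos.2 (pow_lt_pow_left₀ hx01 hx0 two_ne_zero)
    set a := ((s * y) ^ 2 - X0 ^ 2) / (X1 ^ 2 - X0 ^ 2) with ha
    have ha' : a ∈ Icc (0 : ℝ) 1 :=
      ⟨div_nonneg (sub_nonneg.2 (pow_le_pow_left₀ hx0 hxy.1 2)) hden.le,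
        (div_le_one hden).2 (sub_le_sub_right (pow_le_pow_left₀ (hx0.trans hxy.1) hxy.2 2) _)⟩
    have hXy : XP p y = (s * y) ^ 2 := by rw [mul_pow, hs, sq_sqrt (by positivity), XP]
    have hXa : XP p y * 16777216 = (1 - a) * nodeX B.n0.x + a * nodeX B.n1.x := by
      rw [hXy, cast_bool_mul, cast_bool_mul]
      have hh : a * (X1 ^ 2 - X0 ^ 2) = (s * y) ^ 2 - X0 ^ 2 := by rw [ha, div_mul_cancel₀ _ hden.ne']
      rw [hX0, hX1] at hh
      linear_combination (-16777216) * hh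
    have e1 : (X1 ^ 2 - (s * y) ^ 2) / (X1 ^ 2 - X0 ^ 2) = 1 - a := by rw [ha]; field_simp; ring
    rw [hG y a ha' hXa, hVal_eq]
    simp only [Φ]
    rw [e1, ← ha, mul_comm]
    exact mul_le_mul_of_nonneg_left (weight_chord het hb hε hy0 hy1 hlt hxy hok')
      (add_nonneg (mul_nonneg (sub_nonneg.2 ha'.2) (B.n0.val_nonneg hb hl))
        (mul_nonneg ha'.1 (B.n1.val_nonneg hb hl)))
  refine (mul_le_mul_of_nonneg_left hmono hs0.le).trans ?_
  rw [intervalIntegral.integral_comp_mul_left _ hs0.ne', smul_eq_mul, ← mul_assoc,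
    mul_inv_cancel₀ hs0.ne', one_mul, mul_div_cancel₀ _ hs0.ne', mul_div_cancel₀ _ hs0.ne']
  simp only [Φ]
  rw [box_antideriv hx01 (by linarith)]
  have key : ∀ kk eh ew,
      (X1 - X0) * ((B.n0.H eh kk : ℕ) / 16777216 * ((rn (wUp (expo c B.n0.x B.n1.x ew false)) / 16777216) * (8 * X0 + 5 * (X1 - X0)) +
          (rn (wUp (expo c B.n0.x B.n1.x ew true)) / 16777216) * (4 * X0 + 3 * (X1 - X0))) +
        (B.n1.H eh kk : ℕ) / 16777216 * ((rn (wUp (expo c B.n0.x B.n1.x ew false)) / 16777216) * (4 * X0 + (X1 - X0)) +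
          (rn (wUp (expo c B.n0.x B.n1.x ew true)) / 16777216) * (8 * X0 + 3 * (X1 - X0)))) / (12 * (X0 + X1)) ≤
        (iVal c B kk eh ew : ℕ) / 16777216 ^ 2 := by
    intro kk eh ew
    simp only [iVal]
    refine le_trans (le_of_eq ?_) (div_le_div_of_nonneg_right (cdiv_ge _ (by
      simp only [Nat.mul_eq, Nat.add_eq, Nat.sub_eq]; omega)) (by positivity))
    simp only [hX0, hX1, rn, Nat.mul_eq, Nat.add_eq, Nat.sub_eq]
    push_cast [Nat.cast_sub hlt.le]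
    have : (B.n0.x : ℝ) + B.n1.x ≠ 0 := by
      have : (B.n0.x : ℝ) < B.n1.x := Nat.cast_lt.2 hlt
      have : (0 : ℝ) ≤ B.n0.x := Nat.cast_nonneg _
      exact ne_of_gt (by linarith)
    rw [show 2 * (B.n0.x : ℝ) + ((B.n1.x : ℝ) - B.n0.x) = (B.n0.x : ℝ) + B.n1.x by ring]
    generalize ((wUp (expo c B.n0.x B.n1.x ew false) : ℕ) : ℝ) = u
    generalize ((wUp (expo c B.n0.x B.n1.x ew true) : ℕ) : ℝ) = v
    generalize ((B.n0.H eh kk : ℕ) : ℝ) = A
    generalize ((B.n1.H eh kk : ℕ) : ℝ) = C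
    generalize hs' : (B.n0.x : ℝ) + B.n1.x = S at this ⊢
    rw [show (B.n0.x : ℝ) / 2048 + (B.n1.x : ℝ) / 2048 = S / 2048 by rw [← hs']; ring]
    field_simp
    ring
  have b0 := sub_nonneg.2 hb.2
  have l0 := sub_nonneg.2 hl.2
  have q : ∀ kk, _ := fun kk => add_le_add
    (mul_le_mul_of_nonneg_left (add_le_add (mul_le_mul_of_nonneg_left (key kk false false) b0)
      (mul_le_mul_of_nonneg_left (key kk false true) hb.1)) b0)
    (mul_le_mul_of_nonneg_left (add_le_add (mul_le_mul_of_nonneg_left (key kk true false) b0)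
      (mul_le_mul_of_nonneg_left (key kk true true) hb.1)) hb.1)
  simp only [mix, Node.val, W0, W1]
  refine le_trans (le_of_eq ?_) ((add_le_add (mul_le_mul_of_nonneg_left (q false) l0)
    (mul_le_mul_of_nonneg_left (q true) hl.1)).trans (le_of_eq ?_))
  · ring
  · ring

end Vale.Agent.P237.All.Transport.Mid
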